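import Vale.Agent.P287.Theta.CountA

/-!
Counting sections: the space of polynomials `β` of total degree at most `m` whose square is
divisible (in the sense of a theta characteristic) by `h` on the sextic curve `f = 0` has
dimension at least `6 m - 9 - 3 d`.
-/

namespace Vale.Agent.P287.Theta

open Polynomial Module

lemma exists_unit_combo {A : Type} [CommRing A] [IsArtinianRing A] {ι : Type}
    (U : ι → ι → A) (hU : ∀ P : Ideal A, P.IsMaximal → ∃ k, U k k ∉ P) :
    ∃ (T : Type) (_ : Fintype T) (e : T → A) (κ : T → ι),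
      IsUnit (∑ t, ∑ t', e t * (e t' * U (κ t') (κ t))) := by
  classical
  have hfin : Finite (MaximalSpectrum A) := inferInstance
  have : Fintype (MaximalSpectrum A) := Fintype.ofFinite _
  choose κ hκ using fun P : MaximalSpectrum A => hU P.asIdeal P.isMaximal
  have hcop : Pairwise fun P Q : MaximalSpectrum A => IsCoprime P.asIdeal Q.asIdeal := by
    intro P Q hPQ
    have hP := P.isMaximal
    have hQ := Q.isMaximal
    exact Ideal.isCoprime_of_isMaximal fun h => hPQ (MaximalSpectrum.ext h)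
  choose e he using fun P : MaximalSpectrum A =>
    Ideal.exists_forall_sub_mem_ideal (I := fun Q : MaximalSpectrum A => Q.asIdeal)
      hcop (fun Q => if P = Q then (1 : A) else 0)
  refine ⟨MaximalSpectrum A, this, e, κ, ?_⟩
  by_contra hnu
  obtain ⟨P, hP, hPm⟩ := exists_max_ideal_of_mem_nonunits hnu
  set P0 : MaximalSpectrum A := ⟨P, hP⟩ with hP0
  have hq : ∀ Q, Ideal.Quotient.mk P (e Q) = if Q = P0 then 1 else 0 := by
    intro Q
    have h1 := he Q P0
    have h2 : Ideal.Quotient.mk P (e Q) =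
        Ideal.Quotient.mk P (if Q = P0 then (1 : A) else 0) := by
      rw [Ideal.Quotient.eq]
      exact h1
    rw [h2]
    split_ifs <;> simp
  rw [← Ideal.Quotient.eq_zero_iff_mem, map_sum, Finset.sum_eq_single P0, map_sum,
    Finset.sum_eq_single P0, map_mul, map_mul, hq, if_pos rfl, one_mul, one_mul] at hPm
  · exact hκ P0 (Ideal.Quotient.eq_zero_iff_mem.mp hPm)
  · intro Q _ hQ
    rw [map_mul, map_mul, hq Q, if_neg hQ, zero_mul, mul_zero]
  · intro h
    exact absurd (Finset.mem_univ _) h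
  · intro Q _ hQ
    rw [map_sum]
    refine Finset.sum_eq_zero fun Q' _ => ?_
    rw [map_mul, hq Q, if_neg hQ, zero_mul]
  · intro h
    exact absurd (Finset.mem_univ _) h

section

variable {A : Type} [CommRing A] [Algebra ℂ A] {π : ℂ[X][X] →ₐ[ℂ] A}

/-- Maximal ideals of `ℂ[x,y]/(h,f)` are points of `h = f = 0`. -/
lemma exists_point (hfin : Module.Finite ℂ A) (P : Ideal A)
    (hP : P.IsMaximal) : ∃ x y : ℂ, ∀ p, π p ∈ P ↔ evalEval x y p = 0 := by
  have : Module.Finite ℂ (A ⧸ P) := Module.Finite.of_surjective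
    (Ideal.Quotient.mkₐ ℂ P).toLinearMap Ideal.Quotient.mk_surjective
  have hdom : IsDomain (A ⧸ P) := Ideal.Quotient.isDomain P
  have hbij := IsAlgClosed.algebraMap_bijective_of_isIntegral (k := ℂ) (K := A ⧸ P)
  set e : ℂ ≃+* (A ⧸ P) := RingEquiv.ofBijective (algebraMap ℂ (A ⧸ P)) hbij with he
  set φ : ℂ[X][X] →+* ℂ := (e.symm : (A ⧸ P) →+* ℂ).comp ((Ideal.Quotient.mk P).comp
    (π : ℂ[X][X] →+* A)) with hφ
  have hφC : ∀ c : ℂ, φ (C (C c)) = c := by
    intro c
    have h1 : π (C (C c)) = algebraMap ℂ A c := by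
      have := π.commutes c
      rw [← this]
      rfl
    have h2 : Ideal.Quotient.mk P (π (C (C c))) = e c := by
      rw [h1]
      rfl
    change e.symm (Ideal.Quotient.mk P (π (C (C c)))) = c
    rw [h2, RingEquiv.symm_apply_apply]
  refine ⟨φ (C X), φ X, fun p => ?_⟩
  have h3 : φ = evalEvalRingHom (φ (C X)) (φ X) := by
    apply Polynomial.ringHom_ext'
    · apply Polynomial.ringHom_ext'
      · ext c
        simp [hφC]
      · simp
    · simp
  have h4 : φ p = evalEval (φ (C X)) (φ X) p := by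
    conv_lhs => rw [h3]
    rfl
  rw [← h4, ← Ideal.Quotient.eq_zero_iff_mem]
  change _ ↔ e.symm (Ideal.Quotient.mk P (π p)) = 0
  rw [map_eq_zero_iff _ e.symm.injective]

end

lemma exists_indep_ker {K V A : Type*} [Field K] [AddCommGroup V] [Module K V]
    [FiniteDimensional K V] [AddCommGroup A] [Module K A] [FiniteDimensional K A]
    (κ : V →ₗ[K] A) (T : A →ₗ[K] A) (hT : ∀ x, T (T x) = 0) (hκ : ∀ v, ∃ a, κ v = T a)
    (N D : ℕ) (hA : finrank K A ≤ 2 * D) (hN : N + D ≤ finrank K V) :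
    ∃ v : Fin N → V, LinearIndependent K v ∧ ∀ i, κ (v i) = 0 := by
  have h1 : LinearMap.range T ≤ LinearMap.ker T := by
    rintro _ ⟨x, rfl⟩
    exact hT x
  have h2 := Submodule.finrank_mono h1
  have h3 := T.finrank_range_add_finrank_ker
  have h4 : LinearMap.range κ ≤ LinearMap.range T := by
    rintro _ ⟨x, rfl⟩
    obtain ⟨a, ha⟩ := hκ x
    exact ⟨a, ha.symm⟩
  have h5 := Submodule.finrank_mono h4
  have h6 := κ.finrank_range_add_finrank_ker
  have h7 : N ≤ finrank K (LinearMap.ker κ) := by omega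
  obtain ⟨v, hv⟩ := exists_linearIndependent_of_le_finrank h7
  exact ⟨fun i => v i, hv.map' (LinearMap.ker κ).subtype (Submodule.ker_subtype _),
    fun i => (v i).2⟩

/-- The counting lemma, for an abstract model of `ℂ[x,y]/(h,f)`. -/
theorem Quot.exists_sections {f F h : ℂ[X][X]} {A : Type} [CommRing A] [Algebra ℂ A]
    {π : ℂ[X][X] →ₐ[ℂ] A} (Q : Quot f h π) (S : Sextic f F)
    (d : ℕ) (hh : WD d h) (hfh : ¬ f ∣ h) {ι : Type} (γ : ι → ℂ[X][X])
    (u : ι → ι → ℂ[X][X]) (hγ : ∀ k l, f ∣ γ k * γ l - h * u k l)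
    (hu : ∀ x y : ℂ, evalEval x y f = 0 → evalEval x y h = 0 → ∃ k, evalEval x y (u k k) ≠ 0)
    (m N : ℕ) (hm : 5 ≤ m) (hN : N + 9 + 3 * d ≤ 6 * m) :
    ∃ β : Fin N → ℂ[X][X], (∀ i, WD m (β i)) ∧ (∀ i, (β i).natDegree ≤ 5) ∧
      (∀ i k, π (β i * γ k) = 0) ∧
      ∀ c : Fin N → ℂ, f ∣ ∑ i, C (C (c i)) * β i → c = 0 := by
  classical
  obtain ⟨hfin, hdim⟩ := Q.finite_and S hh hfh
  have hart : IsArtinianRing A := IsArtinianRing.of_finite ℂ A
  obtain ⟨T, hTfin, e, κ, hunit⟩ := exists_unit_combo (fun k l => π (u k l)) (by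
    intro P hP
    obtain ⟨x, y, hxy⟩ := exists_point (π := π) hfin P hP
    obtain ⟨k, hk⟩ := hu x y ((hxy f).mp (by rw [Q.f_eq]; exact P.zero_mem))
      ((hxy h).mp (by rw [Q.h_eq]; exact P.zero_mem))
    exact ⟨k, fun h1 => hk ((hxy _).mp h1)⟩)
  choose E hE using fun t => Q.surj (e t)
  -- the generic combination
  set G : ℂ[X][X] := ∑ t, E t * γ (κ t) with hG
  set W : ι → ℂ[X][X] := fun l => ∑ t', E t' * u (κ t') l with hW
  set U : ℂ[X][X] := ∑ t, E t * W (κ t) with hU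
  have hUunit : IsUnit (π U) := by
    have : π U = ∑ t, ∑ t', e t * (e t' * π (u (κ t') (κ t))) := by
      rw [hU, map_sum]
      refine Finset.sum_congr rfl fun t _ => ?_
      rw [map_mul, hE, hW, map_sum, Finset.mul_sum]
      refine Finset.sum_congr rfl fun t' _ => ?_
      rw [map_mul, hE]
    rw [this]
    exact hunit
  have hGγ : ∀ l, f ∣ G * γ l - h * W l := by
    intro l
    have : G * γ l - h * W l = ∑ t, E t * (γ (κ t) * γ l - h * u (κ t) l) := by
      rw [hG, hW, Finset.sum_mul, Finset.mul_sum, ← Finset.sum_sub_distrib]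
      exact Finset.sum_congr rfl fun t _ => by ring
    rw [this]
    exact Finset.dvd_sum fun t _ => (hγ _ _).mul_left _
  have hGG : f ∣ G * G - h * U := by
    have : G * G - h * U = ∑ t, E t * (G * γ (κ t) - h * W (κ t)) := by
      conv_lhs => enter [1, 2]; rw [hG]
      rw [hU, Finset.mul_sum, Finset.mul_sum, ← Finset.sum_sub_distrib]
      exact Finset.sum_congr rfl fun t _ => by ring
    rw [this]
    exact Finset.dvd_sum fun t _ => (hGγ _).mul_left _
  have hUγ : ∀ l, f ∣ U * γ l - G * W l := by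
    intro l
    have h1 : f ∣ h * (U * γ l - G * W l) := by
      have : h * (U * γ l - G * W l) =
          G * (G * γ l - h * W l) - (G * G - h * U) * γ l := by ring
      rw [this]
      exact dvd_sub ((hGγ l).mul_left _) (hGG.mul_right _)
    exact (S.prime.dvd_or_dvd h1).resolve_left hfh
  have hπf : ∀ p, f ∣ p → π p = 0 := by
    rintro _ ⟨q, rfl⟩
    rw [map_mul, Q.f_eq, zero_mul]
  have hπGG : π G * π G = 0 := by
    have := hπf _ hGG
    rw [map_sub, map_mul, map_mul, Q.h_eq, zero_mul, sub_zero] at this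
    exact this
  -- linear algebra
  obtain ⟨v, hvi, hv0⟩ := exists_indep_ker (K := ℂ) (V := EE m) (A := A)
    ((LinearMap.mulLeft ℂ (π G)) ∘ₗ quotMap π m) (LinearMap.mulLeft ℂ (π G))
    (fun x => by
      rw [LinearMap.mulLeft_apply, LinearMap.mulLeft_apply, ← mul_assoc, hπGG, zero_mul])
    (fun v => ⟨quotMap π m v, rfl⟩) N (3 * d) (by omega)
    (by have := finrank_EE_of_le hm; omega)
  refine ⟨fun i => (v i : ℂ[X][X]), fun i => (v i).2.1, fun i => (v i).2.2, ?_, ?_⟩
  · intro i k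
    have h1 : π G * π (v i : ℂ[X][X]) = 0 := hv0 i
    have h2 : π U * π (γ k) = π G * π (W k) := by
      have := hπf _ (hUγ k)
      rw [map_sub, map_mul, map_mul, sub_eq_zero] at this
      exact this
    have h3 : π U * π ((v i : ℂ[X][X]) * γ k) = 0 := by
      rw [map_mul]
      calc π U * (π (v i : ℂ[X][X]) * π (γ k)) = π (v i : ℂ[X][X]) * (π U * π (γ k)) := by ring
        _ = (π G * π (v i : ℂ[X][X])) * π (W k) := by rw [h2]; ring
        _ = 0 := by rw [h1, zero_mul]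
    exact (hUunit.mul_right_eq_zero).mp h3
  · intro c hc
    have h1 : (∑ i, C (C (c i)) * (v i : ℂ[X][X])) = ((∑ i, c i • v i : EE m) : ℂ[X][X]) := by
      rw [Submodule.coe_sum]
      refine Finset.sum_congr rfl fun i _ => ?_
      rw [Submodule.coe_smul, CC_smul]
    rw [h1] at hc
    have h2 := S.eq_zero (∑ i, c i • v i : EE m).2.2 hc
    have h3 : (∑ i, c i • v i : EE m) = 0 := Subtype.ext h2
    exact funext ((Fintype.linearIndependent_iff.mp hvi) c h3)

lemma exists_quot (f h : ℂ[X][X]) : ∃ (A : Type) (_ : CommRing A) (_ : Algebra ℂ A)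
    (π : ℂ[X][X] →ₐ[ℂ] A), Quot f h π := by
  refine ⟨ℂ[X][X] ⧸ Ideal.span {h, f}, Ideal.Quotient.commRing _, Ideal.Quotient.algebra ℂ,
    Ideal.Quotient.mkₐ ℂ _, ?_, ?_⟩
  · exact Ideal.Quotient.mk_surjective
  · intro p
    exact Ideal.Quotient.eq_zero_iff_mem

/-- The counting lemma: `V_m = {β : β² ∈ (h,f)·…}` has dimension at least `6 m - 9 - 3 d`. -/
theorem exists_sections (f h : ℂ[X][X]) (hf : Prime f) (hfW : WD 6 f)
    (hf6 : ∃ c : ℂ, c ≠ 0 ∧ f.coeff 6 = C c) (d : ℕ) (hh : WD d h) (hfh : ¬ f ∣ h)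
    {ι : Type} (γ : ι → ℂ[X][X]) (u : ι → ι → ℂ[X][X])
    (hγ : ∀ k l, f ∣ γ k * γ l - h * u k l)
    (hu : ∀ x y : ℂ, evalEval x y f = 0 → evalEval x y h = 0 → ∃ k, evalEval x y (u k k) ≠ 0)
    (m N : ℕ) (hm : 5 ≤ m) (hN : N + 9 + 3 * d ≤ 6 * m) :
    ∃ β : Fin N → ℂ[X][X], (∀ i, WD m (β i)) ∧ (∀ i, (β i).natDegree ≤ 5) ∧
      (∀ i k, β i * γ k ∈ Ideal.span {h, f}) ∧
      ∀ c : Fin N → ℂ, f ∣ ∑ i, C (C (c i)) * β i → c = 0 := by
  obtain ⟨F, S⟩ := Sextic.mk' hf hfW hf6
  obtain ⟨A, _, _, π, Q⟩ := exists_quot f h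
  obtain ⟨β, h1, h2, h3, h4⟩ := Q.exists_sections S d hh hfh γ u hγ hu m N hm hN
  exact ⟨β, h1, h2, fun i k => (Q.ker _).mp (h3 i k), h4⟩

end Vale.Agent.P287.Theta
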