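import Vale.Agent.P287.Theta.Glue

/-!
Lifts of a Lagrangian subspace over the residue field `F[X]/(g)`.
-/

set_option linter.unusedSectionVars false

namespace Vale.Agent.P287.Theta

open Module Matrix Polynomial

theorem exists_w (k : Type*) [Field k] [IsAlgClosed k] [CharZero k]
    {F : Type*} [Field F] [Algebra k[X] F] [IsFractionRing k[X] F]
    {n : ℕ} (M' : Matrix (Fin (2 * n)) (Fin (2 * n)) F[X]) (sM' : M'.IsSymm) {g : F[X]}
    (hg : Prime g) (hd : ¬ g ∣ M'.det) (hsq : ∃ s c, ¬ g ∣ c ∧ g ∣ c ^ 2 * M'.det - s ^ 2) :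
    ∃ w : Fin n → Fin (2 * n) → F[X], (∀ i j, g ∣ w i ⬝ᵥ M' *ᵥ w j) ∧
      ∀ x : Fin (2 * n) → F[X], (∀ i, g ∣ x ⬝ᵥ M' *ᵥ w i) →
        ∃ (c : Fin n → F[X]) (y : Fin (2 * n) → F[X]), x = ∑ i, c i • w i + g • y := by
  classical
  have : Fact (Irreducible g) := ⟨hg.irreducible⟩
  let κ := AdjoinRoot g
  have hfin : FiniteDimensional F κ := (AdjoinRoot.powerBasis hg.ne_zero).finite
  set π : F[X] →+* κ := AdjoinRoot.mk g with hπ
  have hπ0 : ∀ p, π p = 0 ↔ g ∣ p := fun p => AdjoinRoot.mk_eq_zero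
  have hπs : Function.Surjective π := AdjoinRoot.mk_surjective
  have hdet : (M'.map π).det = π M'.det := by
    rw [RingHom.map_det]; rfl
  have hGs : (M'.map π).IsSymm := by
    rw [Matrix.IsSymm, ← Matrix.transpose_map, sM'.eq]
  have hG0 : (M'.map π).det ≠ 0 := by
    rw [hdet, Ne, hπ0]; exact hd
  obtain ⟨s, c, hc, hcs⟩ := hsq
  have hc0 : π c ≠ 0 := by rw [Ne, hπ0]; exact hc
  obtain ⟨U, hU, hUn⟩ := exists_lagrangian_residue k F (κ := κ) (m := n) (ι := Fin (2 * n))
    (by rw [Fintype.card_fin]) (M'.map π) hGs hG0 (by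
      refine ⟨π s / π c, ?_⟩
      rw [hdet]
      have h1 := (hπ0 _).mpr hcs
      rw [map_sub, map_mul, map_pow, map_pow, sub_eq_zero] at h1
      rw [div_mul_div_comm, eq_div_iff (mul_ne_zero hc0 hc0)]
      linear_combination h1)
  have b : Basis (Fin n) κ U := (finBasis κ U).reindex (finCongr hUn)
  have hlift : ∀ i, ∃ w : Fin (2 * n) → F[X], ∀ j, π (w j) = (b i : Fin (2 * n) → κ) j := by
    intro i
    choose w hw using fun j => hπs ((b i : Fin (2 * n) → κ) j)
    exact ⟨w, hw⟩
  choose w hw using hlift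
  have hpair : ∀ x y : Fin (2 * n) → F[X], π (x ⬝ᵥ M' *ᵥ y) =
      (fun j => π (x j)) ⬝ᵥ M'.map π *ᵥ (fun j => π (y j)) := by
    intro x y
    rw [RingHom.map_dotProduct]
    congr 1
    funext j
    exact π.map_mulVec M' y j
  have hwf : ∀ i, (fun j => π (w i j)) = (b i : Fin (2 * n) → κ) := fun i => funext (hw i)
  refine ⟨w, fun i j => ?_, fun x hx => ?_⟩
  · rw [← hπ0, hpair, hwf, hwf]
    exact hU _ (b i).2 _ (b j).2
  · have hB : (Matrix.toBilin' (M'.map π)).IsRefl := by
      intro u v huv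
      rw [Matrix.toBilin'_apply', Matrix.dotProduct_mulVec, ← Matrix.mulVec_transpose, hGs.eq,
        dotProduct_comm]
      rw [Matrix.toBilin'_apply'] at huv
      exact huv
    have hle : U ≤ (Matrix.toBilin' (M'.map π)).orthogonal U := by
      intro u hu v hv
      change Matrix.toBilin' (M'.map π) v u = 0
      rw [Matrix.toBilin'_apply']
      exact hU _ hv _ hu
    have heq : U = (Matrix.toBilin' (M'.map π)).orthogonal U := by
      refine Submodule.eq_of_le_of_finrank_eq hle ?_
      rw [LinearMap.BilinForm.finrank_orthogonal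
        (LinearMap.BilinForm.nondegenerate_toBilin'_of_det_ne_zero' _ hG0),
        finrank_fintype_fun_eq_card, Fintype.card_fin, hUn]
      omega
    have hxU : (fun j => π (x j)) ∈ U := by
      rw [heq]
      intro v hv
      change Matrix.toBilin' (M'.map π) v _ = 0
      have h1 := b.sum_repr ⟨v, hv⟩
      have h2 : v = ∑ i, b.repr ⟨v, hv⟩ i • (b i : Fin (2 * n) → κ) := by
        have := congrArg U.subtype h1
        rw [map_sum] at this
        exact this.symm
      rw [h2, map_sum, LinearMap.sum_apply]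
      refine Finset.sum_eq_zero fun i _ => ?_
      rw [map_smul, LinearMap.smul_apply]
      have h3 := (hπ0 _).mpr (hx i)
      rw [hpair, hwf, ← Matrix.toBilin'_apply'] at h3
      rw [hB _ _ h3, smul_zero]
    have h1 := b.sum_repr ⟨_, hxU⟩
    choose c hc using fun i => hπs (b.repr ⟨_, hxU⟩ i)
    have h2 : ∀ j, g ∣ x j - ∑ i, c i * w i j := by
      intro j
      rw [← hπ0, map_sub, map_sum, sub_eq_zero]
      have h3 := congrFun (congrArg U.subtype h1) j
      rw [map_sum, Finset.sum_apply] at h3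
      change _ = π (x j) at h3
      rw [← h3]
      refine Finset.sum_congr rfl fun i _ => ?_
      rw [map_mul, hc, hw]
      rfl
    choose y hy using h2
    refine ⟨c, y, ?_⟩
    funext j
    rw [Pi.add_apply, Finset.sum_apply, Pi.smul_apply]
    simp only [Pi.smul_apply, smul_eq_mul]
    linear_combination hy j

end Vale.Agent.P287.Theta
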