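import Mathlib

/-!
From a Lagrangian subspace of `Q ⊥ -γ G` to a similarity `Q ⊥ H ≃ γ G`.
-/

namespace Vale.Agent.P287.Theta

open Module Matrix

variable {K : Type*} [Field K]

lemma symm_bil {n : ℕ} {Q : Matrix (Fin n) (Fin n) K} (hQ : Q.IsSymm) (x y : Fin n → K) :
    x ⬝ᵥ Q *ᵥ y = y ⬝ᵥ Q *ᵥ x := by
  rw [Matrix.dotProduct_mulVec, ← Matrix.mulVec_transpose, hQ.eq, dotProduct_comm]

lemma exists_isotropic_of_binary {Q : Matrix (Fin 4) (Fin 4) K} {G : Matrix (Fin 2) (Fin 2) K}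
    {γ : K} (U : Submodule K (Fin 4 ⊕ Fin 2 → K))
    (hU : ∀ x ∈ U, ∀ y ∈ U, (fun i => x (Sum.inl i)) ⬝ᵥ Q *ᵥ (fun i => y (Sum.inl i)) -
      γ * ((fun i => x (Sum.inr i)) ⬝ᵥ G *ᵥ (fun i => y (Sum.inr i))) = 0)
    (hd : finrank K U = 3) : ∃ v : Fin 4 → K, v ≠ 0 ∧ v ⬝ᵥ Q *ᵥ v = 0 := by
  let p2 : U →ₗ[K] (Fin 2 → K) := (LinearMap.funLeft K K Sum.inr) ∘ₗ U.subtype
  have h1 : 0 < finrank K (LinearMap.ker p2) := by
    have h2 := LinearMap.finrank_range_add_finrank_ker p2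
    have h3 : finrank K (LinearMap.range p2) ≤ 2 := by
      have := Submodule.finrank_le (LinearMap.range p2)
      rwa [finrank_fintype_fun_eq_card, Fintype.card_fin] at this
    omega
  have hne : LinearMap.ker p2 ≠ ⊥ := by
    intro h
    rw [h, finrank_bot] at h1
    omega
  obtain ⟨⟨u, hu⟩, hu2, hu0⟩ := Submodule.exists_mem_ne_zero_of_ne_bot hne
  have hu2' : (fun i => u (Sum.inr i)) = (0 : Fin 2 → K) := hu2
  refine ⟨fun i => u (Sum.inl i), fun h0 => hu0 ?_, ?_⟩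
  · apply Subtype.ext
    funext j
    rcases j with j | j
    · exact congrFun h0 j
    · exact congrFun hu2' j
  · have := hU u hu u hu
    rwa [hu2', Matrix.mulVec_zero, dotProduct_zero, mul_zero, sub_zero] at this

theorem exists_similarity {Q : Matrix (Fin 4) (Fin 4) K} {G : Matrix (Fin 6) (Fin 6) K}
    (h2 : (2 : K) ≠ 0) (hG : G.IsSymm) (hG0 : G.det ≠ 0) {γ : K} (hγ : γ ≠ 0)
    (U : Submodule K (Fin 4 ⊕ Fin 6 → K))
    (hU : ∀ x ∈ U, ∀ y ∈ U, (fun i => x (Sum.inl i)) ⬝ᵥ Q *ᵥ (fun i => y (Sum.inl i)) -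
      γ * ((fun i => x (Sum.inr i)) ⬝ᵥ G *ᵥ (fun i => y (Sum.inr i))) = 0)
    (hd : finrank K U = 5) :
    (∃ v : Fin 4 → K, v ≠ 0 ∧ v ⬝ᵥ Q *ᵥ v = 0) ∨
      ∃ φ : ((Fin 4 → K) × K × K) ≃ₗ[K] (Fin 6 → K),
        ∀ v a b, φ (v, a, b) ⬝ᵥ G *ᵥ φ (v, a, b) = γ⁻¹ * (v ⬝ᵥ Q *ᵥ v + a * b) := by
  by_cases hiso : ∃ v : Fin 4 → K, v ≠ 0 ∧ v ⬝ᵥ Q *ᵥ v = 0
  · exact Or.inl hiso
  right
  have han : ∀ v : Fin 4 → K, v ⬝ᵥ Q *ᵥ v = 0 → v = 0 := by
    intro v hv
    by_contra h0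
    exact hiso ⟨v, h0, hv⟩
  have hB : (Matrix.toBilin' G).IsRefl := by
    intro u v huv
    rw [Matrix.toBilin'_apply'] at huv ⊢
    rw [symm_bil hG, huv]
  have hnd := LinearMap.BilinForm.nondegenerate_toBilin'_of_det_ne_zero' G hG0
  let p1 : U →ₗ[K] (Fin 4 → K) := (LinearMap.funLeft K K Sum.inl) ∘ₗ U.subtype
  let p2 : U →ₗ[K] (Fin 6 → K) := (LinearMap.funLeft K K Sum.inr) ∘ₗ U.subtype
  have hp2 : Function.Injective p2 := by
    rw [injective_iff_map_eq_zero]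
    rintro ⟨u, hu⟩ hu2
    have hu2' : (fun i => u (Sum.inr i)) = (0 : Fin 6 → K) := hu2
    have h3 := hU u hu u hu
    rw [hu2', Matrix.mulVec_zero, dotProduct_zero, mul_zero, sub_zero] at h3
    have h4 := han _ h3
    apply Subtype.ext
    funext j
    rcases j with j | j
    · exact congrFun h4 j
    · exact congrFun hu2' j
  have hr2 : finrank K (LinearMap.range p2) = 5 := by
    rw [LinearMap.finrank_range_of_inj hp2, hd]
  -- the kernel of `p1`
  let C0 : Submodule K (Fin 6 → K) := (LinearMap.ker p1).map p2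
  have hC0 : finrank K C0 = finrank K (LinearMap.ker p1) :=
    (Submodule.equivMapOfInjective p2 hp2 _).finrank_eq.symm
  have hle : LinearMap.range p2 ≤ (Matrix.toBilin' G).orthogonal C0 := by
    rintro _ ⟨⟨u, hu⟩, rfl⟩ _ ⟨⟨c, hc⟩, hc1, rfl⟩
    change Matrix.toBilin' G (p2 ⟨c, hc⟩) (p2 ⟨u, hu⟩) = 0
    have hc1' : (fun i => c (Sum.inl i)) = (0 : Fin 4 → K) := hc1
    have h3 := hU c hc u hu
    rw [hc1', zero_dotProduct, zero_sub, neg_eq_zero] at h3
    rw [Matrix.toBilin'_apply']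
    exact (mul_eq_zero.mp h3).resolve_left hγ
  have h5 := Submodule.finrank_mono hle
  rw [hr2, LinearMap.BilinForm.finrank_orthogonal hnd, finrank_fintype_fun_eq_card,
    Fintype.card_fin, hC0] at h5
  have h6 := LinearMap.finrank_range_add_finrank_ker p1
  have h7 : finrank K (LinearMap.range p1) ≤ 4 := by
    have := Submodule.finrank_le (LinearMap.range p1)
    rwa [finrank_fintype_fun_eq_card, Fintype.card_fin] at this
  rw [hd] at h6
  have h8 : finrank K (LinearMap.range p1) = 4 := by omega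
  have hp1 : Function.Surjective p1 := by
    rw [← LinearMap.range_eq_top]
    refine Submodule.eq_top_of_finrank_eq ?_
    rw [h8, finrank_fintype_fun_eq_card, Fintype.card_fin]
  -- the isotropic vector
  have h9 : 0 < finrank K (LinearMap.ker p1) := by omega
  have hne : LinearMap.ker p1 ≠ ⊥ := by
    intro h
    rw [h, finrank_bot] at h9
    omega
  obtain ⟨⟨u0, hu0⟩, hu01, hu0n⟩ := Submodule.exists_mem_ne_zero_of_ne_bot hne
  have hu01' : (fun i => u0 (Sum.inl i)) = (0 : Fin 4 → K) := hu01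
  set e : Fin 6 → K := fun i => u0 (Sum.inr i) with he
  have he0 : e ≠ 0 := by
    intro h
    apply hu0n
    apply Subtype.ext
    funext j
    rcases j with j | j
    · exact congrFun hu01' j
    · exact congrFun h j
  have hee : e ⬝ᵥ G *ᵥ e = 0 := by
    have h3 := hU u0 hu0 u0 hu0
    rw [hu01', zero_dotProduct, zero_sub, neg_eq_zero] at h3
    exact (mul_eq_zero.mp h3).resolve_left hγ
  -- the isometric embedding
  obtain ⟨s, hs⟩ := p1.exists_rightInverse_of_surjective (LinearMap.range_eq_top.mpr hp1)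
  let ψ : (Fin 4 → K) →ₗ[K] (Fin 6 → K) := p2 ∘ₗ s
  have hs1 : ∀ v, (fun i => (s v : Fin 4 ⊕ Fin 6 → K) (Sum.inl i)) = v := fun v =>
    LinearMap.congr_fun hs v
  have hs2 : ∀ v, (fun i => (s v : Fin 4 ⊕ Fin 6 → K) (Sum.inr i)) = ψ v := fun v => rfl
  have hψ : ∀ v v', ψ v ⬝ᵥ G *ᵥ ψ v' = γ⁻¹ * (v ⬝ᵥ Q *ᵥ v') := by
    intro v v'
    have h3 := hU _ (s v).2 _ (s v').2
    rw [hs1, hs1, hs2, hs2] at h3
    field_simp
    linear_combination -h3
  have heψ : ∀ v, e ⬝ᵥ G *ᵥ ψ v = 0 := by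
    intro v
    have h3 := hU u0 hu0 _ (s v).2
    rw [hu01', zero_dotProduct, zero_sub, neg_eq_zero, hs2] at h3
    exact (mul_eq_zero.mp h3).resolve_left hγ
  have hψi : Function.Injective ψ := by
    rw [injective_iff_map_eq_zero]
    intro v hv
    apply han
    have h3 := hψ v v
    rw [hv, zero_dotProduct] at h3
    exact ((mul_eq_zero.mp h3.symm).resolve_left (inv_ne_zero hγ))
  -- a partner
  obtain ⟨x, hx, hex⟩ : ∃ x, (∀ v, x ⬝ᵥ G *ᵥ ψ v = 0) ∧ e ⬝ᵥ G *ᵥ x ≠ 0 := by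
    by_contra hcon
    push Not at hcon
    have h3 : e ∈ (Matrix.toBilin' G).orthogonal
        ((Matrix.toBilin' G).orthogonal (LinearMap.range ψ)) := by
      intro y hy
      change Matrix.toBilin' G y e = 0
      rw [Matrix.toBilin'_apply', symm_bil hG]
      apply hcon
      intro v
      have h4 : Matrix.toBilin' G (ψ v) y = 0 := hy _ ⟨v, rfl⟩
      rw [Matrix.toBilin'_apply'] at h4
      rw [symm_bil hG]
      exact h4
    rw [LinearMap.BilinForm.orthogonal_orthogonal hnd hB] at h3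
    obtain ⟨v, hv⟩ := h3
    have h4 := hψ v v
    rw [hv, hee] at h4
    have h5 := han v ((mul_eq_zero.mp h4.symm).resolve_left (inv_ne_zero hγ))
    rw [h5, map_zero] at hv
    exact he0 hv.symm
  -- normalise
  set c : K := e ⬝ᵥ G *ᵥ x with hc
  set x1 : Fin 6 → K := (2 * γ * c)⁻¹ • x with hx1
  have hγc : 2 * γ * c ≠ 0 := mul_ne_zero (mul_ne_zero h2 hγ) hex
  have hex1 : e ⬝ᵥ G *ᵥ x1 = (2 * γ)⁻¹ := by
    rw [hx1, Matrix.mulVec_smul, dotProduct_smul, smul_eq_mul, ← hc]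
    field_simp
  have hx1ψ : ∀ v, x1 ⬝ᵥ G *ᵥ ψ v = 0 := by
    intro v
    rw [hx1, smul_dotProduct, hx, smul_zero]
  clear_value x1
  set e' : Fin 6 → K := x1 - (γ * (x1 ⬝ᵥ G *ᵥ x1)) • e with he'
  have hee' : e ⬝ᵥ G *ᵥ e' = (2 * γ)⁻¹ := by
    rw [he', Matrix.mulVec_sub, Matrix.mulVec_smul, dotProduct_sub, dotProduct_smul, hee, hex1]
    simp
  have he'e' : e' ⬝ᵥ G *ᵥ e' = 0 := by
    have h3 : x1 ⬝ᵥ G *ᵥ e = (2 * γ)⁻¹ := by rw [symm_bil hG, hex1]
    rw [he', Matrix.mulVec_sub, Matrix.mulVec_smul, dotProduct_sub, sub_dotProduct,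
      dotProduct_smul, sub_dotProduct, smul_dotProduct, smul_dotProduct, hee, hex1, h3]
    simp only [smul_eq_mul]
    field_simp
    ring
  have he'ψ : ∀ v, e' ⬝ᵥ G *ᵥ ψ v = 0 := by
    intro v
    rw [he', sub_dotProduct, smul_dotProduct, hx1ψ, heψ, smul_zero, sub_zero]
  clear_value e'
  -- the equivalence
  let L : ((Fin 4 → K) × K × K) →ₗ[K] (Fin 6 → K) :=
    ψ.coprod ((LinearMap.toSpanSingleton K _ e).coprod (LinearMap.toSpanSingleton K _ e'))
  have hL : ∀ v a b, L (v, a, b) = ψ v + (a • e + b • e') := fun v a b => rfl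
  have hLi : Function.Injective L := by
    rw [injective_iff_map_eq_zero]
    rintro ⟨v, a, b⟩ h0
    rw [hL] at h0
    have k1 := congrArg (fun y => e ⬝ᵥ G *ᵥ y) h0
    have k2 := congrArg (fun y => e' ⬝ᵥ G *ᵥ y) h0
    have hi : (2 * γ)⁻¹ ≠ 0 := inv_ne_zero (mul_ne_zero h2 hγ)
    simp only [Matrix.mulVec_add, Matrix.mulVec_smul, dotProduct_add, dotProduct_smul, heψ, hee,
      hee', he'ψ, he'e', Matrix.mulVec_zero, dotProduct_zero, mul_zero, zero_add, add_zero,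
      smul_eq_mul, symm_bil hG e' e] at k1 k2
    have hb : b = 0 := (mul_eq_zero.mp k1).resolve_right hi
    have ha : a = 0 := (mul_eq_zero.mp k2).resolve_right hi
    subst ha hb
    rw [zero_smul, zero_smul, add_zero, add_zero] at h0
    have hv := hψi (h0.trans ψ.map_zero.symm)
    rw [hv]
    rfl
  have hfr : finrank K ((Fin 4 → K) × K × K) = finrank K (Fin 6 → K) := by
    simp
  refine ⟨L.linearEquivOfInjective hLi hfr, fun v a b => ?_⟩
  rw [LinearMap.linearEquivOfInjective_apply, hL]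
  simp only [Matrix.mulVec_add, Matrix.mulVec_smul, dotProduct_add, add_dotProduct,
    dotProduct_smul, smul_dotProduct, heψ, hee, hee', he'ψ, he'e', hψ, mul_zero, zero_add,
    add_zero, smul_eq_mul, symm_bil hG e' e, symm_bil hG (ψ v) e, symm_bil hG (ψ v) e']
  field_simp
  ring

end Vale.Agent.P287.Theta
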