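import Vale.Agent.P287.Theta.Chart
import Vale.Agent.P287.Theta.Similar
import Vale.Agent.P287.Theta.LagrMod

/-!
The glueing theorem for matrices over `ℂ[x][y]`.
-/

set_option linter.unusedSectionVars false

namespace Vale.Agent.P287.Theta

open Module Matrix Polynomial Vale.Agent.P287

/-- The adjugate of a matrix has rank at most one modulo a prime divisor of the determinant. -/
lemma dvd_minor_adjugate {R : Type*} [CommRing R] {n : ℕ}
    (M : Matrix (Fin (n + 1)) (Fin (n + 1)) R) {f : R} (hf : Prime f) (hM : f ∣ M.det)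
    (hδ : ¬ f ∣ M.adjugate 0 0) (i j : Fin (n + 1)) :
    f ∣ M.adjugate 0 0 * M.adjugate i j - M.adjugate i 0 * M.adjugate 0 j := by
  set δ := M.adjugate 0 0 with hδd
  set x : Fin (n + 1) → R := fun i => δ * M.adjugate i j - M.adjugate i 0 * M.adjugate 0 j with hx
  have hx0 : x 0 = 0 := by
    simp only [hx, ← hδd]
    ring
  have hMx : ∀ k, f ∣ (M *ᵥ x) k := by
    intro k
    have h1 : ∀ l, (∑ i, M k i * M.adjugate i l) = M.det * (1 : Matrix _ _ R) k l := by
      intro l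
      have := congrFun (congrFun (Matrix.mul_adjugate M) k) l
      rw [Matrix.mul_apply] at this
      exact this
    have h2 : (M *ᵥ x) k = δ * (∑ i, M k i * M.adjugate i j) -
        (∑ i, M k i * M.adjugate i 0) * M.adjugate 0 j := by
      rw [Matrix.mulVec, dotProduct, Finset.mul_sum, Finset.sum_mul, ← Finset.sum_sub_distrib]
      exact Finset.sum_congr rfl fun i _ => by simp only [hx]; ring
    rw [h2, h1, h1]
    refine dvd_sub ?_ ?_
    · exact (hM.mul_right _).mul_left _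
    · exact (hM.mul_right _).mul_right _
  -- the submatrix
  set L : Matrix (Fin n) (Fin n) R := M.submatrix Fin.succ Fin.succ with hL
  have hLdet : L.det = δ := by
    rw [hδd, Matrix.adjugate_fin_succ_eq_det_submatrix]
    simp [hL]
  have hLx : ∀ k, f ∣ (L *ᵥ fun i => x i.succ) k := by
    intro k
    have : (L *ᵥ fun i => x i.succ) k = (M *ᵥ x) k.succ := by
      rw [Matrix.mulVec, dotProduct, Matrix.mulVec, dotProduct, Fin.sum_univ_succ, hx0, mul_zero,
        zero_add]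
      rfl
    rw [this]
    exact hMx _
  have hx' : ∀ k : Fin n, f ∣ x k.succ := by
    intro k
    have h1 : δ * x k.succ = (L.adjugate *ᵥ (L *ᵥ fun i => x i.succ)) k := by
      rw [Matrix.mulVec_mulVec, Matrix.adjugate_mul, hLdet, Matrix.smul_mulVec, Matrix.one_mulVec]
      rfl
    have h2 : f ∣ δ * x k.succ := by
      rw [h1, Matrix.mulVec, dotProduct]
      exact Finset.dvd_sum fun l _ => (hLx l).mul_left _
    exact (hf.dvd_or_dvd h2).resolve_left hδ
  change f ∣ x i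
  refine Fin.cases ?_ (fun k => hx' k) i
  rw [hx0]
  exact dvd_zero _

lemma dvd_of_crF_dvd {p q : ℂ[X][X]} (hp : Prime p) (hd : p.natDegree ≠ 0)
    (h : crF p ∣ crF q) : p ∣ q :=
  (hp.irreducible.isPrimitive hd).dvd_of_fraction_map_dvd_fraction_map (K := FF) h

lemma prime_crF {p : ℂ[X][X]} (hp : Prime p) (hd : p.natDegree ≠ 0) : Prime (crF p) := by
  have h1 := ((hp.irreducible.isPrimitive hd).irreducible_iff_irreducible_map_fraction_map
    (K := FF)).mp hp.irreducible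
  exact h1.prime

/-- The hypotheses of the glueing theorem over `ℂ[x][y]`. -/
structure ChartData {m : ℕ} (M : Matrix (Fin 4) (Fin 4) ℂ[X][X])
    (M' A : Matrix (Fin m) (Fin m) ℂ[X][X]) (g b : ℂ[X][X]) (e : Fin m) (c0 : ℂ) : Prop where
  hc0 : c0 ≠ 0
  sM : M.IsSymm
  sM' : M'.IsSymm
  sA : A.IsSymm
  hMA : M' * A = M.det • (1 : Matrix (Fin m) (Fin m) ℂ[X][X])
  pf : Prime M.det
  df : M.det.natDegree ≠ 0
  pg : Prime g
  dg : g.natDegree ≠ 0
  hfg : ¬ M.det ∣ g
  hδ : ¬ M.det ∣ M.adjugate 0 0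
  hA : ¬ M.det ∣ A e e
  rA : ∀ i j, M.det ∣ A e e * A i j - A i e * A e j
  hb : M.det ∣ b ^ 2 - M.adjugate 0 0 * g * A e e
  hdet : M'.det = C (C c0) * M.det
  hsq : ∃ s c, ¬ g ∣ c ∧ g ∣ c ^ 2 * M.det - s ^ 2

lemma map_symm {m : ℕ} {R S : Type*} [CommRing R] [CommRing S] (φ : R →+* S)
    {Q : Matrix (Fin m) (Fin m) R} (h : Q.IsSymm) : (Q.map φ).IsSymm := by
  rw [Matrix.IsSymm, ← Matrix.transpose_map, h.eq]

lemma det_crF {m : ℕ} (Q : Matrix (Fin m) (Fin m) ℂ[X][X]) : (Q.map crF).det = crF Q.det := by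
  rw [RingHom.map_det]; rfl

lemma adj_crF {m : ℕ} (Q : Matrix (Fin m) (Fin m) ℂ[X][X]) (i j : Fin m) :
    (Q.map crF).adjugate i j = crF (Q.adjugate i j) :=
  (congrFun (congrFun (RingHom.map_adjugate crF Q) i) j).symm

lemma isUnit_CC {c : ℂ} (hc : c ≠ 0) : IsUnit (C (C c) : ℂ[X][X]) :=
  ((isUnit_iff_ne_zero.mpr hc).map (C : ℂ →+* ℂ[X])).map (C : ℂ[X] →+* ℂ[X][X])

variable {n : ℕ} {M : Matrix (Fin 4) (Fin 4) ℂ[X][X]}
  {M' A : Matrix (Fin (2 * n)) (Fin (2 * n)) ℂ[X][X]} {g b : ℂ[X][X]} {e : Fin (2 * n)} {c0 : ℂ}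

lemma ChartData.exists_w (h : ChartData M M' A g b e c0) :
    ∃ w : Fin n → Fin (2 * n) → FF[X], (∀ i j, crF g ∣ w i ⬝ᵥ (M'.map crF) *ᵥ w j) ∧
      ∀ x : Fin (2 * n) → FF[X], (∀ i, crF g ∣ x ⬝ᵥ (M'.map crF) *ᵥ w i) →
        ∃ (c : Fin n → FF[X]) (y : Fin (2 * n) → FF[X]), x = ∑ i, c i • w i + crF g • y := by
  obtain ⟨d0, hd0⟩ := IsAlgClosed.exists_pow_nat_eq c0 (n := 2) (by norm_num)
  have hgf : ¬ g ∣ M.det := fun h1 =>
    h.hfg (h.pg.irreducible.associated_of_dvd h.pf.irreducible h1).symm.dvd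
  obtain ⟨s, c, hc, hcs⟩ := h.hsq
  refine Theta.exists_w ℂ (F := FF) (M'.map crF) (map_symm crF h.sM') (prime_crF h.pg h.dg) ?_
    ⟨crF (s * C (C d0)), crF c, fun h1 => hc (dvd_of_crF_dvd h.pg h.dg h1), ?_⟩
  · rw [det_crF]
    intro h1
    have h2 := dvd_of_crF_dvd h.pg h.dg h1
    rw [h.hdet] at h2
    rcases h.pg.dvd_or_dvd h2 with h3 | h3
    · exact h.pg.not_isUnit (isUnit_of_dvd_unit h3 (isUnit_CC h.hc0))
    · exact hgf h3
  · rw [det_crF, ← map_pow, ← map_pow, ← map_mul, ← map_sub]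
    refine map_dvd crF ?_
    rw [h.hdet, ← hd0]
    have : c ^ 2 * (C (C (d0 ^ 2)) * M.det) - (s * C (C d0)) ^ 2 =
        C (C d0) ^ 2 * (c ^ 2 * M.det - s ^ 2) := by
      simp only [map_pow]
      ring
    rw [this]
    exact hcs.mul_left _

lemma ChartData.glue (h : ChartData M M' A g b e c0) {w : Fin n → Fin (2 * n) → FF[X]}
    (hw1 : ∀ i j, crF g ∣ w i ⬝ᵥ (M'.map crF) *ᵥ w j)
    (hw2 : ∀ x : Fin (2 * n) → FF[X], (∀ i, crF g ∣ x ⬝ᵥ (M'.map crF) *ᵥ w i) →
        ∃ (c : Fin n → FF[X]) (y : Fin (2 * n) → FF[X]), x = ∑ i, c i • w i + crF g • y) :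
    GlueData (M.map crF) (M'.map crF) (A.map crF) (crF g) (crF b) e w where
  sM := map_symm crF h.sM
  sM' := map_symm crF h.sM'
  sA := map_symm crF h.sA
  hMA := by
    rw [← Matrix.map_mul, h.hMA, det_crF]
    ext i j
    by_cases hij : i = j
    · subst hij; simp
    · simp [Matrix.one_apply_ne hij]
  pf := by rw [det_crF]; exact prime_crF h.pf h.df
  pg := prime_crF h.pg h.dg
  cop := by
    rw [det_crF, Irreducible.coprime_iff_not_dvd (prime_crF h.pf h.df).irreducible]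
    exact fun h1 => h.hfg (dvd_of_crF_dvd h.pf h.df h1)
  hδ := by
    rw [det_crF, adj_crF]
    exact fun h1 => h.hδ (dvd_of_crF_dvd h.pf h.df h1)
  rM := by
    intro i j
    rw [det_crF, adj_crF, adj_crF, adj_crF, adj_crF, ← map_mul, ← map_mul, ← map_sub]
    exact map_dvd crF (dvd_minor_adjugate M h.pf dvd_rfl h.hδ i j)
  hA := by
    rw [det_crF]
    exact fun h1 => h.hA (dvd_of_crF_dvd h.pf h.df h1)
  rA := by
    intro i j
    rw [det_crF, Matrix.map_apply, Matrix.map_apply, Matrix.map_apply, Matrix.map_apply,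
      ← map_mul, ← map_mul, ← map_sub]
    exact map_dvd crF (h.rA i j)
  hb := by
    rw [det_crF, adj_crF, Matrix.map_apply, ← map_pow, ← map_mul, ← map_mul, ← map_sub]
    exact map_dvd crF h.hb
  w1 := hw1
  w2 := hw2

lemma ffMap_crF (p : ℂ[X][X]) : ffMap (crF p) = crMap p := rfl

lemma ChartData.isSquare (h : ChartData M M' A g b e c0) :
    IsSquare (ffMap (crF M.det * crF M'.det)) := by
  obtain ⟨d0, hd0⟩ := IsAlgClosed.exists_pow_nat_eq c0 (n := 2) (by norm_num)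
  have h1 : M.det * M'.det = (C (C d0) * M.det) * (C (C d0) * M.det) := by
    rw [h.hdet, ← hd0, map_pow, map_pow]
    ring
  refine ⟨crMap (C (C d0) * M.det), ?_⟩
  have h2 := congrArg crMap h1
  rw [map_mul crMap, map_mul crMap] at h2
  rw [map_mul ffMap, ffMap_crF, ffMap_crF]
  exact h2

theorem ChartData.lagrangian (h : ChartData M M' A g b e c0) :
    ∃ U : Submodule RatK (Fin 4 ⊕ Fin (2 * n) → RatK),
      (∀ x ∈ U, ∀ y ∈ U,
        (fun i => x (Sum.inl i)) ⬝ᵥ (M.map crMap) *ᵥ (fun i => y (Sum.inl i)) -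
          crMap g * ((fun i => x (Sum.inr i)) ⬝ᵥ (M'.map crMap) *ᵥ (fun i => y (Sum.inr i))) = 0)
        ∧ finrank RatK U = 2 + n := by
  obtain ⟨w, hw1, hw2⟩ := h.exists_w
  obtain ⟨U, hU, hUn⟩ := glue_lagrangian ℂ RatK (h.glue hw1 hw2) (by
    rw [det_crF, det_crF]
    exact h.isSquare)
  refine ⟨U, fun x hx y hy => ?_, hUn⟩
  have := hU x hx y hy
  rw [psi_apply] at this
  exact this

end Vale.Agent.P287.Theta
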