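import Mathlib

/-!
If all `2 × 2` minors of a square matrix of size `n + 1` are divisible by a prime `f`, then its
determinant is divisible by `f ^ n`.
-/

namespace Vale.Agent.P287.Theta

open Matrix

variable {R : Type*} [CommRing R] [IsDomain R]

/-- All `2 × 2` minors are divisible by `f`. -/
def RankOneMod {m n : Type*} (f : R) (X : Matrix m n R) : Prop :=
  ∀ i j k l, f ∣ X i j * X k l - X i l * X k j

omit [IsDomain R] in
lemma pow_dvd_det_of_rows {n : ℕ} (f : R) (X : Matrix (Fin (n + 1)) (Fin (n + 1)) R)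
    (h : ∀ (i : Fin n) j, f ∣ X i.succ j) : f ^ n ∣ X.det := by
  choose y hy using h
  have h1 : X = Matrix.of fun i j => (Fin.cons (1 : R) (fun _ => f) : Fin (n + 1) → R) i *
      (Matrix.of (Fin.cons (X 0) y : Fin (n + 1) → Fin (n + 1) → R)) i j := by
    ext i j
    refine Fin.cases ?_ (fun i => ?_) i
    · simp
    · simp [hy]
  rw [h1, Matrix.det_mul_column, Fin.prod_univ_succ]
  simp

theorem pow_dvd_det {f : R} (hf : Prime f) {n : ℕ} (X : Matrix (Fin (n + 1)) (Fin (n + 1)) R)
    (h : RankOneMod f X) : f ^ n ∣ X.det := by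
  classical
  by_cases hall : ∀ i j, f ∣ X i j
  · exact pow_dvd_det_of_rows f X fun i j => hall _ _
  push Not at hall
  obtain ⟨p, q, hpq⟩ := hall
  -- move the entry to the upper left corner
  set Y : Matrix (Fin (n + 1)) (Fin (n + 1)) R :=
    X.submatrix (Equiv.swap 0 p) (Equiv.swap 0 q) with hY
  have hYdet : Associated Y.det X.det := by
    have h1 : Y = (X.submatrix (Equiv.swap 0 p) id).submatrix id (Equiv.swap 0 q) := rfl
    rw [h1, Matrix.det_permute', Matrix.det_permute]
    rcases Int.units_eq_one_or (Equiv.Perm.sign (Equiv.swap 0 p)) with h2 | h2 <;>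
      rcases Int.units_eq_one_or (Equiv.Perm.sign (Equiv.swap 0 q)) with h3 | h3 <;>
      simp [h2, h3]
  have hY0 : Y 0 0 = X p q := by simp [hY]
  have hYr : RankOneMod f Y := fun i j k l => h _ _ _ _
  rw [← hYdet.dvd_iff_dvd_right]
  set a := Y 0 0 with ha
  have hfa : ¬ f ∣ a := by rw [hY0]; exact hpq
  -- row operations
  let T : Matrix (Fin (n + 1)) (Fin (n + 1)) R :=
    Matrix.of (Fin.cons (Fin.cons 1 0) fun i => Fin.cons (-(Y i.succ 0)) fun j => if i = j then a else 0)
  have hT : T.det = a ^ n := by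
    rw [Matrix.det_succ_row_zero, Finset.sum_eq_single 0]
    · have : T.submatrix Fin.succ (Fin.succAbove 0) = Matrix.diagonal fun _ : Fin n => a := by
        ext i j
        simp [T, Matrix.diagonal_apply]
      rw [this, Matrix.det_diagonal]
      simp [T]
    · intro j _ hj
      obtain ⟨k, rfl⟩ := Fin.exists_succ_eq.mpr hj
      simp [T]
    · simp
  have hTY : ∀ (i : Fin n) j, (T * Y) i.succ j = a * Y i.succ j - Y i.succ 0 * Y 0 j := by
    intro i j
    rw [Matrix.mul_apply, Fin.sum_univ_succ]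
    simp only [T, Matrix.of_apply, Fin.cons_succ, Fin.cons_zero, ite_mul, zero_mul,
      Finset.sum_ite_eq, Finset.mem_univ, if_true]
    ring
  have h4 : f ^ n ∣ (T * Y).det := by
    refine pow_dvd_det_of_rows f _ fun i j => ?_
    rw [hTY]
    have := hYr 0 0 i.succ j
    rw [← ha] at this
    convert this using 1
    ring
  rw [Matrix.det_mul, hT] at h4
  exact (hf.pow_dvd_of_dvd_mul_left n (fun h5 => hfa (hf.dvd_of_dvd_pow h5)) h4)

lemma pow_dvd_adjugate {f : R} (hf : Prime f) {n : ℕ}
    (X : Matrix (Fin (n + 2)) (Fin (n + 2)) R) (h : RankOneMod f X) (i j : Fin (n + 2)) :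
    f ^ n ∣ X.adjugate i j := by
  rw [Matrix.adjugate_fin_succ_eq_det_submatrix]
  exact (pow_dvd_det hf (X.submatrix j.succAbove i.succAbove) fun _ _ _ _ =>
    h _ _ _ _).mul_left _

end Vale.Agent.P287.Theta
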