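import Vale.Agent.P287.Theta.Top
import Vale.Agent.P287.Theta.Minors

/-!
Dixon's construction: six sections `β` with `β i * β j ∈ (h, f)` give a symmetric matrix of linear
forms with determinant `f` (up to a constant).
-/

namespace Vale.Agent.P287.Theta

open Polynomial Matrix

/-- The curve `f = 0` meets the line at infinity in the six distinct points `z k`, at which `h`
does not vanish. -/
structure AtInfinity (f h : ℂ[X][X]) (d : ℕ) (z : Fin 6 → ℂ) (c6 : ℂ) : Prop where
  hz : Function.Injective z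
  hc : c6 ≠ 0
  hf : TD 6 f
  hh : TD d h
  topf : top 6 f = C c6 * ∏ k, (X - C (z k))
  toph : ∀ k, (top d h).eval (z k) ≠ 0

variable {f h : ℂ[X][X]} {d : ℕ} {z : Fin 6 → ℂ} {c6 : ℂ}

lemma AtInfinity.top_ne (H : AtInfinity f h d z c6) : top 6 f ≠ 0 := by
  rw [H.topf]
  exact mul_ne_zero (C_ne_zero.mpr H.hc) (Finset.prod_ne_zero_iff.mpr fun k _ => X_sub_C_ne_zero _)

lemma AtInfinity.ne_zero (H : AtInfinity f h d z c6) : f ≠ 0 := by
  rintro rfl
  apply H.top_ne
  simp [top]

lemma AtInfinity.eval_topf (H : AtInfinity f h d z c6) (k : Fin 6) :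
    (top 6 f).eval (z k) = 0 := by
  rw [H.topf, eval_mul, eval_prod, Finset.prod_eq_zero (Finset.mem_univ k) (by simp), mul_zero]

lemma AtInfinity.natDegree_topf (H : AtInfinity f h d z c6) : (top 6 f).natDegree = 6 := by
  rw [H.topf, natDegree_C_mul H.hc, natDegree_prod _ _ fun k _ => X_sub_C_ne_zero _]
  simp

lemma AtInfinity.dvd_of_roots (H : AtInfinity f h d z c6) {w : ℂ[X]}
    (hw : ∀ k, w.eval (z k) = 0) : top 6 f ∣ w := by
  rw [H.topf]
  have h1 : (∏ k, (X - C (z k))) ∣ w :=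
    Finset.prod_dvd_of_coprime (fun i _ j _ hij => pairwise_coprime_X_sub_C H.hz hij)
      (fun k _ => dvd_iff_isRoot.mpr (hw k))
  obtain ⟨v, rfl⟩ := h1
  refine ⟨C c6⁻¹ * v, ?_⟩
  have : C c6 * C c6⁻¹ = (1 : ℂ[X]) := by rw [← C_mul, mul_inv_cancel₀ H.hc, C_1]
  linear_combination (-(∏ k, (X - C (z k))) * v) * this

/-- If the top form of `a` vanishes at the six points, `a` can be lowered modulo `f`. -/
lemma AtInfinity.lower (H : AtInfinity f h d z c6) {N : ℕ} {a : ℂ[X][X]} (ha : TD (N + 1) a)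
    (h0 : ∀ k, (top (N + 1) a).eval (z k) = 0) : ∃ w, TD N (a - f * w) := by
  obtain ⟨w, hw⟩ := H.dvd_of_roots h0
  by_cases hw0 : w = 0
  · refine ⟨0, ?_⟩
    rw [mul_zero, sub_zero]
    exact TD_of_top_eq_zero ha (by rw [hw, hw0, mul_zero])
  have h1 := natDegree_top_le (N + 1) a
  rw [hw, natDegree_mul H.top_ne hw0, H.natDegree_topf] at h1
  obtain ⟨p, hp, hpw⟩ := exists_lift (m := N + 1 - 6) (w := w) (by omega)
  refine ⟨p, ?_⟩
  have h2 : TD (N + 1) (f * p) := by
    have := H.hf.mul hp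
    rwa [show 6 + (N + 1 - 6) = N + 1 by omega] at this
  refine TD_of_top_eq_zero (ha.sub h2) ?_
  have h3 := top_mul H.hf hp
  rw [show 6 + (N + 1 - 6) = N + 1 by omega] at h3
  rw [top_sub, h3, hw, hpw, sub_self]

lemma AtInfinity.natDegree_Th (H : AtInfinity f h d z c6) : (Th f).natDegree = 6 :=
  natDegree_eq_of_le_of_coeff_ne_zero H.hf H.top_ne

lemma AtInfinity.eq_zero_of_dvd (H : AtInfinity f h d z c6) {p : ℂ[X][X]} (hp : TD 5 p)
    (hd : f ∣ p) : p = 0 := by
  obtain ⟨q, rfl⟩ := hd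
  by_contra h0
  have hq : q ≠ 0 := right_ne_zero_of_mul h0
  rw [TD, map_mul, natDegree_mul, H.natDegree_Th] at hp
  · omega
  · rw [Ne, map_eq_zero_iff _ Th_injective]; exact H.ne_zero
  · rw [Ne, map_eq_zero_iff _ Th_injective]; exact hq

/-- Reduction of a representation `p ≡ h a` to `deg a ≤ 5`. -/
lemma AtInfinity.reduce (H : AtInfinity f h d z c6) {p : ℂ[X][X]} (hp : TD (d + 5) p) (N : ℕ) :
    ∀ a, TD N a → f ∣ p - h * a → ∃ a', TD 5 a' ∧ f ∣ p - h * a' := by
  induction N with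
  | zero => exact fun a ha hfa => ⟨a, ha.mono (by omega), hfa⟩
  | succ N ih =>
    intro a ha hfa
    by_cases hN : N + 1 ≤ 5
    · exact ⟨a, ha.mono hN, hfa⟩
    obtain ⟨b, hb⟩ := hfa
    have h1 : TD (d + (N + 1)) (f * b) := by
      rw [← hb]
      exact (hp.mono (by omega)).sub (H.hh.mul ha)
    have h2 : TD (d + N - 5) b := by
      refine TD_of_mul H.hf H.top_ne ?_
      rwa [show 6 + (d + N - 5) = d + (N + 1) by omega]
    have h3 := top_mul H.hf h2
    rw [show 6 + (d + N - 5) = d + (N + 1) by omega, ← hb, top_sub, top_mul H.hh ha,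
      top_eq_zero hp (by omega), zero_sub] at h3
    obtain ⟨w, hw⟩ := H.lower ha (by
      intro k
      have h4 := congrArg (eval (z k)) h3
      rw [eval_neg, eval_mul, eval_mul, H.eval_topf, zero_mul, neg_eq_zero] at h4
      exact (mul_eq_zero.mp h4).resolve_left (H.toph k))
    refine ih _ hw ?_
    have : p - h * (a - f * w) = f * (b + h * w) := by
      linear_combination hb
    rw [this]
    exact Dvd.intro _ rfl

/-- Reduction of a representation `p ≡ h a` to the right degree. -/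
lemma AtInfinity.reduce' (H : AtInfinity f h d z c6) (hd5 : 5 ≤ d) {k : ℕ} {p : ℂ[X][X]}
    (hp : TD (d + k) p) (N : ℕ) :
    ∀ a, TD N a → f ∣ p - h * a → ∃ a', TD k a' ∧ f ∣ p - h * a' := by
  induction N with
  | zero => exact fun a ha hfa => ⟨a, ha.mono (by omega), hfa⟩
  | succ N ih =>
    intro a ha hfa
    by_cases hN : N + 1 ≤ k
    · exact ⟨a, ha.mono hN, hfa⟩
    obtain ⟨b, hb⟩ := hfa
    have h1 : TD (d + (N + 1)) (f * b) := by
      rw [← hb]
      exact (hp.mono (by omega)).sub (H.hh.mul ha)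
    have h2 : TD (d + N - 5) b := by
      refine TD_of_mul H.hf H.top_ne ?_
      rwa [show 6 + (d + N - 5) = d + (N + 1) by omega]
    have h3 := top_mul H.hf h2
    rw [show 6 + (d + N - 5) = d + (N + 1) by omega, ← hb, top_sub, top_mul H.hh ha,
      top_eq_zero hp (by omega), zero_sub] at h3
    obtain ⟨w, hw⟩ := H.lower ha (by
      intro k
      have h4 := congrArg (eval (z k)) h3
      rw [eval_neg, eval_mul, eval_mul, H.eval_topf, zero_mul, neg_eq_zero] at h4
      exact (mul_eq_zero.mp h4).resolve_left (H.toph k))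
    refine ih _ hw ?_
    have : p - h * (a - f * w) = f * (b + h * w) := by
      linear_combination hb
    rw [this]
    exact Dvd.intro _ rfl

section det

lemma TD.prod {ι : Type*} (s : Finset ι) {m : ℕ} {p : ι → ℂ[X][X]} (h : ∀ i ∈ s, TD m (p i)) :
    TD (s.card * m) (∏ i ∈ s, p i) := by
  classical
  induction s using Finset.induction_on with
  | empty => simp [TD]
  | insert i s his ih =>
    rw [Finset.prod_insert his, Finset.card_insert_of_notMem his, Nat.succ_mul, add_comm]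
    exact (h i (Finset.mem_insert_self i s)).mul
      (ih fun j hj => h j (Finset.mem_insert_of_mem hj))

lemma top_prod {ι : Type*} (s : Finset ι) {m : ℕ} {p : ι → ℂ[X][X]} (h : ∀ i ∈ s, TD m (p i)) :
    top (s.card * m) (∏ i ∈ s, p i) = ∏ i ∈ s, top m (p i) := by
  classical
  induction s using Finset.induction_on with
  | empty => simp [top]
  | insert i s his ih =>
    rw [Finset.prod_insert his, Finset.prod_insert his, Finset.card_insert_of_notMem his,
      Nat.succ_mul, add_comm, top_mul (h i (Finset.mem_insert_self i s))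
      (TD.prod s fun j hj => h j (Finset.mem_insert_of_mem hj)),
      ih fun j hj => h j (Finset.mem_insert_of_mem hj)]

lemma sign_smul_eq {R : Type*} [CommRing R] {n : Type*} [Fintype n] [DecidableEq n]
    (σ : Equiv.Perm n) (x : R) :
    Equiv.Perm.sign σ • x = (((Equiv.Perm.sign σ : ℤˣ) : ℤ) : R) * x := by
  rw [Units.smul_def, zsmul_eq_mul]

lemma TD_intCast (a : ℤ) : TD 0 (a : ℂ[X][X]) := by
  rw [TD, map_intCast, natDegree_intCast]

lemma top_intCast_mul (m : ℕ) (a : ℤ) (p : ℂ[X][X]) : top m ((a : ℂ[X][X]) * p) = a * top m p := by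
  rw [top, map_mul, map_intCast, ← map_intCast (C : ℂ[X] →+* ℂ[X][X]), coeff_C_mul]
  rfl

lemma TD_det {n m : ℕ} (X : Matrix (Fin n) (Fin n) ℂ[X][X]) (h : ∀ i j, TD m (X i j)) :
    TD (n * m) X.det := by
  rw [Matrix.det_apply]
  refine TD.sum _ fun σ _ => ?_
  rw [sign_smul_eq]
  have h1 := (TD_intCast ((Equiv.Perm.sign σ : ℤˣ) : ℤ)).mul
    (TD.prod Finset.univ (p := fun i => X (σ i) i) fun i _ => h (σ i) i)
  rwa [zero_add, Finset.card_univ, Fintype.card_fin] at h1

lemma top_det {n m : ℕ} (X : Matrix (Fin n) (Fin n) ℂ[X][X]) (h : ∀ i j, TD m (X i j)) :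
    top (n * m) X.det = (Matrix.of fun i j => top m (X i j)).det := by
  rw [Matrix.det_apply, Matrix.det_apply, top_sum]
  refine Finset.sum_congr rfl fun σ _ => ?_
  rw [sign_smul_eq, sign_smul_eq, top_intCast_mul]
  have h1 := top_prod Finset.univ (p := fun i => X (σ i) i) fun i _ => h (σ i) i
  rw [Finset.card_univ, Fintype.card_fin] at h1
  rw [h1]
  rfl

lemma TD_adjugate {n m : ℕ} (X : Matrix (Fin (n + 1)) (Fin (n + 1)) ℂ[X][X])
    (h : ∀ i j, TD m (X i j)) (i j : Fin (n + 1)) : TD (n * m) (X.adjugate i j) := by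
  rw [Matrix.adjugate_fin_succ_eq_det_submatrix]
  have h1 := TD_det (X.submatrix j.succAbove i.succAbove) fun _ _ => h _ _
  have h2 : TD 0 ((-1 : ℂ[X][X]) ^ ((j : ℕ) + (i : ℕ))) := by
    have := (TD_intCast (-1)).pow ((j : ℕ) + (i : ℕ))
    simpa using this
  have h3 := h2.mul h1
  rwa [zero_add] at h3

end det

/-- Six sections with the properties used by Dixon's construction. -/
structure Sections (f h : ℂ[X][X]) (m : ℕ) (β : Fin 6 → ℂ[X][X]) : Prop where
  td : ∀ i, TD (m + 1) (β i)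
  mul : ∀ i j, ∃ a, f ∣ β i * β j - h * a
  ind : ∀ c : Fin 6 → ℂ, f ∣ ∑ i, C (C (c i)) * β i → c = 0
  low : ∀ (c : Fin 6 → ℂ) (q : ℂ[X][X]), TD m (∑ i, C (C (c i)) * β i - f * q) →
    f ∣ ∑ i, C (C (c i)) * β i

variable {m : ℕ} {β : Fin 6 → ℂ[X][X]}

/-- The matrix of values at the six points. -/
noncomputable def valE (m : ℕ) (β : Fin 6 → ℂ[X][X]) (z : Fin 6 → ℂ) :
    Matrix (Fin 6) (Fin 6) ℂ :=
  Matrix.of fun i k => (top (m + 1) (β i)).eval (z k)

lemma det_valE (H : AtInfinity f h d z c6) (S : Sections f h m β) : (valE m β z).det ≠ 0 := by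
  intro h0
  obtain ⟨c, hc, hcE⟩ := Matrix.exists_vecMul_eq_zero_iff.mpr h0
  apply hc
  apply S.ind
  set B := ∑ i, C (C (c i)) * β i with hB
  have hTD : TD (m + 1) B := TD.sum _ fun i _ => (S.td i).smul _
  have htop : ∀ k, (top (m + 1) B).eval (z k) = 0 := by
    intro k
    have h1 := congrFun hcE k
    rw [Matrix.vecMul, dotProduct] at h1
    rw [hB, top_sum, eval_finsetSum]
    refine Eq.trans ?_ h1
    refine Finset.sum_congr rfl fun i _ => ?_
    rw [top_CC_mul, eval_mul, eval_C]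
    rfl
  obtain ⟨w, hw⟩ := H.lower hTD htop
  exact S.low c w hw

/-- Dixon's matrix. -/
theorem exists_dixon (hf : Prime f) (H : AtInfinity f h d z c6) (hfh : ¬ f ∣ h)
    (hdm : 2 * (m + 1) = d + 5) (S : Sections f h m β) :
    ∃ A : Matrix (Fin 6) (Fin 6) ℂ[X][X], A.IsSymm ∧ (∀ i j, TD 5 (A i j)) ∧
      (∀ i j, f ∣ β i * β j - h * A i j) := by
  have h1 : ∀ i j, ∃ a, TD 5 a ∧ f ∣ β i * β j - h * a := by
    intro i j
    obtain ⟨a, ha⟩ := S.mul i j
    refine H.reduce ?_ (Th a).natDegree a le_rfl ha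
    have := (S.td i).mul (S.td j)
    rwa [← two_mul, hdm] at this
  choose A hA1 hA2 using h1
  refine ⟨Matrix.of A, ?_, hA1, hA2⟩
  refine Matrix.IsSymm.ext fun i j => ?_
  rw [Matrix.of_apply, Matrix.of_apply]
  have h2 : f ∣ h * (A j i - A i j) := by
    have : h * (A j i - A i j) = (β i * β j - h * A i j) - (β j * β i - h * A j i) := by ring
    rw [this]
    exact dvd_sub (hA2 i j) (hA2 j i)
  have h3 := (hf.dvd_or_dvd h2).resolve_left hfh
  exact sub_eq_zero.mp (H.eq_zero_of_dvd ((hA1 j i).sub (hA1 i j)) h3)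

lemma rankOne_dixon (hf : Prime f) (hfh : ¬ f ∣ h) {A : Matrix (Fin 6) (Fin 6) ℂ[X][X]}
    (hA : ∀ i j, f ∣ β i * β j - h * A i j) : RankOneMod f A := by
  intro i j k l
  have h1 : f ∣ (h * h) * (A i j * A k l - A i l * A k j) := by
    have : (h * h) * (A i j * A k l - A i l * A k j) =
        (β i * β l) * (β k * β j - h * A k j) + (h * A k j) * (β i * β l - h * A i l)
        - (β i * β j) * (β k * β l - h * A k l) - (h * A k l) * (β i * β j - h * A i j) := by ring
    rw [this]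
    exact dvd_sub (dvd_sub (dvd_add ((hA k j).mul_left _) ((hA i l).mul_left _))
      ((hA k l).mul_left _)) ((hA i j).mul_left _)
  rcases hf.dvd_or_dvd h1 with h2 | h2
  · rcases hf.dvd_or_dvd h2 with h3 | h3 <;> exact absurd h3 hfh
  · exact h2

/-- The determinant of the matrix of top forms does not vanish. -/
lemma det_top_dixon (H : AtInfinity f h d z c6) (hdm : 2 * (m + 1) = d + 5) (S : Sections f h m β)
    {A : Matrix (Fin 6) (Fin 6) ℂ[X][X]} (hA5 : ∀ i j, TD 5 (A i j))
    (hA : ∀ i j, f ∣ β i * β j - h * A i j) : (Matrix.of fun i j => top 5 (A i j)).det ≠ 0 := by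
  classical
  -- the values at the six points
  have hval : ∀ i j k, (top 5 (A i j)).eval (z k) =
      valE m β z i k * ((top d h).eval (z k))⁻¹ * valE m β z j k := by
    intro i j k
    obtain ⟨b, hb⟩ := hA i j
    have h1 : TD (d + 5) (f * b) := by
      rw [← hb]
      have := (S.td i).mul (S.td j)
      rw [← two_mul, hdm] at this
      exact this.sub (H.hh.mul (hA5 i j))
    by_cases hd1 : 1 ≤ d
    · have h2 : TD (d - 1) b := by
        refine TD_of_mul H.hf H.top_ne ?_
        rwa [show 6 + (d - 1) = d + 5 by omega]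
      have h3 := top_mul H.hf h2
      rw [show 6 + (d - 1) = d + 5 by omega, ← hb, top_sub, top_mul H.hh (hA5 i j)] at h3
      have h4 := top_mul (S.td i) (S.td j)
      rw [← two_mul, hdm] at h4
      rw [h4] at h3
      have h5 := congrArg (eval (z k)) h3
      rw [eval_sub, eval_mul, eval_mul, eval_mul, H.eval_topf, zero_mul, sub_eq_zero] at h5
      have h6 := H.toph k
      simp only [valE, Matrix.of_apply]
      field_simp
      linear_combination -h5
    · omega
  obtain ⟨ζ, hζ⟩ := Infinite.exists_notMem_finset (Finset.univ.image z)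
  have hζ' : ∀ k, ζ ≠ z k := fun k hk => hζ (Finset.mem_image.mpr ⟨k, Finset.mem_univ k, hk.symm⟩)
  intro h0
  have h1 : (Matrix.of fun i j => (top 5 (A i j)).eval ζ).det = 0 := by
    have := congrArg (eval ζ) h0
    rw [eval_zero] at this
    rw [← this, ← coe_evalRingHom, RingHom.map_det]
    rfl
  have h2 : (Matrix.of fun i j => (top 5 (A i j)).eval ζ) = valE m β z *
      Matrix.diagonal (fun k => ((top d h).eval (z k))⁻¹ *
        (Lagrange.basis Finset.univ z k).eval ζ) * (valE m β z)ᵀ := by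
    ext i j
    have h3 : top 5 (A i j) = Lagrange.interpolate Finset.univ z fun k => (top 5 (A i j)).eval (z k) := by
      refine Lagrange.eq_interpolate (H.hz.injOn) ?_
      refine lt_of_le_of_lt degree_le_natDegree ?_
      have := natDegree_top_le 5 (A i j)
      rw [Finset.card_univ, Fintype.card_fin]
      exact_mod_cast Nat.lt_succ_of_le this
    rw [Matrix.of_apply, h3, Lagrange.interpolate_apply, eval_finsetSum, Matrix.mul_apply]
    refine Finset.sum_congr rfl fun k _ => ?_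
    rw [Matrix.mul_diagonal, Matrix.transpose_apply, eval_mul, eval_C, hval]
    ring
  rw [h2, Matrix.det_mul, Matrix.det_mul, Matrix.det_transpose, Matrix.det_diagonal] at h1
  have hE := det_valE H S
  rcases mul_eq_zero.mp h1 with h3 | h3
  · rcases mul_eq_zero.mp h3 with h4 | h4
    · exact hE h4
    · obtain ⟨k, -, hk⟩ := Finset.prod_eq_zero_iff.mp h4
      rcases mul_eq_zero.mp hk with h5 | h5
      · exact H.toph k (inv_eq_zero.mp h5)
      · rw [Lagrange.basis, eval_prod] at h5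
        obtain ⟨l, hl, hl0⟩ := Finset.prod_eq_zero_iff.mp h5
        rw [Lagrange.basisDivisor, eval_mul, eval_C, eval_sub, eval_X, eval_C] at hl0
        rcases mul_eq_zero.mp hl0 with h6 | h6
        · rw [inv_eq_zero, sub_eq_zero] at h6
          exact (Finset.ne_of_mem_erase hl) (H.hz h6.symm)
        · exact hζ' l (sub_eq_zero.mp h6)
  · exact hE h3

lemma TD_zero_iff {p : ℂ[X][X]} (h : TD 0 p) : ∃ c : ℂ, p = C (C c) := by
  rw [TD_iff] at h
  have h1 : p.natDegree = 0 := by
    by_contra h0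
    have h2 : p.coeff p.natDegree ≠ 0 := by
      rw [coeff_natDegree, Ne, leadingCoeff_eq_zero]
      rintro rfl
      exact h0 natDegree_zero
    have := h _ h2
    omega
  obtain ⟨a, rfl⟩ := natDegree_eq_zero.mp h1
  by_cases ha : a = 0
  · exact ⟨0, by simp [ha]⟩
  · have h2 := h 0 (by rwa [coeff_C_zero])
    rw [coeff_C_zero] at h2
    obtain ⟨c, rfl⟩ := natDegree_eq_zero.mp (show a.natDegree = 0 by omega)
    exact ⟨c, rfl⟩

/-- Dixon's theorem: a net of quadrics from six sections. -/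
theorem exists_net (hf : Prime f) (H : AtInfinity f h d z c6) (hfh : ¬ f ∣ h)
    (hdm : 2 * (m + 1) = d + 5) (S : Sections f h m β) :
    ∃ (A M' : Matrix (Fin 6) (Fin 6) ℂ[X][X]) (c0 : ℂ), c0 ≠ 0 ∧ A.IsSymm ∧ M'.IsSymm ∧
      (∀ i j, TD 1 (M' i j)) ∧ (∀ i j, TD 5 (A i j)) ∧
      M' * A = f • (1 : Matrix (Fin 6) (Fin 6) ℂ[X][X]) ∧
      M'.det = C (C c0) * f ∧ (∀ i j, f ∣ β i * β j - h * A i j) ∧ RankOneMod f A := by
  obtain ⟨A, hAs, hA5, hA⟩ := exists_dixon hf H hfh hdm S
  have hr := rankOne_dixon hf hfh hA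
  have hf0 := H.ne_zero
  obtain ⟨c', hc'⟩ := pow_dvd_det hf A hr
  have hdet30 : TD 30 A.det := TD_det A hA5
  have hf5 : TD 30 (f ^ 5) := H.hf.pow 5
  have hf5top : top 30 (f ^ 5) ≠ 0 := by
    have := top_pow H.hf 5
    rw [show 5 * 6 = 30 from rfl] at this
    rw [this]
    exact pow_ne_zero _ H.top_ne
  have hc'0 : TD 0 c' := by
    refine TD_of_mul hf5 hf5top ?_
    rw [← hc']
    exact hdet30
  obtain ⟨κ, rfl⟩ := TD_zero_iff hc'0
  have hκ : κ ≠ 0 := by
    rintro rfl
    rw [C_0, C_0, mul_zero] at hc'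
    have h1 := top_det A hA5
    rw [hc'] at h1
    exact det_top_dixon H hdm S hA5 hA (h1.symm.trans (by simp [top]))
  -- the adjugate
  choose M0 hM0 using fun i j => pow_dvd_adjugate hf A hr i j
  have hf4 : TD 24 (f ^ 4) := H.hf.pow 4
  have hf4top : top 24 (f ^ 4) ≠ 0 := by
    have := top_pow H.hf 4
    rw [show 4 * 6 = 24 from rfl] at this
    rw [this]
    exact pow_ne_zero _ H.top_ne
  have hM01 : ∀ i j, TD 1 (M0 i j) := by
    intro i j
    refine TD_of_mul hf4 hf4top ?_
    rw [← hM0]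
    exact TD_adjugate A hA5 i j
  have hκi : (C (C κ⁻¹) : ℂ[X][X]) * C (C κ) = 1 := by
    rw [← C_mul, ← C_mul, inv_mul_cancel₀ hκ, C_1, C_1]
  set M' : Matrix (Fin 6) (Fin 6) ℂ[X][X] := Matrix.of fun i j => C (C κ⁻¹) * M0 i j with hM'
  have hMA : M' * A = f • (1 : Matrix (Fin 6) (Fin 6) ℂ[X][X]) := by
    have h1 := Matrix.adjugate_mul A
    refine Matrix.ext fun i j => ?_
    have h2 := congrFun (congrFun h1 i) j
    rw [Matrix.mul_apply] at h2
    simp only [hM0] at h2
    have h3 : f ^ 4 * ((M' * A) i j) =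
        f ^ 4 * ((f • (1 : Matrix (Fin 6) (Fin 6) ℂ[X][X])) i j) := by
      have h4 : f ^ 4 * ((M' * A) i j) = C (C κ⁻¹) * ∑ k, f ^ 4 * M0 i k * A k j := by
        rw [Matrix.mul_apply, Finset.mul_sum, Finset.mul_sum]
        refine Finset.sum_congr rfl fun k _ => ?_
        rw [hM', Matrix.of_apply]
        ring
      rw [h4, h2, hc', Matrix.smul_apply, Matrix.smul_apply, smul_eq_mul, smul_eq_mul]
      linear_combination (f ^ 5 * (1 : Matrix (Fin 6) (Fin 6) ℂ[X][X]) i j) * hκi
    exact mul_left_cancel₀ (pow_ne_zero 4 hf0) h3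
  refine ⟨A, M', κ⁻¹, inv_ne_zero hκ, hAs, ?_, ?_, hA5, hMA, ?_, hA, hr⟩
  · refine Matrix.IsSymm.ext fun i j => ?_
    rw [hM', Matrix.of_apply, Matrix.of_apply]
    congr 1
    have h1 : A.adjugate j i = A.adjugate i j := by
      have := congrFun (congrFun (Matrix.adjugate_transpose A) j) i
      rw [hAs.eq, Matrix.transpose_apply] at this
      exact this.symm
    rw [hM0, hM0] at h1
    exact mul_left_cancel₀ (pow_ne_zero 4 hf0) h1
  · intro i j
    rw [hM', Matrix.of_apply]
    exact (hM01 i j).smul _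
  · have h1 : M'.det * (f ^ 5 * C (C κ)) = f ^ 6 := by
      rw [← hc', ← Matrix.det_mul, hMA, Matrix.det_smul, Matrix.det_one, mul_one,
        Fintype.card_fin]
    refine mul_right_cancel₀ (pow_ne_zero 5 hf0) ?_
    have h2 : M'.det * f ^ 5 = (C (C κ⁻¹) * C (C κ)) * (M'.det * f ^ 5) := by
      rw [hκi, one_mul]
    rw [h2]
    linear_combination (C (C κ⁻¹)) * h1

end Vale.Agent.P287.Theta
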