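import Vale.Agent.P287.Theta.Coord
import Vale.Agent.P287.Theta.ChartGlue
import Vale.Agent.P287.Theta.Dixon

/-!
Coordinates in which the line at infinity is transversal to a given plane sextic.
-/

namespace Vale.Agent.P287.Theta

open Polynomial Vale.Agent.P287

/-- Bezout, up to a polynomial in `x`. -/
lemma exists_bezout {p q : ℂ[X][X]} (hp : Prime p) (hd : p.natDegree ≠ 0) (hpq : ¬ p ∣ q) :
    ∃ (u v : ℂ[X][X]) (b : ℂ[X]), b ≠ 0 ∧ p * u + q * v = C b := by
  have h1 : IsCoprime (crF p) (crF q) := by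
    rw [Irreducible.coprime_iff_not_dvd (prime_crF hp hd).irreducible]
    exact fun h => hpq (dvd_of_crF_dvd hp hd h)
  obtain ⟨a, a', ha⟩ := h1
  obtain ⟨b, c, hb, hbc⟩ := exists_crF a
  obtain ⟨b', c', hb', hbc'⟩ := exists_crF a'
  refine ⟨C b' * c, C b * c', b * b', mul_ne_zero hb hb', crF_injective ?_⟩
  have hC : ∀ x : ℂ[X], crF (C x) = C (algebraMap ℂ[X] FF x) := fun x => by simp [crF]
  rw [map_add, map_mul, map_mul, map_mul, map_mul, ← hbc, ← hbc', hC, hC, hC, map_mul, C_mul]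
  linear_combination (C (algebraMap ℂ[X] FF b) * C (algebraMap ℂ[X] FF b')) * ha

lemma coeff_six_dh {f : R3} (hf : f.IsHomogeneous 6) :
    (dh f).coeff 6 = C (MvPolynomial.eval ![0, 0, 1] f) := by
  have h1 : ((dh f).coeff 6).coeff 0 = MvPolynomial.eval ![0, 0, 1] f := by
    rw [coeff_dh, MvPolynomial.eval_eq']
    refine Finset.sum_congr rfl fun d hd => ?_
    have hs := homog_sum hf hd
    rw [Fin.prod_univ_three]
    simp only [Matrix.cons_val_zero, Matrix.cons_val_one, Matrix.cons_val_two, Matrix.tail_cons,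
      Matrix.head_cons, one_pow, mul_one]
    by_cases h2 : d 2 = 6
    · rw [if_pos h2, if_pos (by omega), show d 0 = 0 by omega, show d 1 = 0 by omega, pow_zero,
        one_mul, mul_one]
    · rw [if_neg h2]
      by_cases h0 : d 0 = 0
      · rw [zero_pow (show d 1 ≠ 0 by omega), mul_zero, mul_zero]
      · rw [zero_pow h0, zero_mul, mul_zero]
  have h2 := TD_dh hf
  by_cases h0 : (dh f).coeff 6 = 0
  · rw [h0, coeff_zero] at h1
    rw [h0, ← h1, C_0]
  · have h4 := (TD_iff 6 _).mp h2 6 h0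
    rw [eq_C_of_natDegree_eq_zero (show ((dh f).coeff 6).natDegree = 0 by omega), h1]

lemma natDegree_dh_le {f : R3} (hf : f.IsHomogeneous 6) : (dh f).natDegree ≤ 6 := by
  have h2 := (TD_iff 6 _).mp (TD_dh hf)
  by_contra h
  have h0 : (dh f).coeff (dh f).natDegree ≠ 0 := by
    rw [coeff_natDegree, Ne, leadingCoeff_eq_zero]
    intro h0
    rw [h0, natDegree_zero] at h
    omega
  have := h2 _ h0
  omega

lemma exists_matrix {P : Fin 3 → ℂ} (hP : P ≠ 0) :
    ∃ T S : Matrix (Fin 3) (Fin 3) ℂ, T * S = 1 ∧ T.mulVec ![0, 0, 1] = P := by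
  have key : ∃ T : Matrix (Fin 3) (Fin 3) ℂ, IsUnit T.det ∧ T.mulVec ![0, 0, 1] = P := by
    by_cases h2 : P 2 ≠ 0
    · refine ⟨!![1, 0, P 0; 0, 1, P 1; 0, 0, P 2], ?_, ?_⟩
      · rw [Matrix.det_fin_three]
        simpa using h2
      · ext i; fin_cases i <;> simp
    · push Not at h2
      by_cases h1 : P 1 ≠ 0
      · refine ⟨!![1, 0, P 0; 0, 0, P 1; 0, 1, P 2], ?_, ?_⟩
        · rw [Matrix.det_fin_three]
          simpa using h1
        · ext i; fin_cases i <;> simp
      · push Not at h1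
        have h0 : P 0 ≠ 0 := by
          intro h0
          apply hP
          ext i; fin_cases i
          · exact h0
          · exact h1
          · exact h2
        refine ⟨!![0, 0, P 0; 1, 0, P 1; 0, 1, P 2], ?_, ?_⟩
        · rw [Matrix.det_fin_three]
          simpa using h0
        · ext i; fin_cases i <;> simp
  obtain ⟨T, hT, hTP⟩ := key
  exact ⟨T, T⁻¹, Matrix.mul_nonsing_inv T hT, hTP⟩

lemma exists_roots {p : ℂ[X]} {c : ℂ} (hc : p.coeff 6 = c) (hc0 : c ≠ 0) (hd : p.natDegree ≤ 6)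
    (hs : p.Separable) :
    ∃ z : Fin 6 → ℂ, Function.Injective z ∧ p = C c * ∏ k, (X - C (z k)) := by
  have hdeg : p.natDegree = 6 := natDegree_eq_of_le_of_coeff_ne_zero hd (by rw [hc]; exact hc0)
  have hsp := IsAlgClosed.splits p
  have hnd := nodup_roots hs
  have hcard : p.roots.toFinset.card = 6 := by
    rw [Multiset.toFinset_card_of_nodup hnd, ← hdeg]
    exact hsp.natDegree_eq_card_roots.symm
  let e := (Finset.equivFinOfCardEq hcard).symm
  refine ⟨fun k => (e k).1, ?_, ?_⟩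
  · intro i j hij
    exact e.injective (Subtype.ext hij)
  · have h1 : p = C p.leadingCoeff * (p.roots.map fun a => X - C a).prod :=
      hsp.eq_prod_roots
    have h2 : (p.roots.map fun a => X - C a).prod = ∏ a ∈ p.roots.toFinset, (X - C a) := by
      rw [Finset.prod, Multiset.toFinset_val, hnd.dedup]
    have h3 : ∏ a ∈ p.roots.toFinset, (X - C a : ℂ[X]) = ∏ k, (X - C (e k).1) := by
      rw [← Finset.prod_coe_sort, ← Equiv.prod_comp e]
    conv_lhs => rw [h1]
    rw [h2, h3, leadingCoeff, hdeg, hc]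

lemma map_dh (P : R3) (x0 : ℂ) :
    (dh P).map (evalRingHom x0) = MvPolynomial.aeval ![1, C x0, X] P := by
  induction P using MvPolynomial.induction_on with
  | C c => rw [dh_C, MvPolynomial.aeval_C]; simp
  | add p q hp hq => rw [map_add, map_add, Polynomial.map_add, hp, hq]
  | mul_X p i hp =>
    rw [map_mul, map_mul, Polynomial.map_mul, hp, MvPolynomial.aeval_X]
    congr 1
    fin_cases i
    · simp [dh_X0]
    · simp [dh_X1]
    · simp [dh_X2]

lemma aeval_sb (T : Matrix (Fin 3) (Fin 3) ℂ) (P : R3) (φ : Fin 3 → ℂ[X]) :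
    MvPolynomial.aeval φ (sb T P) = MvPolynomial.aeval (fun i => ∑ j, C (T i j) * φ j) P := by
  have : (MvPolynomial.aeval φ).comp (sb T) =
      MvPolynomial.aeval (fun i => ∑ j, C (T i j) * φ j) := by
    apply MvPolynomial.algHom_ext
    intro i
    rw [AlgHom.comp_apply, sb_X, map_sum, MvPolynomial.aeval_X]
    refine Finset.sum_congr rfl fun j _ => ?_
    rw [map_mul, MvPolynomial.aeval_X, MvPolynomial.aeval_C]
    rfl
  rw [← this]
  rfl

theorem exists_coords {f h : R3} {d : ℕ} (hf : f.IsHomogeneous 6) (hfi : Irreducible f)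
    (hh : h.IsHomogeneous d) (hfh : ¬ f ∣ h) :
    ∃ (T S : Matrix (Fin 3) (Fin 3) ℂ) (_ : T * S = 1) (z : Fin 6 → ℂ) (c6 : ℂ),
      AtInfinity (dh (sb T f)) (dh (sb T h)) d z c6 := by
  -- a point outside of the curve
  obtain ⟨P, hP⟩ : ∃ P : Fin 3 → ℂ, MvPolynomial.eval P f ≠ 0 := by
    by_contra hcon
    push Not at hcon
    apply hfi.ne_zero
    apply MvPolynomial.funext
    intro P
    rw [hcon, map_zero]
  have hP0 : P ≠ 0 := by
    rintro rfl
    apply hP
    have h1 : MvPolynomial.eval (0 : Fin 3 → ℂ) f = MvPolynomial.constantCoeff f := by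
      rw [MvPolynomial.eval_zero]
    rw [h1, MvPolynomial.constantCoeff_eq]
    exact hf.coeff_eq_zero (by rw [map_zero]; norm_num)
  obtain ⟨T1, S1, hT1, hT1P⟩ := exists_matrix hP0
  set f1 := sb T1 f with hf1
  set h1 := sb T1 h with hh1
  have hf1h : f1.IsHomogeneous 6 := sb_homog T1 hf
  have hf1i : Irreducible f1 := sb_irreducible hT1 hfi
  have hfh1 : ¬ f1 ∣ h1 := fun h => hfh ((sb_dvd_iff hT1).mp h)
  set c6 := MvPolynomial.eval ![0, 0, 1] f1 with hc6
  have hc60 : c6 ≠ 0 := by rw [hc6, hf1, eval_sb, hT1P]; exact hP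
  set p := dh f1 with hp
  have hpp : Prime p := prime_dh hf1h (by norm_num) hf1i
  have hpc : p.coeff 6 = C c6 := coeff_six_dh hf1h
  have hpd : p.natDegree = 6 := natDegree_eq_of_le_of_coeff_ne_zero (natDegree_dh_le hf1h)
    (by rw [hpc, Ne, C_eq_zero]; exact hc60)
  have hpp' : ¬ p ∣ derivative p := by
    refine not_dvd_of_natDegree_lt ?_ ?_
    · intro h0
      have := derivative_eq_zero.mp h0
      omega
    · exact natDegree_derivative_lt (by omega)
  obtain ⟨u, v, b, hb, hbe⟩ := exists_bezout hpp (by omega) hpp'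
  obtain ⟨u', v', b', hb', hbe'⟩ := exists_bezout (q := dh h1) hpp (by omega)
    (fun h => hfh1 (dvd_of_dh_dvd' hf1h (by norm_num) hf1i (sb_homog T1 hh) h))
  obtain ⟨x0, hx0⟩ : ∃ x0 : ℂ, (b * b').eval x0 ≠ 0 := by
    by_contra hcon
    push Not at hcon
    apply mul_ne_zero hb hb'
    apply Polynomial.funext
    intro x
    rw [hcon, eval_zero]
  rw [eval_mul] at hx0
  have hbx : b.eval x0 ≠ 0 := left_ne_zero_of_mul hx0
  have hbx' : b'.eval x0 ≠ 0 := right_ne_zero_of_mul hx0
  set p0 := p.map (evalRingHom x0) with hp0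
  have hsep : p0.Separable := by
    rw [Separable]
    have h2 := congrArg (Polynomial.map (evalRingHom x0)) hbe
    rw [Polynomial.map_add, Polynomial.map_mul, Polynomial.map_mul, map_C, ← derivative_map,
      coe_evalRingHom] at h2
    refine ⟨u.map (evalRingHom x0) * C (b.eval x0)⁻¹, v.map (evalRingHom x0) * C (b.eval x0)⁻¹, ?_⟩
    have h3 : C (b.eval x0) * C (b.eval x0)⁻¹ = (1 : ℂ[X]) := by
      rw [← C_mul, mul_inv_cancel₀ hbx, C_1]
    linear_combination (C (b.eval x0)⁻¹) * h2 + h3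
  obtain ⟨z, hz, hpz⟩ := exists_roots (p := p0) (c := c6)
    (by rw [hp0, coeff_map, hpc]; simp) hc60
    ((natDegree_map_le).trans hpd.le) hsep
  let T2 : Matrix (Fin 3) (Fin 3) ℂ := !![0, 1, 0; 1, x0, 0; 0, 0, 1]
  let S2 : Matrix (Fin 3) (Fin 3) ℂ := !![-x0, 1, 0; 1, 0, 0; 0, 0, 1]
  have hT2 : T2 * S2 = 1 := by
    ext i j
    fin_cases i <;> fin_cases j <;> simp [T2, S2, Matrix.mul_apply, Fin.sum_univ_three]
  have htop : ∀ P : R3, MvPolynomial.aeval ![0, 1, X] (sb T2 P) =
      (dh P).map (evalRingHom x0) := by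
    intro P
    rw [map_dh, aeval_sb]
    have h2 : (fun i => ∑ j, C (T2 i j) * (![0, 1, X] : Fin 3 → ℂ[X]) j) = ![1, C x0, X] := by
      funext i
      fin_cases i <;> simp [T2, Fin.sum_univ_three]
    rw [h2]
  refine ⟨T1 * T2, S2 * S1, ?_, z, c6, ?_⟩
  · rw [← mul_assoc, mul_assoc T1, hT2, mul_one, hT1]
  rw [← sb_sb, ← sb_sb, ← hf1, ← hh1]
  refine ⟨hz, hc60, TD_dh (sb_homog T2 hf1h), TD_dh (sb_homog T2 (sb_homog T1 hh)), ?_, ?_⟩
  · rw [top_dh (sb_homog T2 hf1h)]
    refine Eq.trans ?_ hpz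
    exact htop f1
  · intro k
    rw [top_dh (sb_homog T2 (sb_homog T1 hh))]
    intro h0
    have h2 : ((dh h1).map (evalRingHom x0)).eval (z k) = 0 := by
      rw [← htop h1]
      exact h0
    have h3 := congrArg (fun q => (Polynomial.map (evalRingHom x0) q).eval (z k)) hbe'
    simp only [Polynomial.map_add, Polynomial.map_mul, map_C, eval_add, eval_mul, eval_C,
      coe_evalRingHom] at h3
    rw [h2, zero_mul, add_zero] at h3
    have h4 : p0.eval (z k) = 0 := by
      rw [hpz, eval_mul, eval_prod, Finset.prod_eq_zero (Finset.mem_univ k) (by simp), mul_zero]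
    rw [← hp0, h4, zero_mul] at h3
    exact hbx' h3.symm

end Vale.Agent.P287.Theta
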