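import Vale.Agent.P287.Theta.Wrap
import Vale.Agent.P287.H925.Final

/-!
Two sections of the theta characteristic: the cubic fourfold is rational.
-/

namespace Vale.Agent.P287.Theta

open MvPolynomial Vale.Agent.P287 Vale.Agent.P287.H925 Vale.Agent.P287.H925.NetResult

/-- If the quadratic form of the fibration is isotropic, the cubic fourfold is rational. -/
theorem rational_of_isotropic_form (F : MvPolynomial (Fin 6) ℂ) (hF : F.IsHomogeneous 3)
    (hs : SmoothForm F) (q : QuadraticForm RatK (Fin 4 → RatK)) (hq : IsFibrationForm F q)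
    (v : Fin 4 → RatK) (hv : v ≠ 0) (hqv : q v = 0) : RationalHypersurface F := by
  classical
  have hchar : CharZero RatK := charZero_of_injective_algebraMap (algebraMap ℂ RatK).injective
  -- the cubic contains the plane
  obtain ⟨B, hB⟩ := exists_cubic F hF (by
    intro y
    have h1 := hq ![0, algebraMap ℂ RatK (y 0), algebraMap ℂ RatK (y 1), algebraMap ℂ RatK (y 2)]
    have h2 : (wvec tvec ![0, algebraMap ℂ RatK (y 0), algebraMap ℂ RatK (y 1),
        algebraMap ℂ RatK (y 2)] : Fin 6 → RatK) =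
        fun i => algebraMap ℂ RatK ((![0, 0, 0, y 0, y 1, y 2] : Fin 6 → ℂ) i) := by
      funext i
      fin_cases i <;> simp [wvec]
    rw [h2] at h1
    have h3 : aeval (fun i => algebraMap ℂ RatK ((![0, 0, 0, y 0, y 1, y 2] : Fin 6 → ℂ) i)) F =
        algebraMap ℂ RatK (aeval ![0, 0, 0, y 0, y 1, y 2] F) := by
      have := MvPolynomial.comp_aeval_apply (![0, 0, 0, y 0, y 1, y 2] : Fin 6 → ℂ)
        (Algebra.ofId ℂ RatK) F
      exact this.symm
    rw [h3] at h1
    simp only [Matrix.cons_val_zero, zero_mul] at h1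
    exact (map_eq_zero (algebraMap ℂ RatK)).mp h1)
  subst hB
  have nd := nondegenerate_of_smooth B hs
  have hp := prime_of_smooth B hs
  -- the two descriptions of the quadratic form agree
  have hqq : ∀ v : Fin 4 → RatK, q v = qf (qmat B) v := by
    have h1 : ∀ v : Fin 4 → RatK, v 0 ≠ 0 → q v = qf (qmat B) v := by
      intro v hv
      have := hq v
      rw [aeval_cubic_wvec] at this
      have h2 := mul_left_cancel₀ hv this
      rw [qf_qmat, ← h2]
      simp
    intro v
    by_cases hv : v 0 = 0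
    · have e1 := h1 (Pi.single 0 1 + v) (by simp [hv])
      have e2 := h1 (Pi.single 0 1 - v) (by simp [hv])
      have e3 := h1 (Pi.single 0 1) (by simp)
      have p1 := QuadraticMap.map_add q (Pi.single 0 1) v
      have p2 := QuadraticMap.map_add q (Pi.single 0 1) (-v)
      rw [QuadraticMap.map_neg, QuadraticMap.polar_neg_right] at p2
      rw [sub_eq_add_neg] at e2
      rw [p1, qf_add] at e1
      rw [p2, qf_add] at e2
      have hneg : (-v) = (-1 : RatK) • v := by simp
      rw [hneg, qf_smul, pf_smul_right] at e2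
      have : 2 * q v = 2 * qf (qmat B) v := by
        linear_combination e1 + e2 - 2 * e3
      exact mul_left_cancel₀ two_ne_zero this
    · exact h1 v hv
  exact rational_of_isotropic B hp nd v hv (by rw [← hqq]; exact hqv)

/-- Isotropic determinantal representations give rational cubics. -/
theorem rational_of_isotropic_matrix (M : Matrix (Fin 4) (Fin 4) (MvPolynomial (Fin 3) ℂ))
    (hdeg : ∀ i j, (M i j).IsHomogeneous (1 + wt i + wt j)) (hs : SmoothForm (cubicOf M))
    (v : Fin 4 → RatK) (hv : v ≠ 0)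
    (hqv : dotProduct v ((M.map (aeval tvec : P3 →ₐ[ℂ] RatK)).mulVec v) = 0) :
    RationalHypersurface (cubicOf M) := by
  refine rational_of_isotropic_form (cubicOf M) (cubicOf_homogeneous M hdeg) hs (qM M)
    (fun w => by rw [qM_apply, aeval_wvec_cubicOf M hdeg]) (v ∘ perm4.symm) ?_ ?_
  · intro h
    apply hv
    funext i
    have := congrFun h (perm4 i)
    simpa using this
  · rw [qM_apply]
    have : (v ∘ perm4.symm) ∘ perm4 = v := by
      funext i
      simp
    rw [this]
    exact hqv

/-- determinants of weighted homogeneous matrices -/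
lemma det_weighted {n : ℕ} (M : Matrix (Fin n) (Fin n) P3) (w : Fin n → ℕ) (e : ℕ)
    (h : ∀ i j, (M i j).IsHomogeneous (1 + w i + w j)) (he : ∑ i, (1 + w i + w i) = e) :
    M.det.IsHomogeneous e := by
  rw [Matrix.det_apply]
  refine IsHomogeneous.sum _ _ _ fun τ _ => ?_
  have h1 : (∏ i, M (τ i) i).IsHomogeneous (∑ i, (1 + w (τ i) + w i)) :=
    IsHomogeneous.prod _ _ _ fun i _ => h _ _
  have h2 : ∑ i, (1 + w (τ i) + w i) = e := by
    rw [← he]
    simp only [Finset.sum_add_distrib]
    rw [Equiv.sum_comp τ w]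
  rw [h2] at h1
  rcases Int.units_eq_one_or (Equiv.Perm.sign τ) with h3 | h3 <;> rw [h3]
  · simpa using h1
  · simpa using h1.neg

/-- the permutation of the four coordinates -/
abbrev sw : Fin 4 ≃ Fin 4 := Equiv.swap 0 3

lemma wt_sw (i : Fin 4) : wt (sw i) = (![1, 0, 0, 0] : Fin 4 → ℕ) i := by
  fin_cases i <;> decide

lemma det_hom6 {M : Matrix (Fin 4) (Fin 4) P3}
    (hdeg : ∀ i j, (M i j).IsHomogeneous (1 + wt i + wt j)) : M.det.IsHomogeneous 6 :=
  det_weighted M wt 6 hdeg (by decide)

lemma adj_hom3 {M : Matrix (Fin 4) (Fin 4) P3}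
    (hdeg : ∀ i j, (M i j).IsHomogeneous (1 + wt i + wt j)) :
    (M.adjugate 3 3).IsHomogeneous 3 := by
  rw [Matrix.adjugate_fin_succ_eq_det_submatrix]
  have h1 : (M.submatrix (Fin.succAbove 3) (Fin.succAbove 3)).det.IsHomogeneous 3 := by
    refine det_weighted _ (fun _ => 0) 3 (fun i j => ?_) (by decide)
    have h2 : ∀ i : Fin 3, wt (Fin.succAbove 3 i) = 0 := by decide
    have h3 := hdeg (Fin.succAbove 3 i) (Fin.succAbove 3 j)
    rwa [h2, h2] at h3
  rcases neg_one_pow_eq_or P3 (((3 : Fin 4) : ℕ) + ((3 : Fin 4) : ℕ)) with h3 | h3 <;> rw [h3]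
  · simpa using h1
  · simpa using h1.neg

/-- **Two sections**. A smooth cubic fourfold containing a plane, with smooth discriminant sextic,
is rational if the theta characteristic of a splitting curve of even degree has two independent
sections. -/
theorem two_sections (M : Matrix (Fin 4) (Fin 4) P3) (hM : M.IsSymm)
    (hdeg : ∀ i j, (M i j).IsHomogeneous (1 + wt i + wt j)) (hs : SmoothForm (cubicOf M))
    (hsm : SmoothP M.det) {g : P3} {r : ℕ} (hg : Irreducible g) (hgr : g.IsHomogeneous (2 * r))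
    (hgf : ¬ g ∣ M.det)
    (hsq : ∃ (e : ℕ) (s c : P3), c.IsHomogeneous e ∧ ¬ g ∣ c ∧ g ∣ c ^ 2 * M.det - s ^ 2)
    {b₁ b₂ : P3} (hb₁ : b₁.IsHomogeneous (r + 3)) (hb₂ : b₂.IsHomogeneous (r + 3))
    (hind : ∀ c₁ c₂ : ℂ, M.det ∣ C c₁ * b₁ + C c₂ * b₂ → c₁ = 0 ∧ c₂ = 0)
    (h11 : b₁ ^ 2 ∈ Ideal.span {M.adjugate 3 3 * g, M.det})
    (h22 : b₂ ^ 2 ∈ Ideal.span {M.adjugate 3 3 * g, M.det}) :
    RationalHypersurface (cubicOf M) := by
  have hdet : (M.submatrix sw sw).det = M.det := Matrix.det_submatrix_equiv_self sw M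
  have hadj : (M.submatrix sw sw).adjugate 0 0 = M.adjugate 3 3 := by
    rw [Matrix.adjugate_submatrix_equiv_self]
    rfl
  have hr : 1 ≤ r := by
    by_contra h
    obtain rfl : r = 0 := by omega
    exact hg.not_isUnit (isUnit_of_homog_zero hgr hg.ne_zero)
  have key : ∃ v : Fin 4 → RatK, v ≠ 0 ∧
      dotProduct v (((M.submatrix sw sw).map (aeval tvec : P3 →ₐ[ℂ] RatK)).mulVec v) = 0 := by
    by_cases hδ : M.adjugate 3 3 = 0
    · exact isotropic_of_minor (by rw [hadj, hδ])
    · have H : ThetaData (M.submatrix sw sw) g r := {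
        sM := hM.submatrix sw
        hf := by rw [hdet]; exact det_hom6 hdeg
        pf := by rw [hdet]; exact prime_of_smoothP (det_hom6 hdeg) (by norm_num) hsm
        sf := by rw [hdet]; exact hsm
        hδ := by rw [hadj]; exact adj_hom3 hdeg
        δ0 := by rw [hadj]; exact hδ
        hg := hgr
        pg := hg.prime
        hgf := by rw [hdet]; exact hgf
        hsq := by rw [hdet]; exact hsq }
      exact H.isotropic hr hb₁ hb₂ (by rw [hdet]; exact hind) (by rw [hdet, hadj]; exact h11)
        (by rw [hdet, hadj]; exact h22)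
  obtain ⟨v, hv, hqv⟩ := key
  refine rational_of_isotropic_matrix M hdeg hs (v ∘ sw) ?_ ?_
  · intro h
    apply hv
    funext i
    have := congrFun h (sw i)
    simpa using this
  · rw [← hqv]
    simp only [dotProduct, Matrix.mulVec, Matrix.map_apply, Matrix.submatrix_apply]
    rw [← Equiv.sum_comp sw]
    refine Finset.sum_congr rfl fun i _ => ?_
    rw [← Equiv.sum_comp sw]
    simp

end Vale.Agent.P287.Theta
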