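import Vale.Agent.P287.Theta.Core
import Vale.Agent.P287.Theta.GoodCoords
import Vale.Agent.P287.Theta.IsoFinal

/-!
The theta theorem.
-/

namespace Vale.Agent.P287.Theta

open MvPolynomial Vale.Agent.P287 Vale.Agent.P287.H925 Vale.Agent.P287.H925.NetResult

variable {M : Matrix (Fin 4) (Fin 4) (MvPolynomial (Fin 3) ℂ)}

lemma fibShape_sw (hM : M.IsSymm) (hdeg : ∀ i j, (M i j).IsHomogeneous (1 + wt i + wt j)) :
    FibShape (M.submatrix sw sw) := by
  refine ⟨hM.submatrix sw, ?_, ?_, ?_⟩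
  · have h := hdeg (sw 0) (sw 0)
    rwa [wt_sw] at h
  · intro i
    have h := hdeg (sw 0) (sw i.succ)
    rw [wt_sw, wt_sw] at h
    fin_cases i <;> exact h
  · intro i j
    have h := hdeg (sw i.succ) (sw j.succ)
    rw [wt_sw, wt_sw] at h
    fin_cases i <;> fin_cases j <;> exact h

/-- No section. -/
theorem no_section (hM : M.IsSymm)
    (hdeg : ∀ i j, (M i j).IsHomogeneous (1 + wt i + wt j)) (hs : SmoothForm (cubicOf M))
    (hsm : SmoothP M.det) {g : P3} {r : ℕ} (hg : Irreducible g) (hgr : g.IsHomogeneous (2 * r))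
    (hgf : ¬ g ∣ M.det)
    (hsq : ∃ (e : ℕ) (s c : P3), c.IsHomogeneous e ∧ ¬ g ∣ c ∧ g ∣ c ^ 2 * M.det - s ^ 2)
    (hV : ∀ b : P3, b.IsHomogeneous (r + 3) →
      b ^ 2 ∈ Ideal.span {M.adjugate 3 3 * g, M.det} → M.det ∣ b) :
    RationalHypersurface (cubicOf M) := by
  have hdet : (M.submatrix sw sw).det = M.det := Matrix.det_submatrix_equiv_self sw M
  have hadj : (M.submatrix sw sw).adjugate 0 0 = M.adjugate 3 3 := by
    rw [Matrix.adjugate_submatrix_equiv_self]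
    rfl
  have hr : 1 ≤ r := by
    by_contra h
    obtain rfl : r = 0 := by omega
    exact hg.not_isUnit (isUnit_of_homog_zero hgr hg.ne_zero)
  have hiso : ∀ v : Fin 4 → RatK, v ≠ 0 →
      dotProduct v (((M.submatrix sw sw).map (aeval tvec : P3 →ₐ[ℂ] RatK)).mulVec v) = 0 →
      RationalHypersurface (cubicOf M) := by
    intro v hv hqv
    refine rational_of_isotropic_matrix M hdeg hs (v ∘ sw) ?_ ?_
    · intro h
      apply hv
      funext i
      have := congrFun h (sw i)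
      simpa using this
    · rw [← hqv]
      simp only [dotProduct, Matrix.mulVec, Matrix.map_apply, Matrix.submatrix_apply]
      rw [← Equiv.sum_comp sw]
      refine Finset.sum_congr rfl fun i _ => ?_
      rw [← Equiv.sum_comp sw]
      simp
  by_cases hδ : M.adjugate 3 3 = 0
  · obtain ⟨v, hv, hqv⟩ := isotropic_of_minor (M := M.submatrix sw sw) (by rw [hadj, hδ])
    exact hiso v hv hqv
  have hfs := fibShape_sw hM hdeg
  have hfi : Irreducible M.det := (prime_of_smoothP (det_hom6 hdeg) (by norm_num) hsm).irreducible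
  have hfg : ¬ M.det ∣ g := fun h => hgf (hfi.associated_of_dvd hg h).symm.dvd
  have hh : (M.adjugate 3 3 * g).IsHomogeneous (2 * r + 3) := by
    have := (adj_hom3 hdeg).mul hgr
    rwa [add_comm] at this
  have hfδ : ¬ M.det ∣ M.adjugate 3 3 := by
    have := dh_f_ndvd hfs (by rw [hdet]; exact hfi) (by rw [hadj]; exact hδ)
    rwa [hdet, hadj] at this
  obtain ⟨T, S, hTS, z, c6, H⟩ := exists_coords (det_hom6 hdeg) hfi hh
    (fun h => (hfi.prime.dvd_or_dvd h).elim hfδ hfg)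
  rcases theta_core (M := M.submatrix sw sw) (g := g) (r := r) hfs (by rw [hdet]; exact hsm)
    (by rw [hadj]; exact hδ) hgr hr hg (by rw [hdet]; exact hfg) (by rw [hdet]; exact hsq)
    (by rw [hdet, hadj]; exact hV) hTS (z := z) (c6 := c6) (by rw [hdet, hadj]; exact H) with
    ⟨v, hv, hqv⟩ | ⟨Q, l, hl, φ, hφ⟩
  · exact hiso v hv hqv
  · refine net_result (cubicOf M) (cubicOf_homogeneous M hdeg) hs (qM M)
      (fun w => by rw [qM_apply, aeval_wvec_cubicOf M hdeg]) Q ?_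
    let τ : (Fin 4 → RatK) ≃ₗ[RatK] (Fin 4 → RatK) :=
      LinearEquiv.funCongrLeft RatK RatK (sw.trans perm4)
    refine ⟨l, hl, (LinearEquiv.prodCongr τ (LinearEquiv.refl RatK (RatK × RatK))).trans φ, ?_⟩
    intro v a b
    have h1 : ((LinearEquiv.prodCongr τ (LinearEquiv.refl RatK (RatK × RatK))).trans φ)
        (v, a, b) = φ (fun i => v (perm4 (sw i)), a, b) := rfl
    rw [h1, hφ, qM_apply]
    congr 2
    simp only [dotProduct, Matrix.mulVec, Matrix.map_apply, Matrix.submatrix_apply,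
      Function.comp_apply]
    rw [← Equiv.sum_comp sw]
    refine Finset.sum_congr rfl fun i _ => ?_
    rw [← Equiv.sum_comp sw]
    simp

/-- **The theta theorem**: the number of sections is not one. -/
theorem theta_main (hM : M.IsSymm)
    (hdeg : ∀ i j, (M i j).IsHomogeneous (1 + wt i + wt j)) (hs : SmoothForm (cubicOf M))
    (hsm : SmoothP M.det) {g : P3} {r : ℕ} (hg : Irreducible g) (hgr : g.IsHomogeneous (2 * r))
    (hgf : ¬ g ∣ M.det)
    (hsq : ∃ (e : ℕ) (s c : P3), c.IsHomogeneous e ∧ ¬ g ∣ c ∧ g ∣ c ^ 2 * M.det - s ^ 2)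
    (hV : ¬ ∃ b₀ : P3, (b₀.IsHomogeneous (r + 3) ∧
      b₀ ^ 2 ∈ Ideal.span {M.adjugate 3 3 * g, M.det}) ∧ ¬ M.det ∣ b₀ ∧
      ∀ b : P3, b.IsHomogeneous (r + 3) ∧ b ^ 2 ∈ Ideal.span {M.adjugate 3 3 * g, M.det} →
        ∃ c : ℂ, M.det ∣ b - C c * b₀) :
    RationalHypersurface (cubicOf M) := by
  by_cases h0 : ∀ b : P3, b.IsHomogeneous (r + 3) →
      b ^ 2 ∈ Ideal.span {M.adjugate 3 3 * g, M.det} → M.det ∣ b
  · exact no_section hM hdeg hs hsm hg hgr hgf hsq h0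
  push Not at h0
  obtain ⟨b₀, hb₀, hb₀2, hb₀f⟩ := h0
  have h1 : ∃ b : P3, (b.IsHomogeneous (r + 3) ∧
      b ^ 2 ∈ Ideal.span {M.adjugate 3 3 * g, M.det}) ∧ ∀ c : ℂ, ¬ M.det ∣ b - C c * b₀ := by
    by_contra hcon
    push Not at hcon
    exact hV ⟨b₀, ⟨hb₀, hb₀2⟩, hb₀f, fun b hb => hcon b hb⟩
  obtain ⟨b, ⟨hb, hb2⟩, hbc⟩ := h1
  refine two_sections M hM hdeg hs hsm hg hgr hgf hsq hb₀ hb ?_ hb₀2 hb2
  intro c₁ c₂ hd
  have hc₂ : c₂ = 0 := by
    by_contra h2
    apply hbc (-(c₁ / c₂))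
    have h3 : b - C (-(c₁ / c₂)) * b₀ = C (c₂⁻¹) * (C c₁ * b₀ + C c₂ * b) := by
      have h4 : (C (c₂⁻¹) * C c₂ : P3) = 1 := by rw [← C_mul, inv_mul_cancel₀ h2, C_1]
      rw [div_eq_mul_inv, C_neg, C_mul]
      linear_combination (-b) * h4
    rw [h3]
    exact hd.mul_left _
  subst hc₂
  refine ⟨?_, rfl⟩
  by_contra h2
  apply hb₀f
  have h3 : b₀ = C (c₁⁻¹) * (C c₁ * b₀ + C 0 * b) := by
    have h4 : (C (c₁⁻¹) * C c₁ : P3) = 1 := by rw [← C_mul, inv_mul_cancel₀ h2, C_1]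
    rw [C_0]
    linear_combination (-b₀) * h4
  rw [h3]
  exact hd.mul_left _

end Vale.Agent.P287.Theta
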