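import Vale.Agent.P287.H925.Hom
import Vale.Agent.P287.H925.Dehom

/-!
Two sections of a theta characteristic: the algebra of the binary quadratic form attached to them.
-/

namespace Vale.Agent.P287.Theta

open MvPolynomial Vale.Agent.P287.H925

section Factor

variable {σ k : Type*} [Field k]

/-- substitution `x ↦ t x` -/
noncomputable def scaleT (σ k : Type*) [Field k] :
    MvPolynomial σ k →ₐ[k] Polynomial (MvPolynomial σ k) :=
  aeval fun i => Polynomial.X * Polynomial.C (X i)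

theorem scaleT_homog {q : MvPolynomial σ k} {d : ℕ} (hq : q.IsHomogeneous d) :
    scaleT σ k q = Polynomial.C q * Polynomial.X ^ d := by
  have h3 : (aeval (fun i => (Polynomial.C (X i) : Polynomial (MvPolynomial σ k))) :
      MvPolynomial σ k →ₐ[k] _) =
      (Algebra.ofId (MvPolynomial σ k) (Polynomial (MvPolynomial σ k))).restrictScalars k := by
    apply MvPolynomial.algHom_ext
    intro i
    simp [Algebra.ofId_apply]
  rw [scaleT, aeval_scale hq, h3, mul_comm]
  rfl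

theorem coeff_scaleT (q : MvPolynomial σ k) (d : ℕ) :
    (scaleT σ k q).coeff d = homogeneousComponent d q := by
  have h1 : scaleT σ k q = ∑ j ∈ Finset.range (q.totalDegree + 1),
      Polynomial.C (homogeneousComponent j q) * Polynomial.X ^ j := by
    conv_lhs => rw [← sum_homogeneousComponent q, map_sum]
    exact Finset.sum_congr rfl fun j _ => scaleT_homog (homogeneousComponent_isHomogeneous j q)
  rw [h1, Polynomial.finsetSum_coeff]
  simp only [Polynomial.coeff_C_mul_X_pow]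
  rw [Finset.sum_ite_eq]
  split_ifs with h
  · rfl
  · rw [homogeneousComponent_eq_zero]
    simpa using h

/-- factors of homogeneous polynomials are homogeneous -/
theorem homog_of_mul {a b : MvPolynomial σ k} {d : ℕ} (h : (a * b).IsHomogeneous d)
    (h0 : a * b ≠ 0) : ∃ m, a.IsHomogeneous m := by
  have h1 : scaleT σ k a * scaleT σ k b = Polynomial.C (a * b) * Polynomial.X ^ d := by
    rw [← map_mul, scaleT_homog h]
  have hinj : ∀ q : MvPolynomial σ k, q ≠ 0 → scaleT σ k q ≠ 0 := by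
    intro q hq hs
    apply hq
    rw [← sum_homogeneousComponent q]
    refine Finset.sum_eq_zero fun j _ => ?_
    rw [← coeff_scaleT, hs, Polynomial.coeff_zero]
  have ha : scaleT σ k a ≠ 0 := hinj a (left_ne_zero_of_mul h0)
  have hb : scaleT σ k b ≠ 0 := hinj b (right_ne_zero_of_mul h0)
  have hC : (Polynomial.C (a * b) : Polynomial (MvPolynomial σ k)) ≠ 0 := by
    rwa [Ne, Polynomial.C_eq_zero]
  have e1 : (scaleT σ k a).natDegree + (scaleT σ k b).natDegree = d := by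
    rw [← Polynomial.natDegree_mul ha hb, h1, Polynomial.natDegree_C_mul_X_pow _ _ h0]
  have e2 : (scaleT σ k a).natTrailingDegree + (scaleT σ k b).natTrailingDegree = d := by
    rw [← Polynomial.natTrailingDegree_mul ha hb, h1, Polynomial.natTrailingDegree_mul_X_pow hC,
      Polynomial.natTrailingDegree_C, zero_add]
  have e3 := Polynomial.natTrailingDegree_le_natDegree (scaleT σ k a)
  have e4 := Polynomial.natTrailingDegree_le_natDegree (scaleT σ k b)
  have e5 : (scaleT σ k a).natTrailingDegree = (scaleT σ k a).natDegree := by omega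
  refine ⟨(scaleT σ k a).natDegree, ?_⟩
  have h2 : a = homogeneousComponent (scaleT σ k a).natDegree a := by
    conv_lhs => rw [← sum_homogeneousComponent a]
    refine Finset.sum_eq_single _ (fun j _ hj => ?_) (fun hj => ?_)
    · rw [← coeff_scaleT]
      rcases lt_or_gt_of_ne hj with h | h
      · exact Polynomial.coeff_eq_zero_of_lt_natTrailingDegree (by omega)
      · exact Polynomial.coeff_eq_zero_of_natDegree_lt h
    · rw [homogeneousComponent_eq_zero]
      simpa using hj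
  have h3 : (homogeneousComponent (scaleT σ k a).natDegree a).IsHomogeneous
      (scaleT σ k a).natDegree := homogeneousComponent_isHomogeneous _ a
  rwa [← h2] at h3

/-- a multiple of a homogeneous polynomial, homogeneous, has degree at least that -/
lemma degree_le_of_mul {a b : MvPolynomial σ k} {m d : ℕ} (ha : a.IsHomogeneous m)
    (h : (a * b).IsHomogeneous d) (h0 : a * b ≠ 0) : ∃ n, d = m + n ∧ b.IsHomogeneous n := by
  obtain ⟨n, hn⟩ := homog_of_mul (a := b) (b := a) (by rwa [mul_comm]) (by rwa [mul_comm])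
  have h1 := ha.mul hn
  exact ⟨n, h.inj_right h1 h0, hn⟩

lemma exists_C_of_isUnit {u : MvPolynomial σ k} (hu : IsUnit u) : ∃ c : k, c ≠ 0 ∧ u = C c := by
  obtain ⟨c, hc, hc'⟩ := (MvPolynomial.isUnit_iff_eq_C_of_isReduced).1 hu
  exact ⟨c, hc.ne_zero, hc'⟩

lemma exists_sq_of_associated [IsAlgClosed k] {a A : MvPolynomial σ k}
    (h : Associated (a ^ 2) A) : ∃ b, A = b ^ 2 := by
  obtain ⟨u, hu⟩ := h
  obtain ⟨c, _, hc'⟩ := exists_C_of_isUnit u.isUnit
  obtain ⟨d, hd⟩ := IsAlgClosed.exists_pow_nat_eq c (n := 2) (by norm_num)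
  refine ⟨a * C d, ?_⟩
  rw [← hu, hc', ← hd, map_pow]
  ring

/-- `A D = B²` in a polynomial ring over an algebraically closed field. -/
lemma exists_of_mul_eq_sq [IsAlgClosed k] {A B D : MvPolynomial σ k} (hA : A ≠ 0)
    (h : A * D = B ^ 2) : ∃ e a c : MvPolynomial σ k, A = e * a ^ 2 ∧ D = e * c ^ 2 ∧
      B = e * a * c := by
  classical
  let _ : GCDMonoid (MvPolynomial σ k) := UniqueFactorizationMonoid.toGCDMonoid _
  obtain ⟨A', D', hA', hD', hu⟩ := extract_gcd A D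
  set e := gcd A D with he
  have he0 : e ≠ 0 := by
    intro h0
    rw [h0, zero_mul] at hA'
    exact hA hA'
  have h1 : e ∣ B := by
    rw [← UniqueFactorizationMonoid.pow_dvd_pow_iff_dvd (n := 2) two_ne_zero, ← h, hA', hD']
    exact ⟨A' * D', by ring⟩
  obtain ⟨B', rfl⟩ := h1
  have h2 : A' * D' = B' ^ 2 := by
    apply mul_left_cancel₀ (pow_ne_zero 2 he0)
    calc e ^ 2 * (A' * D') = (e * A') * (e * D') := by ring
      _ = A * D := by rw [← hA', ← hD']
      _ = (e * B') ^ 2 := h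
      _ = e ^ 2 * B' ^ 2 := by ring
  obtain ⟨a₀, ha₀⟩ := exists_associated_pow_of_mul_eq_pow hu h2
  obtain ⟨c₀, hc₀⟩ := exists_associated_pow_of_mul_eq_pow
    ((gcd_comm' A' D').isUnit hu) ((mul_comm _ _).trans h2)
  obtain ⟨a, rfl⟩ := exists_sq_of_associated ha₀
  obtain ⟨c, rfl⟩ := exists_sq_of_associated hc₀
  have h3 : B' ^ 2 = (a * c) ^ 2 := by rw [← h2]; ring
  rcases sq_eq_sq_iff_eq_or_eq_neg.1 h3 with h4 | h4
  · exact ⟨e, a, c, hA', hD', by rw [h4]; ring⟩
  · exact ⟨e, a, -c, hA', by rw [hD']; ring, by rw [h4]; ring⟩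

end Factor

section Pencil

variable {k : Type*} [Field k]

/-- homogeneous membership in the ideal of two forms -/
lemma exists_homog_coeff {b u f : (MvPolynomial (Fin 3) k)} {n m d : ℕ} (hb : b.IsHomogeneous (n + m))
    (hu : u.IsHomogeneous n) (hf : f.IsHomogeneous d) (h : b ∈ Ideal.span {u, f}) :
    ∃ A : (MvPolynomial (Fin 3) k), A.IsHomogeneous m ∧ f ∣ b - u * A := by
  obtain ⟨p, q, hpq⟩ := Ideal.mem_span_pair.1 h
  refine ⟨homogeneousComponent m p, homogeneousComponent_isHomogeneous _ _, ?_⟩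
  have h1 := congrArg (homogeneousComponent (n + m)) hpq
  rw [map_add, homogeneousComponent_eq_self hb, mul_comm p, hc_mul hu, mul_comm q] at h1
  rw [← h1, add_sub_cancel_left]
  by_cases hd : d ≤ n + m
  · obtain ⟨e, he⟩ := Nat.exists_eq_add_of_le hd
    rw [he, hc_mul hf]
    exact dvd_mul_right _ _
  · have h2 : homogeneousComponent (n + m) (f * q) = 0 := by
      have h3 : f * q = ∑ i ∈ Finset.range (q.totalDegree + 1),
          f * homogeneousComponent i q := by
        rw [← Finset.mul_sum, sum_homogeneousComponent]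
      rw [h3, map_sum]
      refine Finset.sum_eq_zero fun i _ => ?_
      rw [homogeneousComponent_of_mem (hf.mul (homogeneousComponent_isHomogeneous i q)), if_neg]
      omega
    rw [h2]
    exact dvd_zero _

/-- The binary form attached to two sections. -/
theorem pencil [IsAlgClosed k] {f δ g : (MvPolynomial (Fin 3) k)} (hf : Prime f) (hf6 : f.IsHomogeneous 6)
    (hδ : δ.IsHomogeneous 3) {r : ℕ} (hg : g.IsHomogeneous (2 * r)) (hfδ : ¬ f ∣ δ)
    (hfg : ¬ f ∣ g) {b₁ b₂ : (MvPolynomial (Fin 3) k)} (hb₁ : b₁.IsHomogeneous (r + 3)) (hb₂ : b₂.IsHomogeneous (r + 3))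
    (hind : ∀ c₁ c₂ : k, f ∣ C c₁ * b₁ + C c₂ * b₂ → c₁ = 0 ∧ c₂ = 0)
    (h11 : b₁ ^ 2 ∈ Ideal.span {δ * g, f}) (h12 : b₁ * b₂ ∈ Ideal.span {δ * g, f})
    (h22 : b₂ ^ 2 ∈ Ideal.span {δ * g, f})
    (hline : ∀ h s t : (MvPolynomial (Fin 3) k), h.IsHomogeneous 1 → h ≠ 0 →
      s.IsHomogeneous 1 → ¬ f ∣ s → ¬ f ∣ t →
      f ∣ s ^ 2 * (δ * g * h) - t ^ 2 → ∃ q, q.IsHomogeneous 3 ∧ h ∣ f - q ^ 2) :
    ∃ N : Matrix (Fin 2) (Fin 2) (MvPolynomial (Fin 3) k), N.IsSymm ∧ (∃ c : k, c ≠ 0 ∧ N.det = C c * f) ∧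
      ∃ s t, (∃ e, s.IsHomogeneous e) ∧ (∃ e, t.IsHomogeneous e) ∧ ¬ f ∣ s ∧ ¬ f ∣ t ∧
        f ∣ s ^ 2 * (g * N 0 0) - t ^ 2 * δ := by
  have hf0 : f ≠ 0 := hf.ne_zero
  have hfb₁ : ¬ f ∣ b₁ := by
    intro h
    exact one_ne_zero (hind 1 0 (by simpa using h)).1
  have hfb₂ : ¬ f ∣ b₂ := by
    intro h
    exact one_ne_zero (hind 0 1 (by simpa using h)).2
  have hdeg : ∀ {b b' : (MvPolynomial (Fin 3) k)}, b.IsHomogeneous (r + 3) → b'.IsHomogeneous (r + 3) →
      (b * b').IsHomogeneous (3 + 2 * r + 3) := by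
    intro b b' hb hb'
    have := hb.mul hb'
    have e : r + 3 + (r + 3) = 3 + 2 * r + 3 := by ring
    rwa [e] at this
  obtain ⟨A, hA, hA'⟩ := exists_homog_coeff (m := 3) (by rw [pow_two]; exact hdeg hb₁ hb₁)
    (hδ.mul hg) hf6 h11
  obtain ⟨B, hB, hB'⟩ := exists_homog_coeff (m := 3) (hdeg hb₁ hb₂) (hδ.mul hg) hf6 h12
  obtain ⟨D, hD, hD'⟩ := exists_homog_coeff (m := 3) (by rw [pow_two]; exact hdeg hb₂ hb₂)
    (hδ.mul hg) hf6 h22
  have hA0 : A ≠ 0 := by
    rintro rfl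
    rw [mul_zero, sub_zero] at hA'
    exact hfb₁ (hf.dvd_of_dvd_pow hA')
  have hfA : ∀ {e : ℕ} {a : (MvPolynomial (Fin 3) k)}, a.IsHomogeneous e → e < 6 → a ≠ 0 → ¬ f ∣ a := by
    rintro e a ha he ha0 ⟨q, hq⟩
    obtain ⟨n, hn, _⟩ := degree_le_of_mul hf6 (hq ▸ ha) (hq ▸ ha0)
    omega
  have hfδg : ¬ f ∣ δ * g := fun h => (hf.dvd_or_dvd h).elim hfδ hfg
  -- the determinant
  have hdet : f ∣ A * D - B ^ 2 := by
    have h1 : f ∣ (δ * g) ^ 2 * (A * D - B ^ 2) := by
      have e : (δ * g) ^ 2 * (A * D - B ^ 2) =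
          (b₁ * b₂ - δ * g * B) * (b₁ * b₂ + δ * g * B)
          - (b₁ ^ 2 - δ * g * A) * b₂ ^ 2
          - (b₂ ^ 2 - δ * g * D) * (δ * g * A) := by ring
      rw [e]
      exact dvd_sub (dvd_sub (hB'.mul_right _) (hA'.mul_right _)) (hD'.mul_right _)
    exact (hf.dvd_or_dvd h1).resolve_left fun h2 => hfδg (hf.dvd_of_dvd_pow h2)
  obtain ⟨u, hu⟩ := hdet
  have hAD : (A * D - B ^ 2).IsHomogeneous 6 := by
    have h1 := hA.mul hD
    have h2 := hB.pow 2
    exact h1.sub h2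
  by_cases hu0 : A * D - B ^ 2 = 0
  · -- the degenerate case
    obtain ⟨e, a, c, hAe, hDe, hBe⟩ := exists_of_mul_eq_sq hA0 (sub_eq_zero.1 hu0)
    have hD0 : D ≠ 0 := by
      rintro rfl
      rw [mul_zero, sub_zero] at hD'
      exact hfb₂ (hf.dvd_of_dvd_pow hD')
    obtain ⟨m, hm⟩ := homog_of_mul (hAe ▸ hA) (hAe ▸ hA0)
    have hsq : ∀ {x : (MvPolynomial (Fin 3) k)}, (e * x ^ 2).IsHomogeneous 3 → e * x ^ 2 ≠ 0 →
        ∃ n, 3 = m + 2 * n ∧ x.IsHomogeneous n := by
      intro x hx hx0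
      obtain ⟨l, hl, hxl⟩ := degree_le_of_mul hm hx hx0
      rw [pow_two] at hxl
      obtain ⟨n, hn⟩ := homog_of_mul hxl (by
        rw [← pow_two]; exact right_ne_zero_of_mul hx0)
      have h1 : l = n + n := hxl.inj_right (hn.mul hn) (by
        rw [← pow_two]; exact right_ne_zero_of_mul hx0)
      exact ⟨n, by omega, hn⟩
    obtain ⟨n, hn, han⟩ := hsq (hAe ▸ hA) (hAe ▸ hA0)
    obtain ⟨n', hn', hcn⟩ := hsq (hDe ▸ hD) (hDe ▸ hD0)
    obtain rfl : n' = n := by omega
    have hconst : ∀ {x : (MvPolynomial (Fin 3) k)}, x.IsHomogeneous 0 → x = C (x.coeff 0) := by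
      intro x hx
      rw [← totalDegree_eq_zero_iff_eq_C]
      by_cases h : x = 0
      · rw [h, totalDegree_zero]
      · exact hx.totalDegree h
    have ha0 : a ≠ 0 := by
      rintro rfl
      apply hA0
      rw [hAe]; ring
    have hn1 : n' = 0 ∨ n' = 1 := by omega
    rcases hn1 with rfl | rfl
    · exfalso
      have h1 : f ∣ (c * b₁ - a * b₂) ^ 2 := by
        have e1 : (c * b₁ - a * b₂) ^ 2 = c ^ 2 * (b₁ ^ 2 - δ * g * A)
            - 2 * a * c * (b₁ * b₂ - δ * g * B) + a ^ 2 * (b₂ ^ 2 - δ * g * D) := by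
          rw [hAe, hBe, hDe]; ring
        rw [e1]
        exact dvd_add (dvd_sub (hA'.mul_left _) (hB'.mul_left _)) (hD'.mul_left _)
      have h2 := hf.dvd_of_dvd_pow h1
      rw [hconst han, hconst hcn] at h2
      have h3 := hind (c.coeff 0) (- a.coeff 0) (by
        rw [map_neg, neg_mul, ← sub_eq_add_neg]; exact h2)
      apply ha0
      rw [hconst han, neg_eq_zero.1 h3.2, map_zero]
    · obtain rfl : m = 1 := by omega
      have he0 : e ≠ 0 := left_ne_zero_of_mul (hAe ▸ hA0)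
      have hfa : ¬ f ∣ a := hfA han (by norm_num) ha0
      have hba : f ∣ a ^ 2 * (δ * g * e) - b₁ ^ 2 := by
        have e1 : a ^ 2 * (δ * g * e) - b₁ ^ 2 = - (b₁ ^ 2 - δ * g * A) := by rw [hAe]; ring
        rw [e1]
        exact (dvd_neg).2 hA'
      obtain ⟨q, hq, Q, hQ⟩ := hline e a b₁ hm he0 han hfa hfb₁ hba
      refine ⟨!![e, q; q, -Q], ?_, ⟨-1, by simp, ?_⟩, a * δ, b₁, ⟨_, han.mul hδ⟩, ⟨_, hb₁⟩, ?_,
        hfb₁, ?_⟩
      · ext i j; fin_cases i <;> fin_cases j <;> rfl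
      · rw [Matrix.det_fin_two_of, map_neg, map_one, neg_one_mul]
        linear_combination hQ
      · exact fun h => (hf.dvd_or_dvd h).elim hfa hfδ
      · have e1 : (a * δ) ^ 2 * (g * e) - b₁ ^ 2 * δ =
            δ * (a ^ 2 * (δ * g * e) - b₁ ^ 2) := by ring
        change f ∣ (a * δ) ^ 2 * (g * e) - b₁ ^ 2 * δ
        rw [e1]
        exact hba.mul_left _
  · obtain ⟨n, hn, hun⟩ := degree_le_of_mul hf6 (hu ▸ hAD) (hu ▸ hu0)
    obtain rfl : n = 0 := by omega
    have hC : u = C (u.coeff 0) := by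
      rw [← totalDegree_eq_zero_iff_eq_C]
      by_cases h : u = 0
      · rw [h, totalDegree_zero]
      · exact hun.totalDegree h
    refine ⟨!![A, B; B, D], ?_, ⟨u.coeff 0, ?_, ?_⟩, δ, b₁, ⟨_, hδ⟩, ⟨_, hb₁⟩, hfδ, hfb₁, ?_⟩
    · ext i j; fin_cases i <;> fin_cases j <;> rfl
    · intro h
      rw [h, map_zero] at hC
      rw [hC, mul_zero] at hu
      exact hu0 hu
    · rw [Matrix.det_fin_two_of, ← hC, mul_comm u, ← hu]; ring
    · have e : δ ^ 2 * (g * A) - b₁ ^ 2 * δ = - δ * (b₁ ^ 2 - δ * g * A) := by ring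
      change f ∣ δ ^ 2 * (g * A) - b₁ ^ 2 * δ
      rw [e]
      exact hA'.mul_left _

end Pencil

end Vale.Agent.P287.Theta
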