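import Vale.Agent.P287.Theta.HNetGlobal
import Vale.Agent.P287.Theta.ChartGlue
import Vale.Agent.P287.Theta.PencilAlg
import Vale.Agent.P287.CommonZero

/-!
The theta theorem: assembly.
-/

namespace Vale.Agent.P287.Theta

open Polynomial Vale.Agent.P287 Matrix

/-- The shape of the matrix of the quadric surface fibration of a cubic containing a plane. -/
structure FibShape (M : Matrix (Fin 4) (Fin 4) R3) : Prop where
  symm : M.IsSymm
  h00 : (M 0 0).IsHomogeneous 3
  h0i : ∀ i : Fin 3, (M 0 i.succ).IsHomogeneous 2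
  hij : ∀ i j : Fin 3, (M i.succ j.succ).IsHomogeneous 1

/-- degrees of the entries -/
def degE : Fin 4 → Fin 4 → ℕ := fun i j => if i = 0 then (if j = 0 then 3 else 2)
  else (if j = 0 then 2 else 1)

lemma FibShape.entry {M : Matrix (Fin 4) (Fin 4) R3} (h : FibShape M) (i j : Fin 4) :
    (M i j).IsHomogeneous (degE i j) := by
  refine Fin.cases ?_ (fun i => ?_) i
  · refine Fin.cases ?_ (fun j => ?_) j
    · exact h.h00
    · exact h.h0i j
  · refine Fin.cases ?_ (fun j => ?_) j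
    · have := h.h0i i
      rw [← h.symm.apply] at this
      exact this
    · exact h.hij i j

lemma FibShape.det {M : Matrix (Fin 4) (Fin 4) R3} (h : FibShape M) :
    M.det.IsHomogeneous 6 := by
  rw [Matrix.det_apply]
  refine MvPolynomial.IsHomogeneous.sum _ _ _ fun σ _ => ?_
  have h1 : (∏ i, M (σ i) i).IsHomogeneous 6 := by
    have h2 := MvPolynomial.IsHomogeneous.prod Finset.univ (fun i => M (σ i) i)
      (fun i => degE (σ i) i) (fun i _ => h.entry _ _)
    have h3 : ∀ σ : Equiv.Perm (Fin 4), ∑ i, degE (σ i) i = 6 := by decide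
    rwa [h3] at h2
  rcases Int.units_eq_one_or (Equiv.Perm.sign σ) with h | h
  · rw [h, one_smul]
    exact h1
  · rw [h, Units.neg_smul, one_smul]
    exact h1.neg

lemma FibShape.delta {M : Matrix (Fin 4) (Fin 4) R3} (h : FibShape M) :
    (M.adjugate 0 0).IsHomogeneous 3 := by
  rw [Matrix.adjugate_fin_succ_eq_det_submatrix]
  have h1 := isHomogeneous_det (X := M.submatrix Fin.succ Fin.succ) (m := 1)
    (fun i j => h.hij i j)
  simpa using h1

/-- A smooth plane curve is irreducible. -/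
theorem irreducible_of_smooth {f : R3} {m : ℕ} (hf : f.IsHomogeneous m) (hm : 1 ≤ m)
    (hs : SmoothTernary f) : Irreducible f := by
  have hf0 : f ≠ 0 := by
    rintro rfl
    have := hs ![1, 0, 0] (fun i => by rw [map_zero, map_zero])
    have := congrFun this 0
    simp at this
  refine ⟨?_, ?_⟩
  · intro hu
    have h1 : f.totalDegree = 0 := by
      obtain ⟨b, hb⟩ := hu.exists_right_inv
      have hb0 : b ≠ 0 := by
        rintro rfl
        rw [mul_zero] at hb
        exact zero_ne_one hb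
      have := MvPolynomial.totalDegree_mul_of_isDomain hf0 hb0
      rw [hb, MvPolynomial.totalDegree_one] at this
      omega
    rw [hf.totalDegree hf0] at h1
    omega
  · intro a b hab
    by_contra hcon
    push Not at hcon
    obtain ⟨ha, hb⟩ := hcon
    have hvan : ∀ a b : R3, f = a * b → ¬ IsUnit a → MvPolynomial.aeval (0 : Fin 3 → ℂ) a = 0 := by
      intro a b hab ha
      obtain ⟨n, hn⟩ := homog_of_mul (hab ▸ hf) (hab ▸ hf0)
      have ha0 : a ≠ 0 := by
        rintro rfl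
        rw [zero_mul] at hab
        exact hf0 hab
      have hn0 : n ≠ 0 := by
        rintro rfl
        apply ha
        have h1 : a.totalDegree = 0 := hn.totalDegree ha0
        rw [MvPolynomial.totalDegree_eq_zero_iff_eq_C] at h1
        rw [h1]
        refine IsUnit.map _ (isUnit_iff_ne_zero.mpr ?_)
        intro h2
        rw [h2, map_zero] at h1
        exact ha0 h1
      rw [MvPolynomial.aeval_zero, MvPolynomial.constantCoeff_eq,
        hn.coeff_eq_zero (by rw [map_zero]; exact hn0.symm), map_zero]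
    obtain ⟨t, ht, ht0⟩ := exists_common_zero (k := ℂ) (n := 3) (r := 2) (by norm_num) ![a, b] (by
      intro i
      fin_cases i
      · exact hvan a b hab ha
      · exact hvan b a (by rw [hab, mul_comm]) hb)
    apply ht
    apply hs
    intro i
    have h1 : MvPolynomial.eval t a = 0 := ht0 0
    have h2 : MvPolynomial.eval t b = 0 := ht0 1
    rw [hab, Derivation.leibniz, map_add, smul_eq_mul, smul_eq_mul, map_mul, map_mul, h1, h2,
      zero_mul, zero_mul, add_zero]

lemma map_symm' {m : ℕ} {R S F : Type*} [CommRing R] [CommRing S] [FunLike F R S] (φ : F)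
    {Q : Matrix (Fin m) (Fin m) R} (h : Q.IsSymm) : (Q.map φ).IsSymm := by
  rw [Matrix.IsSymm, ← Matrix.transpose_map, h.eq]

lemma det_dh {n : ℕ} (M : Matrix (Fin n) (Fin n) R3) : (M.map dh).det = dh M.det := by
  rw [AlgHom.map_det]
  rfl

lemma adj_dh {n : ℕ} (M : Matrix (Fin n) (Fin n) R3) (i j : Fin n) :
    (M.map dh).adjugate i j = dh (M.adjugate i j) := by
  have := congrFun (congrFun (AlgHom.map_adjugate dh M) i) j
  exact this.symm

lemma det_sb {n : ℕ} (T : Matrix (Fin 3) (Fin 3) ℂ) (M : Matrix (Fin n) (Fin n) R3) :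
    (M.map (sb T)).det = sb T M.det := by
  rw [AlgHom.map_det]
  rfl

lemma adj_sb {n : ℕ} (T : Matrix (Fin 3) (Fin 3) ℂ) (M : Matrix (Fin n) (Fin n) R3)
    (i j : Fin n) : (M.map (sb T)).adjugate i j = sb T (M.adjugate i j) := by
  have := congrFun (congrFun (AlgHom.map_adjugate (sb T) M) i) j
  exact this.symm

lemma FibShape.sb {M : Matrix (Fin 4) (Fin 4) R3} (h : FibShape M)
    (T : Matrix (Fin 3) (Fin 3) ℂ) : FibShape (M.map (Theta.sb T)) := by
  refine ⟨?_, sb_homog T h.h00, fun i => sb_homog T (h.h0i i), fun i j => sb_homog T (h.hij i j)⟩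
  rw [Matrix.IsSymm, ← Matrix.transpose_map, h.symm.eq]

/-- `f` is a square in the function field of the curve `g = 0`. -/
def SquareMod (f g : R3) : Prop :=
  ∃ (k : ℕ) (s c : R3), c.IsHomogeneous k ∧ ¬ g ∣ c ∧ g ∣ c ^ 2 * f - s ^ 2

lemma SquareMod.sb {f g : R3} (h : SquareMod f g) {T S : Matrix (Fin 3) (Fin 3) ℂ}
    (hTS : T * S = 1) : SquareMod (Theta.sb T f) (Theta.sb T g) := by
  obtain ⟨k, s, c, hc, hgc, hd⟩ := h
  refine ⟨k, Theta.sb T s, Theta.sb T c, sb_homog T hc,
    fun h1 => hgc ((sb_dvd_iff hTS).mp h1), ?_⟩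
  have h1 := map_dvd (Theta.sb T) hd
  rwa [map_sub, map_mul, map_pow, map_pow] at h1

lemma SquareMod.dh {f g : R3} (h : SquareMod f g) {m : ℕ} (hg : g.IsHomogeneous m)
    (hm : 2 ≤ m) (hgi : Irreducible g) : ∃ s c, ¬ dh g ∣ c ∧ Theta.dh g ∣ c ^ 2 * Theta.dh f - s ^ 2
    := by
  obtain ⟨k, s, c, hc, hgc, hd⟩ := h
  refine ⟨Theta.dh s, Theta.dh c, fun h1 => hgc (dvd_of_dh_dvd' hg hm hgi hc h1), ?_⟩
  have h1 := dh_dvd hd
  rwa [map_sub, map_mul, map_pow, map_pow] at h1

section core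

variable {M : Matrix (Fin 4) (Fin 4) R3} {g : R3} {r : ℕ}

lemma dh_f_ndvd (hM : FibShape M) (hfi : Irreducible M.det) (hδ0 : M.adjugate 0 0 ≠ 0) :
    ¬ M.det ∣ M.adjugate 0 0 := by
  rintro ⟨q, hq⟩
  have hq0 : q ≠ 0 := by
    rintro rfl
    rw [mul_zero] at hq
    exact hδ0 hq
  have h1 := MvPolynomial.totalDegree_mul_of_isDomain hfi.ne_zero hq0
  rw [← hq, hM.delta.totalDegree hδ0, hM.det.totalDegree hfi.ne_zero] at h1
  omega

lemma evenness (hM : FibShape M) (hs : SmoothTernary M.det) (hδ0 : M.adjugate 0 0 ≠ 0)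
    (hg : g.IsHomogeneous (2 * r)) (hr : 1 ≤ r) (hgi : Irreducible g) (hsq : SquareMod M.det g)
    (x y : ℂ) (hp : evalEval x y (dh M.det) = 0) :
    ∃ u ε : ℂ[X][X], evalEval x y u ≠ 0 ∧
      dh M.det ∣ u * dh (M.adjugate 0 0 * g) - ε ^ 2 := by
  have hfi := irreducible_of_smooth hM.det (by norm_num) hs
  have hpf : Prime (dh M.det) := prime_dh hM.det (by norm_num) hfi
  have hsm := smooth_dh hM.det hs x y hp
  have hpg : Prime (dh g) := prime_dh hg (by omega) hgi
  obtain ⟨u1, ε1, hu1, h1⟩ := even_adj (M := M.map dh) (map_symm' dh hM.symm)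
    (by rw [det_dh]; exact hpf)
    (by
      rw [det_dh, adj_dh]
      exact fun h => dh_f_ndvd hM hfi hδ0 (dvd_of_dh_dvd' hM.det (by norm_num) hfi hM.delta h))
    (x := x) (y := y) (by rw [det_dh]; exact hp) (by rw [det_dh]; exact hsm)
  obtain ⟨u2, ε2, hu2, h2⟩ := even_norm hpg (hsq.dh hg (by omega) hgi) hp hsm
  rw [det_dh, adj_dh] at h1
  refine ⟨u1 * u2, ε1 * ε2, ?_, ?_⟩
  · rw [evalEval_mul]
    exact mul_ne_zero hu1 hu2
  · have : u1 * u2 * dh (M.adjugate 0 0 * g) - (ε1 * ε2) ^ 2 =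
        (u1 * dh (M.adjugate 0 0) - ε1 ^ 2) * (u2 * dh g) + ε1 ^ 2 * (u2 * dh g - ε2 ^ 2) := by
      rw [map_mul]
      ring
    rw [this]
    exact dvd_add (h1.mul_right _) (h2.mul_left _)

/-- The data of the glueing theorem, from the net of quadrics. -/
lemma chartData (hM : FibShape M) (hs : SmoothTernary M.det) (hδ0 : M.adjugate 0 0 ≠ 0)
    (hg : g.IsHomogeneous (2 * r)) (hr : 1 ≤ r) (hgi : Irreducible g) (hfg : ¬ M.det ∣ g)
    (hsq : SquareMod M.det g) {M' A : Matrix (Fin (2 * 3)) (Fin (2 * 3)) R3} {b : R3} {c0 : ℂ}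
    (H : HNet M.det (M.adjugate 0 0 * g) r M' A b c0) :
    ChartData (M.map dh) (M'.map dh) (A.map dh) (dh g) (dh b) 0 c0 := by
  have hfi := irreducible_of_smooth hM.det (by norm_num) hs
  have hpf : Prime (dh M.det) := prime_dh hM.det (by norm_num) hfi
  have hdvd : ∀ {P : R3} {n : ℕ}, P.IsHomogeneous n → dh M.det ∣ dh P → M.det ∣ P :=
    fun hP h => dvd_of_dh_dvd' hM.det (by norm_num) hfi hP h
  refine ⟨H.hc0, map_symm' dh hM.symm, map_symm' dh H.sM', map_symm' dh H.sA, ?_, ?_, ?_,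
    prime_dh hg (by omega) hgi, natDegree_dh_ne hg (by omega) hgi, ?_, ?_, ?_, ?_, ?_, ?_, ?_⟩
  · rw [det_dh, ← Matrix.map_mul, H.hMA]
    refine Matrix.ext fun i j => ?_
    rw [Matrix.map_apply, Matrix.smul_apply, Matrix.smul_apply, smul_eq_mul, smul_eq_mul, map_mul]
    by_cases hij : i = j
    · subst hij
      rw [Matrix.one_apply_eq, Matrix.one_apply_eq, map_one]
    · rw [Matrix.one_apply_ne hij, Matrix.one_apply_ne hij, map_zero]
  · rw [det_dh]; exact hpf
  · rw [det_dh]; exact natDegree_dh_ne hM.det (by norm_num) hfi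
  · rw [det_dh]
    exact fun h => hfg (hdvd hg h)
  · rw [det_dh, adj_dh]
    exact fun h => dh_f_ndvd hM hfi hδ0 (hdvd hM.delta h)
  · rw [det_dh]
    intro h
    have h1 := hdvd (H.dA 0 0) h
    have h2 : M.det ∣ b ^ 2 := by
      have := dvd_add H.hb (h1.mul_left (M.adjugate 0 0 * g))
      rwa [sub_add_cancel] at this
    exact H.hfb (hfi.prime.dvd_of_dvd_pow h2)
  · intro i j
    rw [det_dh]
    have h1 := dh_dvd (H.rA i j)
    rwa [map_sub, map_mul, map_mul] at h1
  · rw [det_dh, adj_dh]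
    have h1 := dh_dvd H.hb
    rwa [map_sub, map_pow, map_mul, map_mul] at h1
  · rw [det_dh, det_dh, H.hdet, map_mul, dh_C]
  · rw [det_dh]
    exact hsq.dh hg (by omega) hgi

lemma exists_linear {P : R3} (hP : P.IsHomogeneous 1) :
    ∃ c : Fin 3 → ℂ, P = ∑ k, MvPolynomial.C (c k) * MvPolynomial.X k := by
  have h1 : P ∈ MvPolynomial.homogeneousSubmodule (Fin 3) ℂ 1 := hP
  rw [MvPolynomial.homogeneousSubmodule_one_eq_span_X, Submodule.mem_span_range_iff_exists_fun]
    at h1
  obtain ⟨c, hc⟩ := h1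
  refine ⟨c, ?_⟩
  rw [← hc]
  exact Finset.sum_congr rfl fun k _ => by rw [MvPolynomial.smul_eq_C_mul]

lemma net_eq {M' : Matrix (Fin 6) (Fin 6) R3} {Q : Fin 3 → Matrix (Fin 6) (Fin 6) ℂ}
    (h : ∀ i j, M' i j = ∑ k, MvPolynomial.C (Q k i j) * MvPolynomial.X k) (w : Fin 6 → RatK) :
    net Q tvec w = w ⬝ᵥ (M'.map (MvPolynomial.aeval tvec)) *ᵥ w := by
  simp only [net, qf, dotProduct, Matrix.mulVec, Matrix.map_apply, h, map_sum, map_mul,
    MvPolynomial.aeval_C, MvPolynomial.aeval_X, Finset.mul_sum, Finset.sum_mul]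
  rw [Finset.sum_comm]
  refine Finset.sum_congr rfl fun i _ => ?_
  rw [Finset.sum_comm]
  refine Finset.sum_congr rfl fun j _ => Finset.sum_congr rfl fun k _ => ?_
  ring

lemma map_aeval_tvec {n : ℕ} (M : Matrix (Fin n) (Fin n) R3) :
    (M.map dh).map crMap = M.map (MvPolynomial.aeval tvec) := by
  ext i j
  exact crMap_dh _

/-- The conclusion: the quadratic form is isotropic or similar to a net of quadrics, after adding
a hyperbolic plane. -/
theorem theta_core (hM : FibShape M) (hs : SmoothTernary M.det) (hδ0 : M.adjugate 0 0 ≠ 0)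
    (hg : g.IsHomogeneous (2 * r)) (hr : 1 ≤ r) (hgi : Irreducible g) (hfg : ¬ M.det ∣ g)
    (hsq : SquareMod M.det g)
    (hne : ∀ B : R3, B.IsHomogeneous (r + 3) →
      B ^ 2 ∈ Ideal.span {M.adjugate 0 0 * g, M.det} → M.det ∣ B)
    {T S : Matrix (Fin 3) (Fin 3) ℂ} (hTS : T * S = 1) {z : Fin 6 → ℂ} {c6 : ℂ}
    (H : AtInfinity (dh (sb T M.det)) (dh (sb T (M.adjugate 0 0 * g))) (2 * r + 3) z c6) :
    (∃ v : Fin 4 → RatK, v ≠ 0 ∧ v ⬝ᵥ (M.map (MvPolynomial.aeval tvec)) *ᵥ v = 0) ∨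
      ∃ (Q : Fin 3 → Matrix (Fin 6) (Fin 6) ℂ) (l : RatK), l ≠ 0 ∧
        ∃ φ : ((Fin 4 → RatK) × RatK × RatK) ≃ₗ[RatK] (Fin 6 → RatK), ∀ v a b,
          net Q tvec (φ (v, a, b)) =
            l * (v ⬝ᵥ (M.map (MvPolynomial.aeval tvec)) *ᵥ v + a * b) := by
  have hfi := irreducible_of_smooth hM.det (by norm_num) hs
  have hfδ := dh_f_ndvd hM hfi hδ0
  have hh : (M.adjugate 0 0 * g).IsHomogeneous (2 * r + 3) := by
    have := hM.delta.mul hg
    rwa [add_comm] at this
  have hfh : ¬ M.det ∣ M.adjugate 0 0 * g := fun h =>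
    (hfi.prime.dvd_or_dvd h).elim hfδ hfg
  obtain ⟨M', A, b, c0, HN⟩ := exists_hnet hM.det hfi hs hh hr hfh hTS H (by
    intro x y hp
    have hsT : SmoothTernary (M.map (sb T)).det := by
      rw [det_sb]; exact sb_smooth hTS hs
    have h1 := evenness (M := M.map (sb T)) (g := sb T g) (r := r) (hM.sb T) hsT
      (by
        rw [adj_sb]
        intro h0
        have := congrArg (sb S) h0
        rw [sb_inv hTS, map_zero] at this
        exact hδ0 this)
      (sb_homog T hg) hr (sb_irreducible hTS hgi)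
      (by rw [det_sb]; exact hsq.sb hTS) x y (by rw [det_sb]; exact hp)
    rwa [det_sb, adj_sb, ← map_mul] at h1) hne
  have hCD := chartData hM hs hδ0 hg hr hgi hfg hsq HN
  obtain ⟨U, hU, hUd⟩ := hCD.lagrangian
  rw [map_aeval_tvec, map_aeval_tvec] at hU
  have hγ : crMap (dh g) ≠ 0 := by
    rw [Ne, map_eq_zero_iff _ crMap_injective]
    exact dh_ne_zero hg hgi.ne_zero
  have hchar : CharZero RatK := charZero_of_injective_algebraMap (algebraMap ℂ RatK).injective
  rcases exists_similarity (Q := M.map (MvPolynomial.aeval tvec))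
    (G := M'.map (MvPolynomial.aeval tvec)) two_ne_zero (map_symm' _ HN.sM') (by
      rw [← map_aeval_tvec]
      have h1 : ((M'.map dh).map crMap).det = crMap (M'.map dh).det := by
        rw [RingHom.map_det]; rfl
      rw [h1, Ne, map_eq_zero_iff _ crMap_injective, det_dh, HN.hdet]
      have hf' : (MvPolynomial.C c0 * M.det).IsHomogeneous 6 := by
        have := (MvPolynomial.isHomogeneous_C (Fin 3) c0).mul hM.det
        rwa [zero_add] at this
      exact dh_ne_zero hf' (mul_ne_zero (by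
        rw [Ne, MvPolynomial.C_eq_zero]; exact HN.hc0) hfi.ne_zero)) hγ U hU (by rw [hUd]) with h | h
  · exact Or.inl h
  · right
    obtain ⟨φ, hφ⟩ := h
    choose Q' hQ' using fun i j => exists_linear (HN.dM' i j)
    refine ⟨fun k => Matrix.of fun i j => Q' i j k, (crMap (dh g))⁻¹, inv_ne_zero hγ, φ, ?_⟩
    intro v a b
    have hQ : ∀ i j, M' i j = ∑ k, MvPolynomial.C
        ((fun k => Matrix.of fun i j => Q' i j k : Fin 3 → Matrix (Fin 6) (Fin 6) ℂ) k i j) *
          MvPolynomial.X k := fun i j => hQ' i j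
    exact (net_eq hQ _).trans (hφ v a b)

end core

end Vale.Agent.P287.Theta
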