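import Vale.Agent.P287.Theta.Even

/-!
The gluing theorem for a binary form.
-/

namespace Vale.Agent.P287.Theta

open Polynomial Vale.Agent.P287

/-- The gluing theorem for a binary form, in the chart. -/
lemma isotropic_chart {M : Matrix (Fin 4) (Fin 4) ℂ[X][X]} {N : Matrix (Fin 2) (Fin 2) ℂ[X][X]}
    {g : ℂ[X][X]} {c : ℂ} (hM : M.IsSymm) (hN : N.IsSymm) (hc : c ≠ 0)
    (hdet : N.det = C (C c) * M.det) (pf : Prime M.det) (df : M.det.natDegree ≠ 0)
    (pg : Prime g) (dg : g.natDegree ≠ 0) (hfg : ¬ M.det ∣ g) (hδ : ¬ M.det ∣ M.adjugate 0 0)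
    (hsm : ∀ x y : ℂ, evalEval x y M.det = 0 →
      M.det ∉ (Ideal.span {C (X - C x), X - C (C y)} : Ideal ℂ[X][X]) ^ 2)
    (hsq : ∃ s c, ¬ g ∣ c ∧ g ∣ c ^ 2 * M.det - s ^ 2) {s t : ℂ[X][X]} (hs : ¬ M.det ∣ s)
    (ht : ¬ M.det ∣ t) (hst : M.det ∣ s ^ 2 * (g * N 0 0) - t ^ 2 * M.adjugate 0 0) :
    ∃ v : Fin 4 → RatK, v ≠ 0 ∧ dotProduct v ((M.map crMap).mulVec v) = 0 := by
  obtain ⟨d, hd⟩ := sqrt_dvd M.det pf hsm (t * M.adjugate 0 0) s (M.adjugate 0 0 * g * N 0 0) hs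
    (by
      have e : (t * M.adjugate 0 0) ^ 2 - s ^ 2 * (M.adjugate 0 0 * g * N 0 0) =
        - M.adjugate 0 0 * (s ^ 2 * (g * N 0 0) - t ^ 2 * M.adjugate 0 0) := by ring
      rw [e]
      exact hst.mul_left _)
  have hd2 : M.det ∣ d ^ 2 - M.adjugate 0 0 * g * N 0 0 := by
    have h1 : M.det ∣ s ^ 2 * (d ^ 2 - M.adjugate 0 0 * g * N 0 0) := by
      have e : s ^ 2 * (d ^ 2 - M.adjugate 0 0 * g * N 0 0) =
          - M.adjugate 0 0 * (s ^ 2 * (g * N 0 0) - t ^ 2 * M.adjugate 0 0)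
          - (t * M.adjugate 0 0 - s * d) * (t * M.adjugate 0 0 + s * d) := by ring
      rw [e]
      exact dvd_sub (hst.mul_left _) (hd.mul_right _)
    exact (pf.dvd_or_dvd h1).resolve_left fun h2 => hs (pf.dvd_of_dvd_pow h2)
  obtain ⟨κ, hκ⟩ := IsAlgClosed.exists_pow_nat_eq c⁻¹ (n := 2) (by norm_num)
  have hcc : C (C c⁻¹) * C (C c) = (1 : ℂ[X][X]) := by
    rw [← C_mul, ← C_mul, inv_mul_cancel₀ hc, C_1, C_1]
  have hadj : N.adjugate 1 1 = N 0 0 := by
    rw [Matrix.adjugate_fin_two]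
    rfl
  have hU : IsUnit (C (C c⁻¹) : ℂ[X][X]) := isUnit_CC (inv_ne_zero hc)
  have hNs : N 0 1 = N 1 0 := hN.apply 1 0
  have H : ChartData M N (C (C c⁻¹) • N.adjugate) g (C (C κ) * d) 1 c := {
    hc0 := hc
    sM := hM
    sM' := hN
    sA := by
      refine Matrix.ext fun i j => ?_
      rw [Matrix.transpose_apply, Matrix.smul_apply, Matrix.smul_apply,
        adj_symm (n := 1) hN j i]
    hMA := by
      rw [Matrix.mul_smul, Matrix.mul_adjugate, hdet, smul_smul, ← mul_assoc, hcc, one_mul]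
    pf := pf
    df := df
    pg := pg
    dg := dg
    hfg := hfg
    hδ := hδ
    hA := by
      rw [Matrix.smul_apply, hadj, smul_eq_mul, hU.dvd_mul_left]
      intro h
      have h1 : M.det ∣ t ^ 2 * M.adjugate 0 0 := by
        have e : t ^ 2 * M.adjugate 0 0 =
          (s ^ 2 * g) * N 0 0 - (s ^ 2 * (g * N 0 0) - t ^ 2 * M.adjugate 0 0) := by ring
        rw [e]
        exact dvd_sub (h.mul_left _) hst
      rcases pf.dvd_or_dvd h1 with h2 | h2
      · exact ht (pf.dvd_of_dvd_pow h2)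
      · exact hδ h2
    rA := by
      intro i j
      rw [Matrix.adjugate_fin_two]
      fin_cases i <;> fin_cases j
      · refine ⟨C (C c⁻¹), ?_⟩
        have h2 := Matrix.det_fin_two N
        rw [hdet] at h2
        change (C (C c⁻¹) * N 0 0) * (C (C c⁻¹) * N 1 1) -
          (C (C c⁻¹) * (-N 0 1)) * (C (C c⁻¹) * (-N 1 0)) = M.det * C (C c⁻¹)
        linear_combination (-(C (C c⁻¹)) ^ 2) * h2 + (C (C c⁻¹) * M.det) * hcc
      · simp [mul_comm]
      · simp [mul_comm]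
      · simp
    hb := by
      rw [Matrix.smul_apply, hadj, smul_eq_mul, mul_pow, ← C_pow, ← C_pow, hκ]
      have e : C (C c⁻¹) * d ^ 2 - M.adjugate 0 0 * g * (C (C c⁻¹) * N 0 0) =
        C (C c⁻¹) * (d ^ 2 - M.adjugate 0 0 * g * N 0 0) := by ring
      rw [e]
      exact hd2.mul_left _
    hdet := hdet
    hsq := hsq }
  obtain ⟨U, hU1, hU2⟩ := ChartData.lagrangian (n := 1) H
  obtain ⟨v, hv, hv'⟩ := exists_isotropic_of_binary U hU1 hU2
  exact ⟨v, hv, hv'⟩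


end Vale.Agent.P287.Theta
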