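import Vale.Agent.P287.CommonZero

/-!
A bilinear map on a complex vector space with values in a space of smaller dimension has an
isotropic vector.
-/

namespace Vale.Agent.P287.Theta

open MvPolynomial Module

variable {k : Type*} [Field k] [IsAlgClosed k]

theorem exists_isotropic_of_finrank_lt {U T : Type*} [AddCommGroup U] [Module k U]
    [FiniteDimensional k U] [AddCommGroup T] [Module k T] [FiniteDimensional k T]
    (β : U →ₗ[k] U →ₗ[k] T) (h : finrank k T < finrank k U) :
    ∃ u : U, u ≠ 0 ∧ β u u = 0 := by
  classical
  let b := finBasis k U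
  let c := finBasis k T
  let g : Fin (finrank k T) → MvPolynomial (Fin (finrank k U)) k := fun l =>
    ∑ i, ∑ j, C (c.repr (β (b i) (b j)) l) * (X i * X j)
  obtain ⟨x, hx, hgx⟩ := exists_common_zero h g (by
    intro l
    simp [g])
  refine ⟨∑ i, x i • b i, ?_, ?_⟩
  · intro h0
    apply hx
    have := Fintype.linearIndependent_iff.mp b.linearIndependent x h0
    funext i
    exact this i
  · apply c.repr.injective
    rw [map_zero]
    ext l
    have h1 := hgx l
    simp only [g, map_sum, map_mul, aeval_C, aeval_X, Algebra.algebraMap_self, RingHom.id_apply] at h1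
    simp only [map_sum, LinearMap.sum_apply, map_smul, LinearMap.smul_apply, Finsupp.coe_finsetSum,
      Finset.sum_apply, Finsupp.coe_smul, Pi.smul_apply, smul_eq_mul, Finsupp.coe_zero, Pi.zero_apply]
    rw [← h1]
    simp only [Finset.mul_sum]
    rw [Finset.sum_comm]
    refine Finset.sum_congr rfl fun i _ => ?_
    refine Finset.sum_congr rfl fun j _ => ?_
    ring

end Vale.Agent.P287.Theta
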