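import Vale.Agent.P287.Theta.Curve
import Vale.Agent.P287.Theta.ChartGlue

/-!
Local evenness of the minors of a symmetric determinantal representation and of a splitting curve;
the discriminant is a square on a line which is everywhere even.
-/

namespace Vale.Agent.P287.Theta

open Polynomial IsLocalRing Matrix

section Adj

/-- At a smooth point some entry of the adjugate does not vanish. -/
lemma adj_ne_zero_aux {n : ℕ} (M : Matrix (Fin (n + 1)) (Fin (n + 1)) ℂ[X][X]) {x y z₀ : ℂ}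
    (φ : ℂ[X][X] →+* ℂ[X]) (hev : ∀ a, (φ a).eval z₀ = evalEval x y a) {β : ℂ[X]}
    (hβ : β.eval z₀ ≠ 0) (hφ : φ M.det = β * (X - C z₀)) :
    ∃ i j, evalEval x y (M.adjugate i j) ≠ 0 := by
  by_contra hcon
  push Not at hcon
  have h1 : ∀ i j, ∃ b, φ (M.adjugate i j) = (X - C z₀) * b := by
    intro i j
    have h2 : (φ (M.adjugate i j)).IsRoot z₀ := by
      rw [IsRoot.def, hev, hcon]
    exact dvd_iff_isRoot.2 h2
  choose B hB using h1
  have h2 : (M.adjugate).map φ = (X - C z₀) • (Matrix.of B) := by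
    ext1 i j
    rw [Matrix.map_apply, hB, Matrix.smul_apply, Matrix.of_apply, smul_eq_mul]
  have h3 : ((M.adjugate).map φ).det = (φ M.det) ^ n := by
    have h4 := RingHom.map_det φ M.adjugate
    rw [RingHom.mapMatrix_apply] at h4
    rw [← h4, Matrix.det_adjugate, Fintype.card_fin, Nat.add_sub_cancel, map_pow]
  rw [h2, Matrix.det_smul, Fintype.card_fin, hφ, mul_pow, pow_succ] at h3
  have h5 : (X - C z₀) ^ n ≠ 0 := pow_ne_zero _ (X_sub_C_ne_zero z₀)
  have h6 : (X - C z₀) * (Matrix.of B).det = β ^ n := by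
    apply mul_left_cancel₀ h5
    rw [← mul_assoc, h3]
    ring
  have h7 := congrArg (eval z₀) h6
  rw [eval_mul, eval_sub, eval_X, eval_C, sub_self, zero_mul, eval_pow] at h7
  exact pow_ne_zero n hβ h7.symm

lemma adj_ne_zero {n : ℕ} (M : Matrix (Fin (n + 1)) (Fin (n + 1)) ℂ[X][X]) {x y : ℂ}
    (hp : evalEval x y M.det = 0)
    (hsm : M.det ∉ (Ideal.span {C (X - C x), X - C (C y)} : Ideal ℂ[X][X]) ^ 2) :
    ∃ i j, evalEval x y (M.adjugate i j) ≠ 0 := by
  have h1 := ker_evalEval_le x y (show M.det ∈ RingHom.ker (evalEvalRingHom x y) from hp)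
  obtain ⟨α, β, hαβ⟩ := Ideal.mem_span_pair.1 h1
  have hm1 : C (X - C x) ∈ (Ideal.span {C (X - C x), X - C (C y)} : Ideal ℂ[X][X]) :=
    Ideal.subset_span (by simp)
  have hm2 : X - C (C y) ∈ (Ideal.span {C (X - C x), X - C (C y)} : Ideal ℂ[X][X]) :=
    Ideal.subset_span (by simp)
  by_cases hα : evalEval x y α = 0
  · by_cases hβ : evalEval x y β = 0
    · exfalso
      apply hsm
      rw [← hαβ, pow_two]
      exact add_mem (Ideal.mul_mem_mul (ker_evalEval_le x y hα) hm1)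
        (Ideal.mul_mem_mul (ker_evalEval_le x y hβ) hm2)
    · refine adj_ne_zero_aux M (z₀ := y) (mapRingHom (evalRingHom x))
        (β := mapRingHom (evalRingHom x) β) (fun a => ?_) ?_ ?_
      · rw [coe_mapRingHom, ← Polynomial.map_evalRingHom_eval]
      · rw [coe_mapRingHom, Polynomial.map_evalRingHom_eval]
        exact hβ
      · rw [← hαβ]
        simp
  · refine adj_ne_zero_aux M (z₀ := x) (evalRingHom (C y))
      (β := evalRingHom (C y) α) (fun a => rfl) hα ?_
    rw [← hαβ]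
    simp

variable {n : ℕ} {M : Matrix (Fin (n + 1)) (Fin (n + 1)) ℂ[X][X]}

lemma adj_symm (hM : M.IsSymm) (i j) : M.adjugate i j = M.adjugate j i := by
  have h := Matrix.adjugate_transpose M
  rw [hM.eq] at h
  have := congrFun (congrFun h i) j
  rw [Matrix.transpose_apply] at this
  exact this.symm

lemma dvd_diag (hM : M.IsSymm) (hf : Prime M.det) (hδ : ¬ M.det ∣ M.adjugate 0 0) (i j) :
    M.det ∣ M.adjugate i i * M.adjugate j j - M.adjugate i j ^ 2 := by
  have h1 := dvd_minor_adjugate M hf dvd_rfl hδ i i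
  have h2 := dvd_minor_adjugate M hf dvd_rfl hδ j j
  have h3 := dvd_minor_adjugate M hf dvd_rfl hδ i j
  rw [adj_symm hM 0 i] at h1
  rw [adj_symm hM 0 j] at h2 h3
  have h4 : M.det ∣ M.adjugate 0 0 ^ 2 * (M.adjugate i i * M.adjugate j j
      - M.adjugate i j ^ 2) := by
    have e : M.adjugate 0 0 ^ 2 * (M.adjugate i i * M.adjugate j j - M.adjugate i j ^ 2) =
        (M.adjugate 0 0 * M.adjugate i i - M.adjugate i 0 * M.adjugate i 0) *
          (M.adjugate 0 0 * M.adjugate j j) +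
        (M.adjugate i 0 * M.adjugate i 0) *
          (M.adjugate 0 0 * M.adjugate j j - M.adjugate j 0 * M.adjugate j 0) -
        (M.adjugate 0 0 * M.adjugate i j - M.adjugate i 0 * M.adjugate j 0) *
          (M.adjugate 0 0 * M.adjugate i j + M.adjugate i 0 * M.adjugate j 0) := by ring
    rw [e]
    exact dvd_sub (dvd_add (h1.mul_right _) (h2.mul_left _)) (h3.mul_right _)
  exact (hf.dvd_or_dvd h4).resolve_left fun h5 => hδ (hf.dvd_of_dvd_pow h5)

/-- `δ` is even at the smooth points of the discriminant. -/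
lemma even_adj (hM : M.IsSymm) (hf : Prime M.det) (hδ : ¬ M.det ∣ M.adjugate 0 0) {x y : ℂ}
    (hp : evalEval x y M.det = 0)
    (hsm : M.det ∉ (Ideal.span {C (X - C x), X - C (C y)} : Ideal ℂ[X][X]) ^ 2) :
    ∃ u ε : ℂ[X][X], evalEval x y u ≠ 0 ∧ M.det ∣ u * M.adjugate 0 0 - ε ^ 2 := by
  obtain ⟨i, j, hij⟩ := adj_ne_zero M hp hsm
  have h0 : ∀ a, M.det ∣ a → evalEval x y a = 0 := by
    rintro _ ⟨b, rfl⟩
    rw [← coe_evalEvalRingHom, map_mul, coe_evalEvalRingHom, hp, zero_mul]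
  have h1 := h0 _ (dvd_diag hM hf hδ i j)
  rw [← coe_evalEvalRingHom, map_sub, map_mul, map_pow, sub_eq_zero] at h1
  have h2 : evalEval x y (M.adjugate i i) ≠ 0 := by
    intro h3
    rw [coe_evalEvalRingHom, h3, zero_mul] at h1
    exact hij ((pow_eq_zero_iff two_ne_zero).1 h1.symm)
  refine ⟨M.adjugate i i, M.adjugate i 0, h2, ?_⟩
  have h4 := dvd_minor_adjugate M hf dvd_rfl hδ i i
  rw [adj_symm hM 0 i] at h4
  refine h4.trans (dvd_of_eq ?_)
  ring

end Adj

/-- `g` is even at the smooth points of `f`. -/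
lemma even_norm {f g : ℂ[X][X]} (hg : Prime g) (hsq : ∃ s c, ¬ g ∣ c ∧ g ∣ c ^ 2 * f - s ^ 2)
    {x y : ℂ} (hp : evalEval x y f = 0)
    (hsm : f ∉ (Ideal.span {C (X - C x), X - C (C y)} : Ideal ℂ[X][X]) ^ 2) :
    ∃ u ε : ℂ[X][X], evalEval x y u ≠ 0 ∧ f ∣ u * g - ε ^ 2 := by
  by_cases hgp : evalEval x y g = 0
  · obtain ⟨s, c, hc, b, hb⟩ := hsq
    obtain ⟨α, α', u, _, h2, h3⟩ := local_norm f g s b c hg (by rw [← hb]; ring) hc x y hp hgp hsm
    exact ⟨u, α, h3, -α' ^ 2, by linear_combination (-1 : ℂ[X][X]) * h2⟩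
  · exact ⟨g, g, hgp, 0, by ring⟩

section Line

lemma parity {L : Type*} [CommRing L] [IsDomain L] [IsPrincipalIdealRing L] {T t w : L}
    (hT : Prime T) {m : ℕ} (hw : IsUnit w) (h : T ^ m = w * t ^ 2) : Even m := by
  obtain ⟨w, rfl⟩ := hw
  have h1 : emultiplicity T (T ^ m) = m :=
    emultiplicity_pow_self hT.ne_zero hT.not_isUnit m
  have h2 : Associated (T ^ m) (t ^ 2) := by
    rw [h]
    exact associated_unit_mul_left _ _ w.isUnit
  have h3 : emultiplicity T (t ^ 2) = 2 * emultiplicity T t := by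
    simpa using emultiplicity_pow hT (k := 2) (a := t)
  rw [emultiplicity_eq_of_associated_right h2, h3] at h1
  have h4 : emultiplicity T t ≠ ⊤ := by
    intro h5
    rw [h5] at h1
    simp at h1
  obtain ⟨k, hk⟩ := ENat.ne_top_iff_exists.1 h4
  rw [← hk] at h1
  refine ⟨k, ?_⟩
  have h5 : ((2 * k : ℕ) : ℕ∞) = m := by
    rw [← h1]; push_cast; rfl
  have := ENat.natCast_inj.1 h5
  omega

variable {f : ℂ[X][X]}

/-- A polynomial all of whose roots are even is a square. -/
lemma exists_sq_of_even : ∀ (n : ℕ) (F : ℂ[X]), F.natDegree = n → F ≠ 0 →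
    (∀ z, F.eval z = 0 → Even (F.rootMultiplicity z)) → ∃ Q, F = Q ^ 2 := by
  intro n
  induction n using Nat.strong_induction_on with
  | _ n ih =>
    intro F hn hF hev
    by_cases h0 : F.degree = 0
    · obtain ⟨c, hc⟩ := IsAlgClosed.exists_pow_nat_eq (F.coeff 0) (n := 2) (by norm_num)
      refine ⟨C c, ?_⟩
      rw [← C_pow, hc]
      exact eq_C_of_degree_eq_zero h0
    · obtain ⟨z, hz⟩ := IsAlgClosed.exists_root F h0
      have h1 := hev z hz
      have h2 : 0 < F.rootMultiplicity z := (rootMultiplicity_pos hF).2 hz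
      obtain ⟨k, hk⟩ := h1
      have h3 : (X - C z) ^ 2 ∣ F := (le_rootMultiplicity_iff hF).1 (by omega)
      obtain ⟨G, hG⟩ := h3
      have hG0 : G ≠ 0 := by
        rintro rfl
        rw [mul_zero] at hG
        exact hF hG
      have hXz : (X - C z) ^ 2 ≠ 0 := pow_ne_zero 2 (X_sub_C_ne_zero z)
      have h4 : F.natDegree = 2 + G.natDegree := by
        rw [hG, natDegree_mul hXz hG0, natDegree_pow, natDegree_X_sub_C]
      have h5 : ∀ w, G.eval w = 0 → Even (G.rootMultiplicity w) := by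
        intro w hw
        have h6 : F.rootMultiplicity w = ((X - C z) ^ 2).rootMultiplicity w +
            G.rootMultiplicity w := by
          rw [hG]
          exact rootMultiplicity_mul (hG ▸ hF)
        have h7 : Even (((X - C z) ^ 2).rootMultiplicity w) := by
          by_cases hwz : w = z
          · subst hwz
            rw [rootMultiplicity_X_sub_C_pow]
            exact even_two
          · have : ((X - C z) ^ 2).rootMultiplicity w = 0 := by
              apply rootMultiplicity_eq_zero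
              rw [IsRoot.def, eval_pow, eval_sub, eval_X, eval_C]
              exact pow_ne_zero 2 (sub_ne_zero.2 hwz)
            rw [this]
            exact Even.zero
        have h8 : Even (F.rootMultiplicity w) := by
          apply hev
          rw [hG, eval_mul, hw, mul_zero]
        rw [h6] at h8
        exact (Nat.even_add.1 h8).1 h7
      obtain ⟨Q, hQ⟩ := ih G.natDegree (by omega) G rfl hG0 h5
      exact ⟨(X - C z) * Q, by rw [hG, hQ]; ring⟩

/-- multiplicities on the line `y = 0`. -/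
lemma even_root (hf : Prime f) (hF : f.coeff 0 ≠ 0) {z : ℂ} (hz : (f.coeff 0).eval z = 0)
    (hsm : f ∉ (Ideal.span {C (X - C z), X - C (C 0)} : Ideal ℂ[X][X]) ^ 2)
    {u ε s t : ℂ[X][X]} (hu : evalEval z 0 u ≠ 0) (hs : ¬ f ∣ s)
    (hε : ¬ f ∣ ε) (h : f ∣ u * t ^ 2 - ε ^ 2 * s ^ 2 * X) :
    Even ((f.coeff 0).rootMultiplicity z) := by
  have hp : evalEval z 0 f = 0 := by
    rw [evalEval, map_zero, ← coeff_zero_eq_eval_zero]
    exact hz
  have hD := isDomain_LocC hf hp
  have hP := isPrincipalIdealRing_LocC hf hp hsm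
  set m := (f.coeff 0).rootMultiplicity z with hm
  obtain ⟨F', hF', hF'z⟩ := exists_eq_pow_rootMultiplicity_mul_and_not_dvd (f.coeff 0) hF z
  rw [← hm] at hF'
  have hF'0 : F'.eval z ≠ 0 := fun h0 => hF'z (dvd_iff_isRoot.2 h0)
  have hm0 : 0 < m := (rootMultiplicity_pos hF).2 hz
  set T := toLoc hp (C (X - C z)) with hT
  set Y := toLoc hp X with hY
  set G := f.divX with hG
  have hfG : f = X * G + C (f.coeff 0) := (X_mul_divX_add f).symm
  -- relation in the local ring
  have hrel : Y * toLoc hp G + T ^ m * toLoc hp (C F') = 0 := by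
    have h1 : toLoc hp f = 0 := (toLoc_eq_zero hf).2 dvd_rfl
    have h2 : X * G + C (X - C z) ^ m * C F' = f := by
      rw [← C_pow, ← C_mul, ← hF', ← hfG]
    rw [hY, hT, ← map_mul, ← map_pow, ← map_mul, ← map_add, h2, h1]
  have hUF : IsUnit (toLoc hp (C F')) := isUnit_toLoc.2 (by simpa [evalEval] using hF'0)
  -- `Y` is a unit times a square
  have hYsq : ∃ w e : LocC f z 0 hp, IsUnit w ∧ Y = w * e ^ 2 := by
    have h1 : toLoc hp u * toLoc hp t ^ 2 = (toLoc hp ε * toLoc hp s) ^ 2 * Y := by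
      rw [hY, mul_pow, ← map_pow, ← map_pow, ← map_pow, ← map_mul, ← map_mul, ← map_mul,
        ← sub_eq_zero, ← map_sub]
      exact (toLoc_eq_zero hf).2 h
    have hU : IsUnit (toLoc hp u) := isUnit_toLoc.2 hu
    obtain ⟨U, hU⟩ := hU
    have h2 : toLoc hp ε * toLoc hp s ∣ toLoc hp t := by
      have h3 : (toLoc hp ε * toLoc hp s) ^ 2 ∣ toLoc hp t ^ 2 := by
        rw [← hU] at h1
        exact (Units.dvd_mul_left).1 ⟨Y, h1⟩
      exact (UniqueFactorizationMonoid.pow_dvd_pow_iff_dvd two_ne_zero).1 h3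
    obtain ⟨e, he⟩ := h2
    have h4 : toLoc hp ε * toLoc hp s ≠ 0 := by
      refine mul_ne_zero ?_ ?_
      · exact fun h0 => hε ((toLoc_eq_zero hf).1 h0)
      · exact fun h0 => hs ((toLoc_eq_zero hf).1 h0)
    refine ⟨toLoc hp u, e, isUnit_toLoc.2 hu, ?_⟩
    apply mul_left_cancel₀ (pow_ne_zero 2 h4)
    rw [← h1, he]
    ring
  obtain ⟨w, e, hw, hYe⟩ := hYsq
  have hmax := maximalIdeal_LocC hp
  have hYC : X - C (C (0 : ℂ)) = (X : ℂ[X][X]) := by simp
  rw [hYC, ← hT, ← hY] at hmax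
  have hY0 : Y ≠ 0 := by
    intro h0
    have h1 : f ∣ X := (toLoc_eq_zero hf).1 h0
    have h2 : (X : ℂ[X][X]) ∣ f := (hf.irreducible.associated_of_dvd prime_X.irreducible h1).symm.dvd
    rw [X_dvd_iff] at h2
    exact hF h2
  by_cases hGp : evalEval z 0 G = 0
  · exfalso
    by_cases hm1 : m = 1
    · -- `Y` generates the maximal ideal
      obtain ⟨U, hU⟩ := hUF
      have hTY : T ∈ Ideal.span {Y} := by
        rw [Ideal.mem_span_singleton]
        rw [hm1, pow_one, ← hU] at hrel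
        refine ⟨- (toLoc hp G * ((U⁻¹ : (LocC f z 0 hp)ˣ) : LocC f z 0 hp)), ?_⟩
        have h2 : (U : LocC f z 0 hp) * ((U⁻¹ : (LocC f z 0 hp)ˣ) : LocC f z 0 hp) = 1 :=
          U.mul_inv
        linear_combination ((U⁻¹ : (LocC f z 0 hp)ˣ) : LocC f z 0 hp) * hrel - T * h2
      have hmaxY : maximalIdeal (LocC f z 0 hp) = Ideal.span {Y} := by
        rw [hmax]
        apply le_antisymm
        · rw [Ideal.span_le]
          rintro b (rfl | rfl)
          · exact hTY
          · exact Ideal.mem_span_singleton_self _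
        · exact Ideal.span_mono (by simp)
      have hpY : Prime Y := by
        rw [← Ideal.span_singleton_prime hY0, ← hmaxY]
        infer_instance
      have := parity hpY (m := 1) hw (by rw [pow_one]; exact hYe)
      exact Nat.not_even_one this
    · -- `f` is singular
      apply hsm
      have hm1' : C (X - C z) ∈ (Ideal.span {C (X - C z), X - C (C 0)} : Ideal ℂ[X][X]) :=
        Ideal.subset_span (by simp)
      have hm2' : (X : ℂ[X][X]) ∈ (Ideal.span {C (X - C z), X - C (C 0)} : Ideal ℂ[X][X]) :=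
        Ideal.subset_span (by simp)
      rw [hfG]
      refine add_mem ?_ ?_
      · rw [pow_two]
        exact Ideal.mul_mem_mul hm2' (ker_evalEval_le z 0 hGp)
      · obtain ⟨l, hl⟩ := Nat.exists_eq_add_of_le (show 2 ≤ m by omega)
        rw [hF', hl, pow_add, C_mul, C_mul, C_pow]
        exact Ideal.mul_mem_right _ _ (Ideal.mul_mem_right _ _ (Ideal.pow_mem_pow hm1' 2))
  · have hUG : IsUnit (toLoc hp G) := isUnit_toLoc.2 hGp
    obtain ⟨V, hV⟩ := hUG
    obtain ⟨U, hU⟩ := hUF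
    have hVV : (V : LocC f z 0 hp) * ((V⁻¹ : (LocC f z 0 hp)ˣ) : LocC f z 0 hp) = 1 := V.mul_inv
    have hUU : (U : LocC f z 0 hp) * ((U⁻¹ : (LocC f z 0 hp)ˣ) : LocC f z 0 hp) = 1 := U.mul_inv
    rw [← hV, ← hU] at hrel
    have hYT : Y = - (T ^ m * U * ((V⁻¹ : (LocC f z 0 hp)ˣ) : LocC f z 0 hp)) := by
      linear_combination ((V⁻¹ : (LocC f z 0 hp)ˣ) : LocC f z 0 hp) * hrel - Y * hVV
    have hTm : T ^ m = - (V : LocC f z 0 hp) * ((U⁻¹ : (LocC f z 0 hp)ˣ) : LocC f z 0 hp) * Y := by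
      linear_combination ((U⁻¹ : (LocC f z 0 hp)ˣ) : LocC f z 0 hp) * hrel - T ^ m * hUU
    have hYmem : Y ∈ Ideal.span {T} := by
      rw [Ideal.mem_span_singleton, hYT]
      obtain ⟨l, hl⟩ := Nat.exists_eq_add_of_le (show 1 ≤ m by omega)
      rw [hl, pow_add, pow_one]
      exact ⟨- (T ^ l * U * ((V⁻¹ : (LocC f z 0 hp)ˣ) : LocC f z 0 hp)), by ring⟩
    have hmaxT : maximalIdeal (LocC f z 0 hp) = Ideal.span {T} := by
      rw [hmax]
      apply le_antisymm
      · rw [Ideal.span_le]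
        rintro b (rfl | rfl)
        · exact Ideal.mem_span_singleton_self _
        · exact hYmem
      · exact Ideal.span_mono (by simp)
    have hT0 : T ≠ 0 := by
      intro h0
      rw [h0, zero_pow (by omega), zero_mul, zero_mul, neg_zero] at hYT
      exact hY0 hYT
    have hpT : Prime T := by
      rw [← Ideal.span_singleton_prime hT0, ← hmaxT]
      infer_instance
    refine parity hpT (t := e)
      (w := - (V : LocC f z 0 hp) * ((U⁻¹ : (LocC f z 0 hp)ˣ) : LocC f z 0 hp) * w) ?_ ?_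
    · exact ((V.isUnit.neg).mul (U⁻¹).isUnit).mul hw
    · rw [hTm, hYe]; ring

/-- On the line `y = 0` the discriminant is a square as soon as `δ g y` is a square modulo `f`. -/
theorem sq_on_line {n : ℕ} {M : Matrix (Fin (n + 1)) (Fin (n + 1)) ℂ[X][X]} (hM : M.IsSymm)
    (hf : Prime M.det) (hδ : ¬ M.det ∣ M.adjugate 0 0)
    (hsm : ∀ x y : ℂ, evalEval x y M.det = 0 →
      M.det ∉ (Ideal.span {C (X - C x), X - C (C y)} : Ideal ℂ[X][X]) ^ 2)
    {g : ℂ[X][X]} (hg : Prime g) (hfg : ¬ M.det ∣ g)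
    (hsq : ∃ s c, ¬ g ∣ c ∧ g ∣ c ^ 2 * M.det - s ^ 2) (hF : M.det.coeff 0 ≠ 0)
    {s t : ℂ[X][X]} (hs : ¬ M.det ∣ s)
    (h : M.det ∣ s ^ 2 * (M.adjugate 0 0 * g * X) - t ^ 2) : ∃ Q, M.det.coeff 0 = Q ^ 2 := by
  refine exists_sq_of_even _ _ rfl hF fun z hz => ?_
  have hp : evalEval z 0 M.det = 0 := by
    rw [evalEval, map_zero, ← coeff_zero_eq_eval_zero]
    exact hz
  have h0 : ∀ a, M.det ∣ a → evalEval z 0 a = 0 := by
    rintro _ ⟨b, rfl⟩
    rw [← coe_evalEvalRingHom, map_mul, coe_evalEvalRingHom, hp, zero_mul]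
  obtain ⟨u₁, ε₁, hu₁, hε₁⟩ := even_adj hM hf hδ hp (hsm z 0 hp)
  obtain ⟨u₂, ε₂, hu₂, hε₂⟩ := even_norm hg hsq hp (hsm z 0 hp)
  have key : ∀ {u ε a : ℂ[X][X]}, evalEval z 0 u ≠ 0 → M.det ∣ u * a - ε ^ 2 → ¬ M.det ∣ a →
      ¬ M.det ∣ ε := by
    intro u ε a hu hε ha h1
    have h2 : M.det ∣ u * a := by
      have h3 : u * a = (u * a - ε ^ 2) + ε * ε := by ring
      rw [h3]
      exact dvd_add hε (h1.mul_right _)
    rcases hf.dvd_or_dvd h2 with h3 | h3
    · exact hu (h0 _ h3)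
    · exact ha h3
  have hn₁ := key hu₁ hε₁ hδ
  have hn₂ := key hu₂ hε₂ hfg
  refine even_root hf hF hz (by simpa using hsm z 0 hp) (u := u₁ * u₂) (ε := ε₁ * ε₂) (s := s)
    (t := t) ?_ hs ?_ ?_
  · rw [← coe_evalEvalRingHom, map_mul]
    exact mul_ne_zero hu₁ hu₂
  · exact fun h1 => (hf.dvd_or_dvd h1).elim hn₁ hn₂
  · have e : u₁ * u₂ * t ^ 2 - (ε₁ * ε₂) ^ 2 * s ^ 2 * X =
        - (u₁ * u₂) * (s ^ 2 * (M.adjugate 0 0 * g * X) - t ^ 2)
        + (u₁ * M.adjugate 0 0 - ε₁ ^ 2) * (u₂ * g * s ^ 2 * X)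
        + (u₂ * g - ε₂ ^ 2) * (ε₁ ^ 2 * s ^ 2 * X) := by ring
    rw [e]
    exact dvd_add (dvd_add (h.mul_left _) (hε₁.mul_right _)) (hε₂.mul_right _)

end Line

end Vale.Agent.P287.Theta
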