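import Vale.Agent.P287.Theta.Curve
import Vale.Agent.P287.Theta.Even
import Vale.Agent.P287.Theta.Count
import Vale.Agent.P287.Theta.Dixon

/-!
From local evenness to six global sections.
-/

namespace Vale.Agent.P287.Theta

open Polynomial

lemma evalEval_of_dvd {f a : ℂ[X][X]} {x y : ℂ} (hf : evalEval x y f = 0) (h : f ∣ a) :
    evalEval x y a = 0 := by
  obtain ⟨b, rfl⟩ := h
  rw [evalEval_mul, hf, zero_mul]

/-- The square roots of `h` at the points of the curve. -/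
theorem exists_family {f h : ℂ[X][X]} (hf : Prime f) (hfh : ¬ f ∣ h)
    (hsm : ∀ x y : ℂ, evalEval x y f = 0 →
      f ∉ (Ideal.span {C (X - C x), X - C (C y)} : Ideal ℂ[X][X]) ^ 2)
    (hev : ∀ x y : ℂ, evalEval x y f = 0 →
      ∃ u ε : ℂ[X][X], evalEval x y u ≠ 0 ∧ f ∣ u * h - ε ^ 2) :
    ∃ (ι : Type) (γ : ι → ℂ[X][X]) (u : ι → ι → ℂ[X][X]),
      (∀ k l, f ∣ γ k * γ l - h * u k l) ∧
      ∀ x y : ℂ, evalEval x y f = 0 → ∃ k, evalEval x y (u k k) ≠ 0 := by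
  choose! U E hU hE using hev
  have h1 : ∀ k l : {p : ℂ × ℂ // evalEval p.1 p.2 f = 0},
      ∃ d, f ∣ E k.1.1 k.1.2 * E l.1.1 l.1.2 - h * d := by
    rintro ⟨⟨x, y⟩, hp⟩ ⟨⟨x', y'⟩, hp'⟩
    refine sqrt_dvd f hf hsm _ h (U x y * U x' y') hfh ?_
    obtain ⟨a, ha⟩ := hE x y hp
    obtain ⟨b, hb⟩ := hE x' y' hp'
    refine ⟨-a * E x' y' ^ 2 - U x y * h * b, ?_⟩
    simp only
    linear_combination (-E x' y' ^ 2) * ha - U x y * h * hb
  choose D hD using h1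
  refine ⟨{p : ℂ × ℂ // evalEval p.1 p.2 f = 0}, fun k => E k.1.1 k.1.2, D, hD, ?_⟩
  intro x y hp
  refine ⟨⟨(x, y), hp⟩, ?_⟩
  intro h0
  have h2 := hD ⟨(x, y), hp⟩ ⟨(x, y), hp⟩
  have h3 : f ∣ h * (U x y - D ⟨(x, y), hp⟩ ⟨(x, y), hp⟩) := by
    have h4 := dvd_add (hE x y hp) h2
    refine h4.trans (dvd_of_eq ?_)
    simp only
    ring
  have h4 := evalEval_of_dvd hp ((hf.dvd_or_dvd h3).resolve_left hfh)
  rw [evalEval_sub, h0, sub_zero] at h4
  exact hU x y hp h4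

/-- Products of sections. -/
theorem mul_sections {f h : ℂ[X][X]} (hf : Prime f) (hfh : ¬ f ∣ h) {ι : Type}
    {γ : ι → ℂ[X][X]} {u : ι → ι → ℂ[X][X]} (hγ : ∀ k l, f ∣ γ k * γ l - h * u k l)
    (hu : ∀ x y : ℂ, evalEval x y f = 0 → ∃ k, evalEval x y (u k k) ≠ 0)
    {β β' : ℂ[X][X]} (hβ : ∀ k, β * γ k ∈ Ideal.span {h, f})
    (hβ' : ∀ k, β' * γ k ∈ Ideal.span {h, f}) : ∃ a, f ∣ β * β' - h * a := by
  let I : Ideal ℂ[X][X] :=
    { carrier := {s | ∃ a, f ∣ s * (β * β') - h * a}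
      add_mem' := by
        rintro s s' ⟨d, hd⟩ ⟨d', hd'⟩
        exact ⟨d + d', by
          have := dvd_add hd hd'
          refine this.trans (dvd_of_eq ?_)
          ring⟩
      zero_mem' := ⟨0, by simp⟩
      smul_mem' := by
        rintro r s ⟨d, hd⟩
        exact ⟨r * d, by
          refine (hd.mul_left r).trans (dvd_of_eq ?_)
          simp only [smul_eq_mul]
          ring⟩ }
  have hI : I = ⊤ := by
    by_contra hne
    obtain ⟨x, y, hxy⟩ := exists_common_point I hne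
    have hp : evalEval x y f = 0 := hxy f ⟨0, by simp⟩
    obtain ⟨k, hk⟩ := hu x y hp
    refine hk (hxy _ ?_)
    obtain ⟨c, e, hc⟩ := Ideal.mem_span_pair.mp (hβ k)
    obtain ⟨c', e', hc'⟩ := Ideal.mem_span_pair.mp (hβ' k)
    refine ⟨c * c', ?_⟩
    obtain ⟨w, hw⟩ := hγ k k
    have h1 : f ∣ h * (u k k * (β * β') - h * (c * c')) := by
      refine ⟨-(β * β') * w + (c * h * e' + e * c' * h + e * e' * f), ?_⟩
      linear_combination (-(β * β')) * hw - (β' * γ k) * hc - (c * h + e * f) * hc'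
    exact (hf.dvd_or_dvd h1).resolve_left hfh
  obtain ⟨a, ha⟩ : (1 : ℂ[X][X]) ∈ I := by rw [hI]; trivial
  exact ⟨a, by rwa [one_mul] at ha⟩

end Vale.Agent.P287.Theta
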