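import Mathlib

/-!
Local evenness: if `f` is a square in the function field of the plane curve `g = 0` and `f = 0` is
smooth at a point `p` of both curves, then some element of the prime over `g` in
`ℂ[x,y][w]/(w² - f)` has norm `g * u` with `u` a unit at `p`.
-/

namespace Vale.Agent.P287.Theta

open Polynomial

section General

variable {R : Type*} [CommRing R]

/-- The module of pairs `(α, α')` with `g ∣ c * α + a * α'`. -/
def pairMod (g a c : R) : Submodule R (R × R) where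
  carrier := {v | g ∣ c * v.1 + a * v.2}
  add_mem' := by
    intro v w hv hw
    have := dvd_add hv hw
    refine this.trans (dvd_of_eq ?_)
    simp only [Prod.fst_add, Prod.snd_add]
    ring
  zero_mem' := by simp
  smul_mem' := by
    intro r v hv
    refine (hv.mul_left r).trans (dvd_of_eq ?_)
    simp only [Prod.smul_fst, Prod.smul_snd, smul_eq_mul]
    ring

lemma mem_pairMod {g a c : R} {v : R × R} : v ∈ pairMod g a c ↔ g ∣ c * v.1 + a * v.2 := Iff.rfl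

/-- A submodule of `S × S`, `S` principal, has two generators. -/
lemma exists_two_gens {S : Type*} [CommRing S] [IsPrincipalIdealRing S]
    (Q : Submodule S (S × S)) :
    ∃ q₁ ∈ Q, ∃ q₂ ∈ Q, ∀ v ∈ Q, ∃ r₁ r₂ : S, v = r₁ • q₁ + r₂ • q₂ := by
  obtain ⟨s₁, hs₁⟩ := (IsPrincipalIdealRing.principal (Q.map (LinearMap.fst S S S))).principal
  obtain ⟨s₂, hs₂⟩ := (IsPrincipalIdealRing.principal (Q.comap (LinearMap.inr S S S))).principal
  have h1 : s₁ ∈ Q.map (LinearMap.fst S S S) := by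
    rw [hs₁]; exact Submodule.mem_span_singleton_self _
  have h2 : s₂ ∈ Q.comap (LinearMap.inr S S S) := by
    rw [hs₂]; exact Submodule.mem_span_singleton_self _
  obtain ⟨q₁, hq₁, hq₁'⟩ := h1
  refine ⟨q₁, hq₁, _, h2, fun v hv => ?_⟩
  have h3 : v.1 ∈ Q.map (LinearMap.fst S S S) := ⟨v, hv, rfl⟩
  rw [hs₁] at h3
  obtain ⟨r₁, hr₁⟩ := Submodule.mem_span_singleton.mp h3
  have h4 : v - r₁ • q₁ ∈ Q := Q.sub_mem hv (Q.smul_mem _ hq₁)
  have h5 : v - r₁ • q₁ = LinearMap.inr S S S (v - r₁ • q₁).2 := by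
    ext
    · simp only [Prod.fst_sub, Prod.smul_fst, LinearMap.coe_inr]
      rw [← hr₁, ← hq₁']
      simp
    · rfl
  have h6 : (v - r₁ • q₁).2 ∈ Q.comap (LinearMap.inr S S S) := by
    rw [Submodule.mem_comap, ← h5]; exact h4
  rw [hs₂] at h6
  obtain ⟨r₂, hr₂⟩ := Submodule.mem_span_singleton.mp h6
  refine ⟨r₁, r₂, ?_⟩
  rw [← map_smul, hr₂, ← h5]
  abel

variable [IsDomain R] [IsNoetherianRing R]

omit [IsDomain R] in
/-- Two local generators of `pairMod`. -/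
lemma exists_gens {S : Type*} [CommRing S] [IsPrincipalIdealRing S] (φ : R →+* S)
    (hφ : Function.Surjective φ) {t : R} (hker : ∀ r, φ r = 0 → t ∣ r)
    {g a c : R} (hg : Prime g) (hgt : ¬ g ∣ t) :
    ∃ e₁ ∈ pairMod g a c, ∃ e₂ ∈ pairMod g a c, ∃ s : R, t ∣ s - 1 ∧
      ∀ v ∈ pairMod g a c, ∃ r₁ r₂ : R, s • v = r₁ • e₁ + r₂ • e₂ := by
  let Q : Submodule S (S × S) :=
    { carrier := {w | ∃ v ∈ pairMod g a c, w = (φ v.1, φ v.2)}
      add_mem' := by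
        rintro _ _ ⟨v, hv, rfl⟩ ⟨w, hw, rfl⟩
        exact ⟨v + w, add_mem hv hw, by simp⟩
      zero_mem' := ⟨0, zero_mem _, by ext <;> simp⟩
      smul_mem' := by
        rintro r _ ⟨v, hv, rfl⟩
        obtain ⟨r, rfl⟩ := hφ r
        exact ⟨r • v, Submodule.smul_mem _ _ hv, by simp⟩ }
  obtain ⟨_, ⟨e₁, he₁, rfl⟩, _, ⟨e₂, he₂, rfl⟩, hQ⟩ := exists_two_gens Q
  have hle : pairMod g a c ≤ Submodule.span R {e₁, e₂} ⊔ Ideal.span {t} • pairMod g a c := by
    intro v hv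
    obtain ⟨r₁, r₂, hr⟩ := hQ (φ v.1, φ v.2) ⟨v, hv, rfl⟩
    obtain ⟨r₁, rfl⟩ := hφ r₁
    obtain ⟨r₂, rfl⟩ := hφ r₂
    have h1 : φ (v - (r₁ • e₁ + r₂ • e₂)).1 = 0 := by
      have := congrArg Prod.fst hr
      simp only [Prod.fst_add, Prod.smul_fst, smul_eq_mul] at this
      simp [this]
    have h2 : φ (v - (r₁ • e₁ + r₂ • e₂)).2 = 0 := by
      have := congrArg Prod.snd hr
      simp only [Prod.snd_add, Prod.smul_snd, smul_eq_mul] at this
      simp [this]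
    obtain ⟨w₁, hw₁⟩ := hker _ h1
    obtain ⟨w₂, hw₂⟩ := hker _ h2
    have h3 : v - (r₁ • e₁ + r₂ • e₂) = t • (w₁, w₂) := by
      ext
      · simpa using hw₁
      · simpa using hw₂
    have h4 : v - (r₁ • e₁ + r₂ • e₂) ∈ pairMod g a c :=
      sub_mem hv (add_mem (Submodule.smul_mem _ _ he₁) (Submodule.smul_mem _ _ he₂))
    have h5 : (w₁, w₂) ∈ pairMod g a c := by
      rw [h3, mem_pairMod] at h4
      have : g ∣ t * (c * w₁ + a * w₂) := by
        refine h4.trans (dvd_of_eq ?_)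
        simp only [Prod.smul_mk, smul_eq_mul]
        ring
      exact (hg.dvd_or_dvd this).resolve_left hgt
    have h6 : v = (r₁ • e₁ + r₂ • e₂) + t • (w₁, w₂) := by rw [← h3]; abel
    rw [h6]
    refine Submodule.add_mem_sup ?_ ?_
    · exact add_mem (Submodule.smul_mem _ _ (Submodule.subset_span (by simp)))
        (Submodule.smul_mem _ _ (Submodule.subset_span (by simp)))
    · exact Submodule.smul_mem_smul (Ideal.mem_span_singleton_self t) h5
  obtain ⟨s, hs, hs'⟩ := Submodule.exists_sub_one_mem_and_smul_le_of_fg_of_le_sup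
    (IsNoetherian.noetherian (pairMod g a c)) le_rfl hle
  refine ⟨e₁, he₁, e₂, he₂, s, Ideal.mem_span_singleton.mp hs, fun v hv => ?_⟩
  have h7 : s • v ∈ Submodule.span R {e₁, e₂} := hs' (Submodule.smul_mem_pointwise_smul v s _ hv)
  obtain ⟨r₁, r₂, h8⟩ := Submodule.mem_span_pair.mp h7
  exact ⟨r₁, r₂, h8.symm⟩

/-- The abstract form of the local statement. -/
lemma local_norm_aux {K S : Type*} [Field K] [CharZero K] [CommRing S] [IsPrincipalIdealRing S]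
    (ev : R →+* K) (hev : Function.Surjective ev) (φ : R →+* S) (hφ : Function.Surjective φ)
    {t : R} (ht : ev t = 0) (hker : ∀ r, φ r = 0 → t ∣ r) {f g a b c : R} (hg : Prime g)
    (hgt : ¬ g ∣ t) (h : c ^ 2 * f = a ^ 2 + g * b) (hc : ¬ g ∣ c) (hfp : ev f = 0)
    (hgp : ev g = 0) (hsm : f ∉ (RingHom.ker ev) ^ 2) :
    ∃ α α' u : R, g ∣ c * α + a * α' ∧ α ^ 2 - f * α' ^ 2 = g * u ∧ ev u ≠ 0 := by
  have key : ∀ v ∈ pairMod g a c, ∀ w ∈ pairMod g a c, g ∣ v.1 * w.1 - f * v.2 * w.2 := by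
    intro v hv w hw
    have h1 : g ∣ c ^ 2 * (v.1 * w.1 - f * v.2 * w.2) := by
      have : c ^ 2 * (v.1 * w.1 - f * v.2 * w.2) = (c * v.1 + a * v.2) * (c * w.1)
          - (c * w.1 + a * w.2) * (a * v.2) - g * (b * v.2 * w.2) := by
        linear_combination (-v.2 * w.2) * h
      rw [this]
      exact dvd_sub (dvd_sub (hv.mul_right _) (hw.mul_right _)) (dvd_mul_right _ _)
    exact (hg.dvd_or_dvd h1).resolve_left fun h2 => hc (hg.dvd_of_dvd_pow h2)
  obtain ⟨e₁, he₁, e₂, he₂, s, ⟨s', hs⟩, hgen⟩ := exists_gens (a := a) (c := c) φ hφ hker hg hgt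
  have hs1 : ev s = 1 := by
    have := congrArg ev hs
    rw [map_sub, map_mul, ht, zero_mul, map_one] at this
    exact sub_eq_zero.mp this
  have hgs : ¬ g ∣ s := by
    rintro ⟨r, hr⟩
    rw [hr, map_mul, hgp, zero_mul] at hs1
    exact zero_ne_one hs1
  -- the determinant
  have hD : g ∣ e₁.1 * e₂.2 - e₁.2 * e₂.1 := by
    have h1 : g ∣ c * (e₁.1 * e₂.2 - e₁.2 * e₂.1) := by
      have : c * (e₁.1 * e₂.2 - e₁.2 * e₂.1) =
          (c * e₁.1 + a * e₁.2) * e₂.2 - (c * e₂.1 + a * e₂.2) * e₁.2 := by ring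
      rw [this]
      exact dvd_sub (he₁.mul_right _) (he₂.mul_right _)
    exact (hg.dvd_or_dvd h1).resolve_left hc
  obtain ⟨D, hD⟩ := hD
  obtain ⟨r₁, r₂, hr⟩ := hgen (-a, c) (by rw [mem_pairMod]; exact ⟨0, by ring⟩)
  obtain ⟨r₃, r₄, hr'⟩ := hgen (g, 0) (by rw [mem_pairMod]; exact ⟨c, by ring⟩)
  obtain ⟨r₅, r₆, hr''⟩ := hgen (0, g) (by rw [mem_pairMod]; exact ⟨a, by ring⟩)
  simp only [Prod.ext_iff, Prod.smul_fst, Prod.smul_snd, Prod.fst_add, Prod.snd_add,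
    smul_eq_mul] at hr hr' hr''
  obtain ⟨hra, hrb⟩ := hr
  obtain ⟨hrc, hrd⟩ := hr'
  obtain ⟨hre, hrf⟩ := hr''
  have hg0 : g ≠ 0 := hg.ne_zero
  have hE1 : s ^ 2 * c = (r₂ * r₃ - r₁ * r₄) * D := by
    apply mul_left_cancel₀ hg0
    have : g * ((r₂ * r₃ - r₁ * r₄) * D) =
        (r₂ * r₃ - r₁ * r₄) * (e₁.1 * e₂.2 - e₁.2 * e₂.1) := by rw [hD]; ring
    rw [this]
    linear_combination (s * c) * hrc + (r₃ * e₁.1 + r₄ * e₂.1) * hrb
      - (s * (-a)) * hrd - (r₃ * e₁.2 + r₄ * e₂.2) * hra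
  have hE2 : s ^ 2 * g = (r₃ * r₆ - r₄ * r₅) * D := by
    apply mul_left_cancel₀ hg0
    have : g * ((r₃ * r₆ - r₄ * r₅) * D) =
        (r₃ * r₆ - r₄ * r₅) * (e₁.1 * e₂.2 - e₁.2 * e₂.1) := by rw [hD]; ring
    rw [this]
    linear_combination (s * g) * hrf + (r₅ * e₁.2 + r₆ * e₂.2) * hrc
      - (r₅ * e₁.1 + r₆ * e₂.1) * hrd
  have hgD : ¬ g ∣ D := by
    intro h1
    have h2 : g ∣ s ^ 2 * c := by rw [hE1]; exact h1.mul_left _
    rcases hg.dvd_or_dvd h2 with h3 | h3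
    · exact hgs (hg.dvd_of_dvd_pow h3)
    · exact hc h3
  have hevD : ev D ≠ 0 := by
    have h1 : g ∣ (r₃ * r₆ - r₄ * r₅) * D := ⟨s ^ 2, by rw [← hE2]; ring⟩
    obtain ⟨ρ, hρ⟩ := (hg.dvd_or_dvd h1).resolve_right hgD
    have h2 : s ^ 2 = ρ * D := by
      apply mul_left_cancel₀ hg0
      rw [← mul_assoc, ← hρ, ← hE2]; ring
    intro h3
    have := congrArg ev h2
    rw [map_pow, hs1, map_mul, h3, mul_zero, one_pow] at this
    exact one_ne_zero this
  obtain ⟨u₁, hu₁⟩ := key e₁ he₁ e₁ he₁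
  obtain ⟨u₂, hu₂⟩ := key e₁ he₁ e₂ he₂
  obtain ⟨u₃, hu₃⟩ := key e₂ he₂ e₂ he₂
  have hdet : u₁ * u₃ - u₂ ^ 2 = - (f * D ^ 2) := by
    apply mul_left_cancel₀ (pow_ne_zero 2 hg0)
    have : g ^ 2 * (- (f * D ^ 2)) = - f * (g * D) ^ 2 := by ring
    rw [this, ← hD]
    have : g ^ 2 * (u₁ * u₃ - u₂ ^ 2) = (g * u₁) * (g * u₃) - (g * u₂) ^ 2 := by ring
    rw [this, ← hu₁, ← hu₂, ← hu₃]
    ring
  by_contra hcon
  push Not at hcon
  have hv1 : ev u₁ = 0 := hcon e₁.1 e₁.2 u₁ he₁ (by rw [← hu₁]; ring)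
  have hv3 : ev u₃ = 0 := hcon e₂.1 e₂.2 u₃ he₂ (by rw [← hu₃]; ring)
  have hv2 : ev u₂ = 0 := by
    have h1 := hcon (e₁.1 + e₂.1) (e₁.2 + e₂.2) (u₁ + 2 * u₂ + u₃) (by
      have := dvd_add he₁ he₂
      refine this.trans (dvd_of_eq ?_)
      ring) (by
      have : g * (u₁ + 2 * u₂ + u₃) = g * u₁ + 2 * (g * u₂) + g * u₃ := by ring
      rw [this, ← hu₁, ← hu₂, ← hu₃]; ring)
    rw [map_add, map_add, hv1, hv3, map_mul, add_zero, zero_add] at h1
    have h2 : ev 2 = 2 := map_ofNat ev 2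
    rw [h2] at h1
    exact (mul_eq_zero.mp h1).resolve_left two_ne_zero
  apply hsm
  obtain ⟨d, hd⟩ := hev (ev D)⁻¹
  have hdD : d ^ 2 * D ^ 2 - 1 ∈ RingHom.ker ev := by
    rw [RingHom.mem_ker, map_sub, map_mul, map_pow, map_pow, hd, map_one, ← mul_pow,
      inv_mul_cancel₀ hevD, one_pow, sub_self]
  have hfk : f ∈ RingHom.ker ev := hfp
  have hu1k : u₁ ∈ RingHom.ker ev := hv1
  have hu2k : u₂ ∈ RingHom.ker ev := hv2
  have hu3k : u₃ ∈ RingHom.ker ev := hv3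
  have : f = - d ^ 2 * (u₁ * u₃ - u₂ * u₂) - (d ^ 2 * D ^ 2 - 1) * f := by
    linear_combination (d ^ 2) * hdet
  rw [this, pow_two]
  refine sub_mem (Ideal.mul_mem_left _ _ (sub_mem ?_ ?_)) ?_
  · exact Ideal.mul_mem_mul hu1k hu3k
  · exact Ideal.mul_mem_mul hu2k hu2k
  · exact Ideal.mul_mem_mul hdD hfk

end General

lemma ker_evalEval_le (x y : ℂ) : RingHom.ker (evalEvalRingHom x y) ≤
    (Ideal.span {C (X - C x), X - C (C y)} : Ideal ℂ[X][X]) := by
  intro p hp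
  have hp' : (p.eval (C y)).eval x = 0 := hp
  obtain ⟨q, hq⟩ := X_sub_C_dvd_sub_C_eval (a := (C y : ℂ[X])) (p := p)
  obtain ⟨q', hq'⟩ := dvd_iff_isRoot.mpr hp'
  rw [Ideal.mem_span_pair]
  refine ⟨C q', q, ?_⟩
  rw [sub_eq_iff_eq_add] at hq
  rw [hq, hq', C_mul]
  ring

/-- **Local evenness.** -/
theorem local_norm (f g a b c : ℂ[X][X]) (hg : Prime g) (h : c ^ 2 * f = a ^ 2 + g * b)
    (hc : ¬ g ∣ c) (x y : ℂ) (hfp : evalEval x y f = 0)
    (hgp : evalEval x y g = 0)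
    (hsm : f ∉ (Ideal.span {C (X - C x), X - C (C y)} : Ideal ℂ[X][X]) ^ 2) :
    ∃ α α' u : ℂ[X][X], g ∣ c * α + a * α' ∧ α ^ 2 - f * α' ^ 2 = g * u ∧
      evalEval x y u ≠ 0 := by
  have hsm' : f ∉ (RingHom.ker (evalEvalRingHom x y)) ^ 2 :=
    fun h1 => hsm (Ideal.pow_right_mono (ker_evalEval_le x y) 2 h1)
  have hev : Function.Surjective (evalEvalRingHom x y) := fun z => ⟨C (C z), by simp⟩
  by_cases h1 : g ∣ C (X - C x)
  · have h2 : ¬ g ∣ X - C (C y) := by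
      intro h3
      have h4 : (C (X - C x) : ℂ[X][X]) ≠ 0 := C_ne_zero.mpr (X_sub_C_ne_zero x)
      have h5 : g.natDegree = 0 := by
        have := natDegree_le_of_dvd h1 h4
        simpa using this
      obtain ⟨g₀, rfl⟩ := natDegree_eq_zero.mp h5
      have h6 := (C_dvd_iff_dvd_coeff _ _).mp h3 1
      have h7 : (X - C (C y) : ℂ[X][X]).coeff 1 = 1 := by
        simp [coeff_X]
      rw [h7] at h6
      exact hg.not_isUnit (isUnit_C.mpr (isUnit_of_dvd_one h6))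
    exact local_norm_aux (evalEvalRingHom x y) hev (evalRingHom (C y))
      (fun z => ⟨C z, by simp⟩) (t := X - C (C y)) (by simp)
      (fun r hr => dvd_iff_isRoot.mpr hr) hg h2 h hc hfp hgp hsm'
  · exact local_norm_aux (evalEvalRingHom x y) hev (mapRingHom (evalRingHom x))
      (fun z => ⟨z.map C, by
        rw [coe_mapRingHom, map_map]
        have : (evalRingHom x).comp C = RingHom.id ℂ := by ext; simp
        rw [this, map_id]⟩) (t := C (X - C x)) (by simp)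
      (fun r hr => (C_dvd_iff_dvd_coeff _ _).mpr fun i => dvd_iff_isRoot.mpr (by
        have := congrArg (fun q => coeff q i) hr
        simpa using this)) hg h1 h hc hfp hgp hsm'

end Vale.Agent.P287.Theta
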