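import Vale.Agent.P287.Theta.Chart
import Vale.Agent.P287.Theta.PencilAlg
import Vale.Agent.P287.Theta.LocalNorm
import Vale.Agent.P287.CommonZero
import Vale.Agent.P287.H925.Similar

/-!
Linear changes of the three homogeneous coordinates, and the passage to the affine chart.
-/

namespace Vale.Agent.P287.Theta

open MvPolynomial Vale.Agent.P287 Vale.Agent.P287.H925

/-- polynomials in the three homogeneous coordinates of the plane -/
abbrev P3 : Type := MvPolynomial (Fin 3) ℂ

/-- linear substitution -/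
noncomputable def lin (A : Matrix (Fin 3) (Fin 3) ℂ) : P3 →ₐ[ℂ] P3 :=
  aeval fun i => ∑ j, C (A i j) * X j

lemma lin_X (A : Matrix (Fin 3) (Fin 3) ℂ) (i : Fin 3) :
    lin A (X i) = ∑ j, C (A i j) * X j := by
  rw [lin, aeval_X]

lemma eval_lin (A : Matrix (Fin 3) (Fin 3) ℂ) (z : Fin 3 → ℂ) (p : P3) :
    eval z (lin A p) = eval (A.mulVec z) p := by
  rw [eval_eq_aeval, eval_eq_aeval, lin, ← AlgHom.comp_apply, comp_aeval]
  congr 2
  funext i
  simp [Matrix.mulVec, dotProduct]

lemma lin_lin (A B : Matrix (Fin 3) (Fin 3) ℂ) (p : P3) : lin B (lin A p) = lin (A * B) p := by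
  apply MvPolynomial.funext
  intro z
  rw [eval_lin, eval_lin, eval_lin, Matrix.mulVec_mulVec]

lemma lin_one (p : P3) : lin 1 p = p := by
  apply MvPolynomial.funext
  intro z
  rw [eval_lin, Matrix.one_mulVec]

/-- the automorphism given by an invertible linear substitution -/
noncomputable def linEquiv (A : Matrix (Fin 3) (Fin 3) ℂ) (hA : IsUnit A.det) : P3 ≃ₐ[ℂ] P3 :=
  AlgEquiv.ofAlgHom (lin A) (lin A⁻¹)
    (by
      apply AlgHom.ext
      intro p
      rw [AlgHom.comp_apply, lin_lin, Matrix.nonsing_inv_mul _ hA, lin_one]; rfl)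
    (by
      apply AlgHom.ext
      intro p
      rw [AlgHom.comp_apply, lin_lin, Matrix.mul_nonsing_inv _ hA, lin_one]; rfl)

lemma linEquiv_apply (A : Matrix (Fin 3) (Fin 3) ℂ) (hA : IsUnit A.det) (p : P3) :
    linEquiv A hA p = lin A p := rfl

lemma lin_homogeneous (A : Matrix (Fin 3) (Fin 3) ℂ) {p : P3} {n : ℕ} (hp : p.IsHomogeneous n) :
    (lin A p).IsHomogeneous n := by
  have h := hp.aeval (fun i => ∑ j, C (A i j) * X j) (n := 1) (fun i => by
    refine IsHomogeneous.sum _ _ _ fun j _ => ?_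
    exact isHomogeneous_C_mul_X _ _)
  rwa [one_mul] at h

lemma prime_lin {A : Matrix (Fin 3) (Fin 3) ℂ} (hA : IsUnit A.det) {p : P3} :
    Prime (lin A p) ↔ Prime p := by
  have := MulEquiv.prime_iff (linEquiv A hA) (p := p)
  exact this

lemma lin_dvd_lin {A : Matrix (Fin 3) (Fin 3) ℂ} (hA : IsUnit A.det) {p q : P3} :
    lin A p ∣ lin A q ↔ p ∣ q := by
  have := map_dvd_iff (linEquiv A hA) (a := p) (b := q)
  exact this

/-- chain rule -/
lemma pderiv_lin (A : Matrix (Fin 3) (Fin 3) ℂ) (p : P3) (j : Fin 3) :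
    pderiv j (lin A p) = ∑ i, C (A i j) * lin A (pderiv i p) := by
  induction p using MvPolynomial.induction_on with
  | C a => simp [lin]
  | add p q hp hq =>
    rw [map_add, map_add, hp, hq, ← Finset.sum_add_distrib]
    exact Finset.sum_congr rfl fun i _ => by rw [map_add, map_add]; ring
  | mul_X p i hp =>
    have h1 : pderiv j (lin A (X i)) = C (A i j) := by
      rw [lin_X, map_sum, Finset.sum_eq_single j]
      · simp
      · intro l _ hl
        rw [pderiv_C_mul, pderiv_X_of_ne hl, mul_zero]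
      · simp
    rw [map_mul, pderiv_mul, hp, h1]
    have h2 : ∀ l, C (A l j) * lin A (pderiv l (p * X i)) =
        C (A l j) * lin A (pderiv l p) * lin A (X i) +
          C (A l j) * (lin A p * lin A (pderiv l (X i))) := by
      intro l
      rw [pderiv_mul, map_add, map_mul, map_mul]
      ring
    rw [Finset.sum_congr rfl fun l _ => h2 l, Finset.sum_add_distrib, ← Finset.sum_mul]
    congr 1
    rw [Finset.sum_eq_single i]
    · rw [pderiv_X_self, map_one]; ring
    · intro l _ hl
      rw [pderiv_X_of_ne hl.symm, map_zero, mul_zero, mul_zero]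
    · simp

/-- smoothness of a plane curve -/
def SmoothP (f : P3) : Prop := ∀ z : Fin 3 → ℂ, (∀ i, eval z (pderiv i f) = 0) → z = 0

lemma SmoothP.lin {A : Matrix (Fin 3) (Fin 3) ℂ} (hA : IsUnit A.det) {f : P3} (hf : SmoothP f) :
    SmoothP (lin A f) := by
  intro z hz
  have h1 : ∀ i, eval (A.mulVec z) (pderiv i f) = 0 := by
    have h2 : Matrix.vecMul (fun i => eval (A.mulVec z) (pderiv i f)) A = 0 := by
      funext j
      have h3 := hz j
      rw [pderiv_lin, map_sum] at h3
      rw [Matrix.vecMul, dotProduct, Pi.zero_apply, ← h3]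
      refine Finset.sum_congr rfl fun i _ => ?_
      rw [map_mul, eval_C, eval_lin, mul_comm]
    have h4 : Matrix.vecMul (Matrix.vecMul (fun i => eval (A.mulVec z) (pderiv i f)) A) A⁻¹ = 0 := by
      rw [h2, Matrix.zero_vecMul]
    rw [Matrix.vecMul_vecMul, Matrix.mul_nonsing_inv _ hA, Matrix.vecMul_one] at h4
    exact congrFun h4
  have h2 := hf _ h1
  have h3 : A⁻¹.mulVec (A.mulVec z) = 0 := by rw [h2, Matrix.mulVec_zero]
  rwa [Matrix.mulVec_mulVec, Matrix.nonsing_inv_mul _ hA, Matrix.one_mulVec] at h3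

/-- every non zero linear form is moved to `X 2` -/
lemma exists_lin_eq_X {h : P3} (hh : h.IsHomogeneous 1) (h0 : h ≠ 0) :
    ∃ A : Matrix (Fin 3) (Fin 3) ℂ, IsUnit A.det ∧ lin A h = X 2 := by
  have h1 : h ∈ MvPolynomial.homogeneousSubmodule (Fin 3) ℂ 1 := hh
  rw [MvPolynomial.homogeneousSubmodule_one_eq_span_X, Submodule.mem_span_range_iff_exists_fun]
    at h1
  obtain ⟨c, hc⟩ := h1
  have key : ∃ P : Matrix (Fin 3) (Fin 3) ℂ, IsUnit P.det ∧ P 2 = c := by
    by_cases h2 : c 2 = 0
    · by_cases h3 : c 1 = 0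
      · have h4 : c 0 ≠ 0 := by
          intro h4
          apply h0
          rw [← hc]
          simp [Fin.sum_univ_three, h2, h3, h4]
        refine ⟨Matrix.of ![![0, 1, 0], ![0, 0, 1], c], ?_, rfl⟩
        rw [isUnit_iff_ne_zero]
        simpa [Matrix.det_fin_three, h2, h3] using h4
      · refine ⟨Matrix.of ![![1, 0, 0], ![0, 0, 1], c], ?_, rfl⟩
        rw [isUnit_iff_ne_zero]
        simpa [Matrix.det_fin_three, h2] using h3
    · refine ⟨Matrix.of ![![1, 0, 0], ![0, 1, 0], c], ?_, rfl⟩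
      rw [isUnit_iff_ne_zero]
      simpa [Matrix.det_fin_three] using h2
  obtain ⟨P, hP, hPc⟩ := key
  have h2 : lin P (X 2) = h := by
    rw [lin_X, hPc, ← hc]
    exact Finset.sum_congr rfl fun i _ => by rw [smul_eq_C_mul]
  refine ⟨P⁻¹, by rw [Matrix.isUnit_nonsing_inv_det_iff]; exact hP, ?_⟩
  rw [← h2, lin_lin, Matrix.mul_nonsing_inv _ hP, lin_one]

section Cr

/-- the affine chart `x₀ = 1` -/
noncomputable def cr : P3 →ₐ[ℂ] Polynomial (Polynomial ℂ) := crInv.comp dehom

lemma cr_X0 : cr (X 0) = 1 := by simp [cr, dehom]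

lemma cr_X1 : cr (X 1) = Polynomial.C Polynomial.X := by
  simp [cr, dehom, crInv]

lemma cr_X2 : cr (X 2) = Polynomial.X := by
  change crInv (dehom (X 2)) = _
  rw [dehom, aeval_X]
  change crInv (X 1) = _
  simp [crInv]

lemma cr_eq (p : P3) : cr p = aeval (![1, Polynomial.C Polynomial.X, Polynomial.X] :
    Fin 3 → Polynomial (Polynomial ℂ)) p := by
  have : cr = aeval (![1, Polynomial.C Polynomial.X, Polynomial.X] :
      Fin 3 → Polynomial (Polynomial ℂ)) := by
    apply algHom_ext
    intro i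
    fin_cases i
    · simpa using cr_X0
    · simpa using cr_X1
    · simpa using cr_X2
  rw [this]

lemma crMap_cr (p : P3) : crMap (cr p) = aeval tvec p := by
  rw [aeval_tvec, crMap_eq, cr, AlgHom.comp_apply, crTo_crInv]

lemma evalEval_cr (x y : ℂ) (p : P3) : Polynomial.evalEval x y (cr p) = eval ![1, x, y] p := by
  have h : (Polynomial.evalEvalRingHom x y).comp (cr : P3 →+* Polynomial (Polynomial ℂ)) =
      eval ![1, x, y] := by
    apply MvPolynomial.ringHom_ext
    · intro a
      rw [RingHom.comp_apply, eval_C]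
      have h1 : (cr : P3 →+* Polynomial (Polynomial ℂ)) (C a) =
          Polynomial.C (Polynomial.C a) := cr.commutes a
      rw [h1]
      simp
    · intro i
      rw [RingHom.comp_apply, eval_X]
      fin_cases i
      · change Polynomial.evalEval x y (cr (X 0)) = 1
        rw [cr_X0]; simp
      · change Polynomial.evalEval x y (cr (X 1)) = x
        rw [cr_X1]; simp [Polynomial.evalEval]
      · change Polynomial.evalEval x y (cr (X 2)) = y
        rw [cr_X2]; simp
  exact RingHom.congr_fun h p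

lemma crInv_injective : Function.Injective crInv :=
  Function.LeftInverse.injective crTo_crInv

lemma cr_inj {p : P3} {d : ℕ} (hp : p.IsHomogeneous d) (h : cr p = 0) : p = 0 := by
  apply dehom_inj hp
  apply crInv_injective
  rw [map_zero]
  exact h

/-- the equivalence between the two descriptions of the chart -/
noncomputable def crEquiv : MvPolynomial (Fin 2) ℂ ≃+* Polynomial (Polynomial ℂ) :=
  { (crInv : MvPolynomial (Fin 2) ℂ →+* Polynomial (Polynomial ℂ)) with
    invFun := crTo
    left_inv := crTo_crInv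
    right_inv := crInv_crTo }

lemma prime_cr {p : P3} {d : ℕ} (hp : p.IsHomogeneous d) (h : Prime p) (hd : d ≠ 1) :
    Prime (cr p) := by
  have hX : ¬ p ∣ X 0 := by
    rintro ⟨q, hq⟩
    have h1 : (p * q).IsHomogeneous 1 := hq ▸ isHomogeneous_X _ _
    obtain ⟨n, hn, hqn⟩ := degree_le_of_mul hp h1 (hq ▸ X_ne_zero 0)
    have hd0 : d = 0 := by omega
    subst hd0
    have h2 : p = C (p.coeff 0) := by
      rw [← totalDegree_eq_zero_iff_eq_C]
      exact hp.totalDegree h.ne_zero
    apply h.not_isUnit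
    rw [h2]
    refine (isUnit_iff_ne_zero.2 ?_).map C
    intro h3
    rw [h3, map_zero] at h2
    exact h.ne_zero h2
  have h1 := prime_dehom hp h hX
  exact (MulEquiv.prime_iff crEquiv.toMulEquiv).2 h1

/-- a divisibility in the chart can be lifted -/
lemma dvd_of_cr_dvd {p q : P3} {d e : ℕ} (hp : p.IsHomogeneous d) (hpp : Prime p) (hd : d ≠ 1)
    (hq : q.IsHomogeneous e) (h : cr p ∣ cr q) : p ∣ q := by
  obtain ⟨s, hs⟩ := h
  obtain ⟨m, hm⟩ := exists_homogenisation (crTo s)
  obtain ⟨S, hS, hS'⟩ := hm (m + e) (by omega)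
  have hcS : cr S = s := by
    rw [cr, AlgHom.comp_apply, hS', crInv_crTo]
  have h1 : p * S - X 0 ^ (d + m) * q = 0 := by
    have h2 : (X 0 ^ (d + m) * q).IsHomogeneous (d + (m + e)) := by
      have := ((isHomogeneous_X ℂ (0 : Fin 3)).pow (d + m)).mul hq
      have e1 : 1 * (d + m) + e = d + (m + e) := by ring
      rwa [e1] at this
    apply cr_inj ((hp.mul hS).sub h2)
    rw [map_sub, map_mul, map_mul, map_pow, cr_X0, one_pow, one_mul, hcS, hs, sub_self]
  have h2 : p ∣ X 0 ^ (d + m) * q := ⟨S, (sub_eq_zero.1 h1).symm⟩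
  rcases hpp.dvd_or_dvd h2 with h3 | h3
  · exfalso
    have h4 := hpp.dvd_of_dvd_pow h3
    obtain ⟨r, hr⟩ := h4
    have h5 : (p * r).IsHomogeneous 1 := hr ▸ isHomogeneous_X _ _
    obtain ⟨n, hn, hqn⟩ := degree_le_of_mul hp h5 (hr ▸ X_ne_zero 0)
    have hd0 : d = 0 := by omega
    subst hd0
    have h2 : p = C (p.coeff 0) := by
      rw [← totalDegree_eq_zero_iff_eq_C]
      exact hp.totalDegree hpp.ne_zero
    apply hpp.not_isUnit
    rw [h2]
    refine (isUnit_iff_ne_zero.2 ?_).map C
    intro h3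
    rw [h3, map_zero] at h2
    exact hpp.ne_zero h2
  · exact h3

lemma natDegree_cr_ne_zero {p : P3} {d : ℕ} (hp : p.IsHomogeneous d) (h : Prime p)
    (hd : 2 ≤ d) : (cr p).natDegree ≠ 0 := by
  intro h0
  obtain ⟨g, hg⟩ := Polynomial.natDegree_eq_zero.1 h0
  have h1 := prime_cr hp h (by omega)
  rw [← hg, Polynomial.prime_C_iff] at h1
  have h2 := IsAlgClosed.degree_eq_one_of_irreducible ℂ h1.irreducible
  obtain ⟨a, ha, b, hab⟩ : ∃ a : ℂ, a ≠ 0 ∧ ∃ b : ℂ, g = Polynomial.C a * Polynomial.X +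
      Polynomial.C b := by
    have h3 := Polynomial.eq_X_add_C_of_degree_eq_one h2
    refine ⟨g.leadingCoeff, ?_, _, h3⟩
    exact Polynomial.leadingCoeff_ne_zero.2 h1.ne_zero
  obtain ⟨e, rfl⟩ := Nat.exists_eq_add_of_le hd
  have h3 : p = X 0 * (X 0 ^ e * (C a * X 1 + C b * X 0)) := by
    rw [← sub_eq_zero]
    have h4 : (X 0 * (X 0 ^ e * (C a * X 1 + C b * X 0)) : P3).IsHomogeneous (2 + e) := by
      have e1 : ((C a * X 1 + C b * X 0) : P3).IsHomogeneous 1 :=
        (isHomogeneous_C_mul_X a 1).add (isHomogeneous_C_mul_X b 0)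
      have e2 := (isHomogeneous_X ℂ (0 : Fin 3)).mul (((isHomogeneous_X ℂ (0 : Fin 3)).pow e).mul e1)
      have e3 : 1 + (1 * e + 1) = 2 + e := by ring
      rwa [e3] at e2
    apply cr_inj (hp.sub h4)
    have hC : ∀ c : ℂ, cr (C c) = Polynomial.C (Polynomial.C c) := fun c => cr.commutes c
    rw [map_sub, map_mul, map_mul, map_add, map_mul, map_mul, map_pow, cr_X0, cr_X1, hC, hC,
      one_pow, ← hg, hab, Polynomial.C_add, Polynomial.C_mul]
    ring
  rcases h.irreducible.isUnit_or_isUnit h3 with h4 | h4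
  · rw [isUnit_iff_eq_C_of_isReduced] at h4
    obtain ⟨c, _, hc'⟩ := h4
    have h5 := congrArg totalDegree hc'
    rw [totalDegree_X, totalDegree_C] at h5
    exact one_ne_zero h5
  · have h5 := h4.map (eval ![a, -b, 0])
    rw [map_mul, map_add, map_mul, map_mul, eval_C, eval_C, eval_X, eval_X] at h5
    have h6 : a * (![a, -b, 0] : Fin 3 → ℂ) 1 + b * (![a, -b, 0] : Fin 3 → ℂ) 0 = 0 := by
      simp only [Matrix.cons_val_zero, Matrix.cons_val_one]
      ring
    rw [h6, mul_zero] at h5
    exact not_isUnit_zero h5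

lemma pderiv_dehom {n : ℕ} (p : MvPolynomial (Fin (n + 1)) ℂ) (i : Fin n) :
    pderiv i (dehom p) = dehom (pderiv i.succ p) := by
  induction p using MvPolynomial.induction_on with
  | C a => simp [dehom]
  | add p q hp hq => rw [map_add, map_add, hp, hq, map_add, map_add]
  | mul_X p j hp =>
    rw [map_mul, pderiv_mul, hp, pderiv_mul, map_add, map_mul, map_mul]
    congr 2
    refine Fin.cases ?_ (fun j => ?_) j
    · rw [pderiv_X_of_ne (Fin.succ_ne_zero i).symm, map_zero]
      simp [dehom]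
    · by_cases hij : i = j
      · subst hij
        simp [dehom]
      · rw [pderiv_X_of_ne (fun h => hij (Fin.succ_injective _ h).symm), map_zero]
        simp only [dehom, aeval_X, Fin.cons_succ]
        rw [pderiv_X_of_ne (fun h => hij h.symm)]

open Polynomial in
/-- the chart of a smooth curve is smooth -/
lemma smooth_cr {f : P3} {d : ℕ} (hf : f.IsHomogeneous d) (hs : SmoothP f) (x y : ℂ) :
    cr f ∉ (Ideal.span {Polynomial.C (Polynomial.X - Polynomial.C x),
      Polynomial.X - Polynomial.C (Polynomial.C y)} : Ideal ℂ[X][X]) ^ 2 := by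
  intro hmem
  let K : Ideal ℂ[X][X] :=
    { carrier := {a | eval ![x, y] (crTo a) = 0 ∧ ∀ i, eval ![x, y] (pderiv i (crTo a)) = 0}
      add_mem' := by
        rintro a b ⟨h1, h2⟩ ⟨h3, h4⟩
        exact ⟨by rw [map_add, map_add, h1, h3, add_zero], fun i => by
          rw [map_add, map_add, map_add, h2, h4, add_zero]⟩
      zero_mem' := ⟨by simp, fun i => by simp⟩
      smul_mem' := by
        rintro c a ⟨h1, h2⟩
        refine ⟨by rw [smul_eq_mul, map_mul, map_mul, h1, mul_zero], fun i => ?_⟩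
        rw [smul_eq_mul, map_mul, pderiv_mul, map_add, map_mul, map_mul, h1, h2, mul_zero,
          mul_zero, add_zero] }
  have hJ : ∀ a ∈ (Ideal.span {Polynomial.C (Polynomial.X - Polynomial.C x),
      Polynomial.X - Polynomial.C (Polynomial.C y)} : Ideal ℂ[X][X]),
      eval ![x, y] (crTo a) = 0 := by
    intro a ha
    obtain ⟨b, c, rfl⟩ := Ideal.mem_span_pair.1 ha
    have h1 : eval ![x, y] (crTo (Polynomial.C (Polynomial.X - Polynomial.C x))) = 0 := by
      simp [crTo]
    have h2 : eval ![x, y] (crTo (Polynomial.X - Polynomial.C (Polynomial.C y))) = 0 := by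
      simp [crTo]
    rw [map_add, map_add, map_mul, map_mul, map_mul, map_mul, h1, h2, mul_zero, mul_zero,
      add_zero]
  have hle : (Ideal.span {Polynomial.C (Polynomial.X - Polynomial.C x),
      Polynomial.X - Polynomial.C (Polynomial.C y)} : Ideal ℂ[X][X]) ^ 2 ≤ K := by
    rw [pow_two, Ideal.mul_le]
    intro a ha b hb
    refine ⟨by rw [map_mul, map_mul, hJ a ha, zero_mul], fun i => ?_⟩
    rw [map_mul, pderiv_mul, map_add, map_mul, map_mul, hJ a ha, hJ b hb, mul_zero, zero_mul,
      add_zero]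
  obtain ⟨h1, h2⟩ := hle hmem
  have h3 : crTo (cr f) = dehom f := by rw [cr, AlgHom.comp_apply, crTo_crInv]
  rw [h3] at h1 h2
  have hz : (Fin.cons 1 ![x, y] : Fin 3 → ℂ) = ![1, x, y] := rfl
  rw [eval_dehom, hz] at h1
  have h4 : ∀ i : Fin 2, eval ![1, x, y] (pderiv i.succ f) = 0 := by
    intro i
    have := h2 i
    rwa [pderiv_dehom, eval_dehom, hz] at this
  have h5 := congrArg (MvPolynomial.eval ![1, x, y]) hf.sum_X_mul_pderiv
  rw [map_sum, Fin.sum_univ_three] at h5
  have h6 : eval ![1, x, y] (pderiv 1 f) = 0 := h4 0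
  have h7 : eval ![1, x, y] (pderiv 2 f) = 0 := h4 1
  rw [map_mul, map_mul, map_mul, h6, h7, mul_zero, mul_zero, add_zero, add_zero, MvPolynomial.eval_X,
    map_nsmul, h1, smul_zero] at h5
  have h8 : eval ![1, x, y] (pderiv 0 f) = 0 := by
    simpa using h5
  have h9 := hs ![1, x, y] (by
    intro i
    fin_cases i
    · exact h8
    · exact h6
    · exact h7)
  have := congrFun h9 0
  simp at this

end Cr

end Vale.Agent.P287.Theta
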