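import Vale.Agent.P287.FunctionField

/-!
The field `K = ℂ(s₀, s₁)` as fraction field of `ℂ[x][y]` and of `ℂ(x)[y]`.
-/

namespace Vale.Agent.P287.Theta

open Polynomial Vale.Agent.P287

/-- `ℂ(x)`. -/
abbrev FF : Type := RatFunc ℂ

/-- `ℂ[x][y] → ℂ[s₀, s₁]`. -/
noncomputable def crTo : ℂ[X][X] →+* MvPolynomial (Fin 2) ℂ :=
  eval₂RingHom (aeval (MvPolynomial.X 0) : ℂ[X] →ₐ[ℂ] MvPolynomial (Fin 2) ℂ).toRingHom
    (MvPolynomial.X 1)

/-- `ℂ[s₀, s₁] → ℂ[x][y]`. -/
noncomputable def crInv : MvPolynomial (Fin 2) ℂ →ₐ[ℂ] ℂ[X][X] :=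
  MvPolynomial.aeval ![C X, X]

lemma crTo_crInv (p : MvPolynomial (Fin 2) ℂ) : crTo (crInv p) = p := by
  have : crTo.comp (crInv : MvPolynomial (Fin 2) ℂ →+* ℂ[X][X]) = RingHom.id _ := by
    apply MvPolynomial.ringHom_ext
    · intro r
      simp [crInv, crTo, Polynomial.algebraMap_apply]
    · intro i
      fin_cases i <;> simp [crInv, crTo]
  exact RingHom.congr_fun this p

lemma crInv_crTo (p : ℂ[X][X]) : crInv (crTo p) = p := by
  have : (crInv : MvPolynomial (Fin 2) ℂ →+* ℂ[X][X]).comp crTo = RingHom.id _ := by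
    apply Polynomial.ringHom_ext'
    · apply Polynomial.ringHom_ext'
      · ext r
        simp [crInv, crTo, Polynomial.algebraMap_apply]
      · simp [crInv, crTo]
    · simp [crInv, crTo]
  exact RingHom.congr_fun this p

lemma crTo_injective : Function.Injective crTo :=
  Function.LeftInverse.injective crInv_crTo

lemma aeval_tvec_injective :
    Function.Injective (aeval (tvec 1) : ℂ[X] →ₐ[ℂ] RatK) := by
  have h1 : ∀ p : ℂ[X], aeval (tvec 1) p =
      algebraMap (MvPolynomial (Fin 2) ℂ) RatK (crTo (C p)) := by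
    intro p
    simp only [crTo, coe_eval₂RingHom, eval₂_C, AlgHom.toRingHom_eq_coe, RingHom.coe_coe]
    rw [← aeval_algebraMap_apply]
    rfl
  intro p q h
  rw [h1, h1] at h
  exact C_injective (crTo_injective (IsFractionRing.injective _ _ h))

/-- `ℂ(x) → K`. -/
noncomputable def ffK : FF →+* RatK :=
  IsFractionRing.lift (A := ℂ[X]) (g := (aeval (tvec 1) : ℂ[X] →ₐ[ℂ] RatK).toRingHom)
    aeval_tvec_injective

/-- `ℂ(x)[y] → K`. -/
noncomputable def ffMap : FF[X] →+* RatK := eval₂RingHom ffK (tvec 2)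

/-- `ℂ[x][y] → ℂ(x)[y]`. -/
noncomputable def crF : ℂ[X][X] →+* FF[X] := mapRingHom (algebraMap ℂ[X] FF)

/-- `ℂ[x][y] → K`. -/
noncomputable def crMap : ℂ[X][X] →+* RatK := ffMap.comp crF

lemma crMap_eq (p : ℂ[X][X]) : crMap p = algebraMap (MvPolynomial (Fin 2) ℂ) RatK (crTo p) := by
  have : crMap = (algebraMap (MvPolynomial (Fin 2) ℂ) RatK).comp crTo := by
    apply Polynomial.ringHom_ext'
    · ext p
      · simp only [crMap, ffMap, crF, crTo, RingHom.comp_apply, coe_mapRingHom, map_C,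
          coe_eval₂RingHom, eval₂_C, ffK, IsFractionRing.lift_algebraMap]
        simp
        rfl
      · simp only [crMap, ffMap, crF, crTo, RingHom.comp_apply, coe_mapRingHom, map_C,
          coe_eval₂RingHom, eval₂_C, ffK, IsFractionRing.lift_algebraMap]
        simp [tvec]
    · simp [crMap, ffMap, crF, crTo, tvec]
  rw [this]
  rfl

lemma crMap_injective : Function.Injective crMap := by
  intro p q h
  rw [crMap_eq, crMap_eq] at h
  exact crTo_injective (IsFractionRing.injective _ _ h)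

lemma crF_injective : Function.Injective crF :=
  Polynomial.map_injective _ (IsFractionRing.injective ℂ[X] FF)

lemma exists_crF (p : FF[X]) : ∃ (b : ℂ[X]) (q : ℂ[X][X]), b ≠ 0 ∧
    C (algebraMap ℂ[X] FF b) * p = crF q := by
  obtain ⟨b, hbM, hb⟩ := IsLocalization.integerNormalization_spec (nonZeroDivisors ℂ[X]) p
  refine ⟨b, IsLocalization.integerNormalization (nonZeroDivisors ℂ[X]) p,
    nonZeroDivisors.ne_zero hbM, ?_⟩
  change _ = (IsLocalization.integerNormalization (nonZeroDivisors ℂ[X]) p).map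
    (algebraMap ℂ[X] FF)
  rw [hb, Algebra.smul_def]
  rfl

lemma ffMap_injective : Function.Injective ffMap := by
  rw [injective_iff_map_eq_zero]
  intro p hp
  obtain ⟨b, q, hb, hbq⟩ := exists_crF p
  have h1 : crMap q = 0 := by
    rw [crMap, RingHom.comp_apply, ← hbq, map_mul, hp, mul_zero]
  have h2 : q = 0 := crMap_injective (by rw [h1, map_zero])
  rw [h2, map_zero] at hbq
  rcases mul_eq_zero.mp hbq with h3 | h3
  · rw [C_eq_zero, map_eq_zero_iff _ (IsFractionRing.injective ℂ[X] FF)] at h3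
    exact absurd h3 hb
  · exact h3

noncomputable instance algFF : Algebra FF[X] RatK := ffMap.toAlgebra

lemma algebraMap_FF : algebraMap FF[X] RatK = ffMap := rfl

instance : IsFractionRing FF[X] RatK := by
  have : FaithfulSMul FF[X] RatK := (faithfulSMul_iff_algebraMap_injective _ _).mpr
    (by rw [algebraMap_FF]; exact ffMap_injective)
  refine IsFractionRing.of_field _ _ fun z => ?_
  obtain ⟨a, b, hb, rfl⟩ := IsFractionRing.div_surjective (A := MvPolynomial (Fin 2) ℂ) z
  refine ⟨crF (crInv a), crF (crInv b), ?_⟩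
  have h1 : ∀ p, algebraMap FF[X] RatK (crF (crInv p)) =
      algebraMap (MvPolynomial (Fin 2) ℂ) RatK p := by
    intro p
    have := crMap_eq (crInv p)
    rw [crTo_crInv] at this
    exact this
  rw [h1, h1]

end Vale.Agent.P287.Theta
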