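import Vale.Agent.P287.Theta.Top
import Vale.Agent.P287.Theta.Chart

/-!
Dehomogenisation of ternary forms in the chart `t₀ = 1`, with values in `ℂ[x][y]`.
-/

namespace Vale.Agent.P287.Theta

open Polynomial Vale.Agent.P287

/-- The ring of ternary forms. -/
abbrev R3 : Type := MvPolynomial (Fin 3) ℂ

/-- `P ↦ P(1, x, y)`. -/
noncomputable def dh : R3 →ₐ[ℂ] ℂ[X][X] := MvPolynomial.aeval ![1, C X, X]

lemma dh_monomial (d : Fin 3 →₀ ℕ) (c : ℂ) :
    dh (MvPolynomial.monomial d c) = monomial (d 2) (monomial (d 1) c) := by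
  rw [dh, MvPolynomial.aeval_monomial, Finsupp.prod_fintype _ _ (by intro i; rw [pow_zero]),
    Fin.prod_univ_three]
  simp only [Matrix.cons_val_zero, Matrix.cons_val_one, Matrix.cons_val_two, Matrix.tail_cons,
    Matrix.head_cons, one_pow, one_mul]
  rw [← C_mul_X_pow_eq_monomial, ← C_mul_X_pow_eq_monomial, C_mul, C_pow, mul_assoc]
  rfl

lemma dh_X0 : dh (MvPolynomial.X 0) = 1 := by simp [dh]
lemma dh_X1 : dh (MvPolynomial.X 1) = C X := by simp [dh]
lemma dh_X2 : dh (MvPolynomial.X 2) = X := by simp [dh]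

lemma dh_C (c : ℂ) : dh (MvPolynomial.C c) = C (C c) := by
  rw [← MvPolynomial.algebraMap_eq, AlgHom.commutes]
  rfl

lemma crMap_dh (P : R3) : crMap (dh P) = MvPolynomial.aeval tvec P := by
  induction P using MvPolynomial.induction_on with
  | C a =>
    rw [dh_C, MvPolynomial.aeval_C, crMap_eq]
    simp only [crTo, coe_eval₂RingHom, eval₂_C]
    simp [IsScalarTower.algebraMap_apply ℂ (MvPolynomial (Fin 2) ℂ) RatK]
  | add p q hp hq => rw [map_add, map_add, map_add, hp, hq]
  | mul_X p i hp =>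
    rw [map_mul, map_mul, map_mul, hp]
    congr 1
    fin_cases i
    · simp [dh, tvec]
    · simp [dh, tvec, crMap_eq, crTo]
    · simp [dh, tvec, crMap_eq, crTo]

lemma coeff_dh (P : R3) (i j : ℕ) :
    ((dh P).coeff j).coeff i = ∑ d ∈ P.support,
      if d 2 = j then (if d 1 = i then MvPolynomial.coeff d P else 0) else 0 := by
  classical
  conv_lhs => rw [P.as_sum]
  rw [map_sum, finsetSum_coeff, finsetSum_coeff]
  refine Finset.sum_congr rfl fun d _ => ?_
  rw [dh_monomial, coeff_monomial]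
  split_ifs with h1 h2
  · rw [coeff_monomial, if_pos h2]
  · rw [coeff_monomial, if_neg h2]
  · rw [coeff_zero]

lemma degree_fin3 (d : Fin 3 →₀ ℕ) : d.degree = d 0 + d 1 + d 2 := by
  rw [Finsupp.degree_eq_sum, Fin.sum_univ_three]

lemma homog_sum {P : R3} {m : ℕ} (hP : P.IsHomogeneous m) {d : Fin 3 →₀ ℕ} (hd : d ∈ P.support) :
    d 0 + d 1 + d 2 = m := by
  have h1 := hP (MvPolynomial.mem_support_iff.mp hd)
  rw [← degree_fin3, ← h1, Finsupp.degree_eq_weight_one]
  rfl

lemma dh_eq_zero {P : R3} {m : ℕ} (hP : P.IsHomogeneous m) (h : dh P = 0) : P = 0 := by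
  classical
  by_contra h0
  obtain ⟨d, hd⟩ := MvPolynomial.support_nonempty.mpr h0
  have h1 := coeff_dh P (d 1) (d 2)
  rw [h, coeff_zero, coeff_zero, Finset.sum_eq_single d] at h1
  · rw [if_pos rfl, if_pos rfl] at h1
    exact (MvPolynomial.mem_support_iff.mp hd) h1.symm
  · intro e he hed
    by_contra h2
    apply hed
    have e2 : e 2 = d 2 := by
      by_contra h3
      rw [if_neg h3] at h2
      exact h2 rfl
    have e1 : e 1 = d 1 := by
      by_contra h3
      rw [if_neg h3, ite_self] at h2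
      exact h2 rfl
    have s1 := homog_sum hP he
    have s2 := homog_sum hP hd
    ext i
    fin_cases i
    · show e 0 = d 0
      omega
    · exact e1
    · exact e2
  · intro h2
    exact absurd hd h2

lemma dh_inj {P Q : R3} {m : ℕ} (hP : P.IsHomogeneous m) (hQ : Q.IsHomogeneous m)
    (h : dh P = dh Q) : P = Q := by
  rw [← sub_eq_zero]
  exact dh_eq_zero (hP.sub hQ) (by rw [map_sub, h, sub_self])

lemma Th_monomial (n i : ℕ) (a : ℂ) :
    Th (monomial n (monomial i a)) = monomial (i + n) (monomial n a) := by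
  simp only [Th, coe_eval₂RingHom, eval₂_monomial, RingHom.comp_apply]
  rw [mul_pow, ← C_pow, ← C_mul_X_pow_eq_monomial, ← C_mul_X_pow_eq_monomial, C_mul, C_pow]
  ring

lemma TD_dh {P : R3} {m : ℕ} (hP : P.IsHomogeneous m) : TD m (dh P) := by
  rw [P.as_sum, map_sum]
  refine TD.sum _ fun d hd => ?_
  rw [dh_monomial, TD, Th_monomial]
  refine (natDegree_monomial_le _).trans ?_
  have := homog_sum hP hd
  omega

lemma top_dh {P : R3} {m : ℕ} (hP : P.IsHomogeneous m) :
    top m (dh P) = MvPolynomial.aeval ![0, 1, X] P := by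
  conv_lhs => rw [P.as_sum]
  conv_rhs => rw [P.as_sum]
  rw [map_sum, map_sum, top_sum]
  refine Finset.sum_congr rfl fun d hd => ?_
  have hs := homog_sum hP hd
  rw [dh_monomial, top, Th_monomial, coeff_monomial, MvPolynomial.aeval_monomial,
    Finsupp.prod_fintype _ _ (by intro i; rw [pow_zero]), Fin.prod_univ_three]
  simp only [Matrix.cons_val_zero, Matrix.cons_val_one, Matrix.cons_val_two, Matrix.tail_cons,
    Matrix.head_cons, one_pow, mul_one]
  by_cases h0 : d 0 = 0
  · rw [if_pos (by omega), h0, pow_zero, one_mul, ← C_mul_X_pow_eq_monomial]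
    rfl
  · rw [if_neg (by omega), zero_pow h0, zero_mul, mul_zero]

lemma exists_homog {m : ℕ} {p : ℂ[X][X]} (hp : TD m p) :
    ∃ P : R3, P.IsHomogeneous m ∧ dh P = p := by
  classical
  rw [TD_iff] at hp
  refine ⟨∑ j ∈ Finset.range (m + 1), ∑ i ∈ Finset.range (m - j + 1),
    MvPolynomial.C ((p.coeff j).coeff i) *
      (MvPolynomial.X 0 ^ (m - j - i) * MvPolynomial.X 1 ^ i * MvPolynomial.X 2 ^ j), ?_, ?_⟩
  · refine MvPolynomial.IsHomogeneous.sum _ _ _ fun j hj => ?_
    refine MvPolynomial.IsHomogeneous.sum _ _ _ fun i hi => ?_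
    have h1 := Finset.mem_range.mp hj
    have h2 := Finset.mem_range.mp hi
    have h3 := ((MvPolynomial.isHomogeneous_X_pow (R := ℂ) (0 : Fin 3) (m - j - i)).mul
      (MvPolynomial.isHomogeneous_X_pow (R := ℂ) (1 : Fin 3) i)).mul
      (MvPolynomial.isHomogeneous_X_pow (R := ℂ) (2 : Fin 3) j)
    have h4 := (MvPolynomial.isHomogeneous_C (Fin 3) ((p.coeff j).coeff i)).mul h3
    rwa [show 0 + (m - j - i + i + j) = m by omega] at h4
  · have hj : ∀ j, p.coeff j = ∑ i ∈ Finset.range (m - j + 1), C ((p.coeff j).coeff i) * X ^ i := by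
      intro j
      by_cases h0 : p.coeff j = 0
      · rw [h0]
        simp
      · exact as_sum_range_C_mul_X_pow' _ (by have := hp j h0; omega)
    have hpd : p.natDegree < m + 1 := by
      by_contra h1
      have h0 : p.coeff p.natDegree ≠ 0 := by
        rw [coeff_natDegree, Ne, leadingCoeff_eq_zero]
        rintro rfl
        simp at h1
      have := hp _ h0
      omega
    conv_rhs => rw [as_sum_range_C_mul_X_pow' p hpd]
    rw [map_sum]
    refine Finset.sum_congr rfl fun j _ => ?_
    conv_rhs => rw [hj j]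
    rw [map_sum, map_sum, Finset.sum_mul]
    refine Finset.sum_congr rfl fun i _ => ?_
    rw [map_mul, map_mul, map_mul, map_pow, map_pow, map_pow, dh_X0, dh_X1, dh_X2, dh_C, one_pow,
      one_mul, C_mul, C_pow]
    ring

end Vale.Agent.P287.Theta
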