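import Vale.Agent.P287.Theta.DehomPrime

/-!
Smooth ternary forms and linear changes of coordinates.
-/

namespace Vale.Agent.P287.Theta

open Polynomial Vale.Agent.P287

/-- The plane curve `f = 0` is smooth. -/
def SmoothTernary (f : R3) : Prop :=
  ∀ t : Fin 3 → ℂ, (∀ i, MvPolynomial.eval t (MvPolynomial.pderiv i f) = 0) → t = 0

/-- Chain rule. -/
lemma chain_rule {σ A : Type*} [Fintype σ] [CommRing A] [Algebra ℂ A] (D : Derivation ℂ A A)
    (φ : σ → A) (P : MvPolynomial σ ℂ) :
    D (MvPolynomial.aeval φ P) =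
      ∑ i, MvPolynomial.aeval φ (MvPolynomial.pderiv i P) * D (φ i) := by
  classical
  induction P using MvPolynomial.induction_on with
  | C a =>
    simp only [MvPolynomial.aeval_C, Derivation.map_algebraMap, MvPolynomial.pderiv_C, map_zero,
      zero_mul, Finset.sum_const_zero]
  | add p q hp hq =>
    simp only [map_add, hp, hq, add_mul, Finset.sum_add_distrib]
  | mul_X p i hp =>
    rw [map_mul, Derivation.leibniz, hp, MvPolynomial.aeval_X]
    simp only [smul_eq_mul, Derivation.leibniz, MvPolynomial.pderiv_X, map_add, map_mul,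
      MvPolynomial.aeval_X, add_mul, Finset.sum_add_distrib]
    congr 1
    · rw [Finset.sum_eq_single i]
      · simp
      · intro j _ hj
        simp [hj.symm]
      · intro h
        exact absurd (Finset.mem_univ i) h
    · rw [Finset.mul_sum]
      exact Finset.sum_congr rfl fun j _ => by ring

/-- Substitution of a matrix of coordinates: `(sb T P)(t) = P(T t)`. -/
noncomputable def sb (T : Matrix (Fin 3) (Fin 3) ℂ) : R3 →ₐ[ℂ] R3 :=
  MvPolynomial.aeval fun i => ∑ j, MvPolynomial.C (T i j) * MvPolynomial.X j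

lemma sb_X (T : Matrix (Fin 3) (Fin 3) ℂ) (i : Fin 3) :
    sb T (MvPolynomial.X i) = ∑ j, MvPolynomial.C (T i j) * MvPolynomial.X j := by
  rw [sb, MvPolynomial.aeval_X]

lemma sb_homog (T : Matrix (Fin 3) (Fin 3) ℂ) {P : R3} {m : ℕ} (hP : P.IsHomogeneous m) :
    (sb T P).IsHomogeneous m := by
  have h := hP.aeval (n := 1) (fun i => ∑ j, MvPolynomial.C (T i j) * MvPolynomial.X j)
    (fun i => MvPolynomial.IsHomogeneous.sum _ _ _ fun j _ => by
      have := (MvPolynomial.isHomogeneous_C (Fin 3) (T i j)).mul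
        (MvPolynomial.isHomogeneous_X ℂ j)
      rwa [zero_add] at this)
  rwa [one_mul] at h

lemma sb_sb (S T : Matrix (Fin 3) (Fin 3) ℂ) (P : R3) : sb S (sb T P) = sb (T * S) P := by
  have : (sb S).comp (sb T) = sb (T * S) := by
    apply MvPolynomial.algHom_ext
    intro i
    rw [AlgHom.comp_apply, sb_X, sb_X, map_sum]
    simp only [map_mul, sb_X]
    have hC : ∀ c : ℂ, sb S (MvPolynomial.C c) = MvPolynomial.C c := fun c => by
      rw [← MvPolynomial.algebraMap_eq, AlgHom.commutes]
    simp only [hC, Finset.mul_sum]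
    rw [Finset.sum_comm]
    refine Finset.sum_congr rfl fun k _ => ?_
    rw [Matrix.mul_apply, map_sum, Finset.sum_mul]
    refine Finset.sum_congr rfl fun j _ => ?_
    rw [map_mul]
    ring
  rw [← this]
  rfl

lemma sb_one (P : R3) : sb 1 P = P := by
  have : sb 1 = AlgHom.id ℂ R3 := by
    apply MvPolynomial.algHom_ext
    intro i
    rw [sb_X, AlgHom.id_apply, Finset.sum_eq_single i]
    · simp
    · intro j _ hj
      rw [Matrix.one_apply_ne hj.symm]
      simp
    · intro h
      exact absurd (Finset.mem_univ i) h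
  rw [this]
  rfl

lemma eval_sb (T : Matrix (Fin 3) (Fin 3) ℂ) (P : R3) (t : Fin 3 → ℂ) :
    MvPolynomial.eval t (sb T P) = MvPolynomial.eval (T.mulVec t) P := by
  induction P using MvPolynomial.induction_on with
  | C a =>
    rw [← MvPolynomial.algebraMap_eq, AlgHom.commutes, MvPolynomial.algebraMap_eq,
      MvPolynomial.eval_C, MvPolynomial.eval_C]
  | add p q hp hq => rw [map_add, map_add, map_add, hp, hq]
  | mul_X p i hp =>
    rw [map_mul, map_mul, map_mul, hp, sb_X, MvPolynomial.eval_X, map_sum]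
    congr 1
    simp only [map_mul, MvPolynomial.eval_C, MvPolynomial.eval_X]
    rfl

section inverse

variable {S T : Matrix (Fin 3) (Fin 3) ℂ}

lemma sb_inv (h : T * S = 1) (P : R3) : sb S (sb T P) = P := by
  rw [sb_sb, h, sb_one]

lemma sb_dvd_iff (h : T * S = 1) {P Q : R3} : sb T P ∣ sb T Q ↔ P ∣ Q := by
  constructor
  · intro h1
    have h2 := map_dvd (sb S) h1
    rwa [sb_inv h, sb_inv h] at h2
  · intro h1
    exact map_dvd (sb T) h1

/-- The substitution as an isomorphism. -/
noncomputable def sbEquiv (h : T * S = 1) : R3 ≃ₐ[ℂ] R3 :=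
  AlgEquiv.ofAlgHom (sb T) (sb S)
    (by
      apply AlgHom.ext
      intro P
      exact sb_inv (mul_eq_one_comm.mp h) P)
    (by
      apply AlgHom.ext
      intro P
      exact sb_inv h P)

lemma sb_irreducible (h : T * S = 1) {P : R3} (hP : Irreducible P) : Irreducible (sb T P) :=
  (MulEquiv.irreducible_iff (sbEquiv h).toMulEquiv).mpr hP

lemma sb_smooth (h : T * S = 1) {f : R3} (hf : SmoothTernary f) : SmoothTernary (sb T f) := by
  intro t ht
  have h1 : ∀ i, ∑ j, MvPolynomial.eval (T.mulVec t) (MvPolynomial.pderiv j f) * T j i = 0 := by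
    intro i
    rw [← ht i]
    have h2 := chain_rule (MvPolynomial.pderiv (R := ℂ) i)
      (fun i => ∑ j, MvPolynomial.C (T i j) * MvPolynomial.X j) f
    have h3 := congrArg (MvPolynomial.eval t) h2
    refine Eq.trans ?_ h3.symm
    rw [map_sum]
    refine Finset.sum_congr rfl fun j _ => ?_
    rw [map_mul]
    congr 1
    · exact (eval_sb T _ t).symm
    · rw [map_sum, map_sum, Finset.sum_eq_single i]
      · rw [MvPolynomial.pderiv_C_mul, MvPolynomial.pderiv_X_self, mul_one, MvPolynomial.eval_C]
      · intro k _ hk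
        rw [MvPolynomial.pderiv_C_mul, MvPolynomial.pderiv_X_of_ne hk, mul_zero, map_zero]
      · intro h
        exact absurd (Finset.mem_univ i) h
  have h2 : Matrix.vecMul (fun j => MvPolynomial.eval (T.mulVec t) (MvPolynomial.pderiv j f)) T
      = 0 := funext h1
  have h3 : (fun j => MvPolynomial.eval (T.mulVec t) (MvPolynomial.pderiv j f)) = 0 := by
    have := congrArg (fun v => Matrix.vecMul v S) h2
    simp only [Matrix.vecMul_vecMul, h, Matrix.vecMul_one, Matrix.zero_vecMul] at this
    exact this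
  have h4 := hf _ (fun i => congrFun h3 i)
  have := congrArg (S.mulVec) h4
  rwa [Matrix.mulVec_mulVec, mul_eq_one_comm.mp h, Matrix.one_mulVec, Matrix.mulVec_zero] at this

end inverse

lemma aeval_line (P : R3) (x y a b : ℂ) :
    eval₂RingHom (aeval (C x + C a * X : ℂ[X]) : ℂ[X] →ₐ[ℂ] ℂ[X]).toRingHom
      (C y + C b * X : ℂ[X]) (dh P) =
      MvPolynomial.aeval ![1, C x + C a * X, C y + C b * X] P := by
  induction P using MvPolynomial.induction_on with
  | C c =>
    rw [dh_C, MvPolynomial.aeval_C]
    simp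
  | add p q hp hq => rw [map_add, map_add, map_add, hp, hq]
  | mul_X p i hp =>
    rw [map_mul, map_mul, map_mul, hp, MvPolynomial.aeval_X]
    congr 1
    fin_cases i
    · simp [dh_X0]
    · simp [dh_X1]
    · simp [dh_X2]

lemma evalEval_dh (P : R3) (x y : ℂ) :
    evalEval x y (dh P) = MvPolynomial.eval ![1, x, y] P := by
  induction P using MvPolynomial.induction_on with
  | C c => rw [dh_C, MvPolynomial.eval_C]; simp
  | add p q hp hq => rw [map_add, map_add, evalEval_add, hp, hq]
  | mul_X p i hp =>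
    rw [map_mul, map_mul, evalEval_mul, hp, MvPolynomial.eval_X]
    congr 1
    fin_cases i
    · simp [dh_X0]
    · simp [dh_X1, evalEval]
    · simp [dh_X2]

lemma eval_aeval_poly (P : R3) (φ : Fin 3 → ℂ[X]) (s : ℂ) :
    (MvPolynomial.aeval φ P : ℂ[X]).eval s = MvPolynomial.eval (fun i => (φ i).eval s) P := by
  induction P using MvPolynomial.induction_on with
  | C c => simp
  | add p q hp hq => rw [map_add, map_add, eval_add, hp, hq]
  | mul_X p i hp => rw [map_mul, map_mul, eval_mul, hp, MvPolynomial.aeval_X, MvPolynomial.eval_X]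

/-- Points of a smooth curve, in the affine chart. -/
theorem smooth_dh {f : R3} {m : ℕ} (hf : f.IsHomogeneous m) (hs : SmoothTernary f) (x y : ℂ)
    (hp : evalEval x y (dh f) = 0) :
    dh f ∉ (Ideal.span {C (X - C x), X - C (C y)} : Ideal ℂ[X][X]) ^ 2 := by
  intro hmem
  have hline : ∀ a b : ℂ, MvPolynomial.eval ![1, x, y] (MvPolynomial.pderiv 1 f) * a +
      MvPolynomial.eval ![1, x, y] (MvPolynomial.pderiv 2 f) * b = 0 := by
    intro a b
    set ψ := eval₂RingHom (aeval (C x + C a * X : ℂ[X]) : ℂ[X] →ₐ[ℂ] ℂ[X]).toRingHom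
      (C y + C b * X : ℂ[X]) with hψ
    have h1 : ψ (dh f) ∈ (Ideal.span {(X : ℂ[X])}) ^ 2 := by
      have h2 := Ideal.mem_map_of_mem ψ hmem
      rw [Ideal.map_pow, Ideal.map_span] at h2
      refine Ideal.pow_right_mono (Ideal.span_le.mpr ?_) 2 h2
      rintro _ ⟨w, (rfl | rfl), rfl⟩
      · refine Ideal.mem_span_singleton.mpr ⟨C a, ?_⟩
        simp [hψ]
      · refine Ideal.mem_span_singleton.mpr ⟨C b, ?_⟩
        simp [hψ]
    rw [hψ, aeval_line, Ideal.span_singleton_pow, Ideal.mem_span_singleton] at h1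
    obtain ⟨w, hw⟩ := h1
    have h2 := chain_rule (Polynomial.derivative' (R := ℂ))
      ![1, C x + C a * X, C y + C b * X] f
    rw [Polynomial.derivative'_apply, hw, Fin.sum_univ_three] at h2
    have h3 := congrArg (eval 0) h2
    simp only [derivative_mul, derivative_X_pow, eval_add, eval_mul, eval_pow, eval_X,
      eval_aeval_poly, Polynomial.derivative'_apply, Matrix.cons_val_zero, Matrix.cons_val_one,
      Matrix.cons_val_two, Matrix.tail_cons, Matrix.head_cons, derivative_one, derivative_add,
      derivative_C, derivative_X, eval_zero, eval_C, eval_one] at h3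
    have h4 : (fun i => eval 0 ((![1, C x + C a * X, C y + C b * X] : Fin 3 → ℂ[X]) i)) =
        ![1, x, y] := by
      funext i
      fin_cases i <;> simp
    rw [h4] at h3
    linear_combination -h3
  have h1 : MvPolynomial.eval ![1, x, y] (MvPolynomial.pderiv 1 f) = 0 := by
    simpa using hline 1 0
  have h2 : MvPolynomial.eval ![1, x, y] (MvPolynomial.pderiv 2 f) = 0 := by
    simpa using hline 0 1
  have h0 : MvPolynomial.eval ![1, x, y] (MvPolynomial.pderiv 0 f) = 0 := by
    have h3 := congrArg (MvPolynomial.eval ![1, x, y]) hf.sum_X_mul_pderiv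
    rw [Fin.sum_univ_three] at h3
    simp only [map_add, map_mul, MvPolynomial.eval_X, h1, h2, mul_zero, add_zero, map_nsmul,
      Matrix.cons_val_zero, one_mul] at h3
    rw [h3, ← evalEval_dh, hp, smul_zero]
  have h3 := hs ![1, x, y] (by
    intro i
    fin_cases i
    · exact h0
    · exact h1
    · exact h2)
  have := congrFun h3 0
  simp at this

end Vale.Agent.P287.Theta
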