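import Vale.Agent.P287.Theta.CountE

/-!
The dimension of `ℂ[x,y]/(h,f)` is at most `6 d`.
-/

namespace Vale.Agent.P287.Theta

open Polynomial Module

lemma rank_nullity {K V W : Type*} [Field K] [AddCommGroup V] [Module K V] [AddCommGroup W]
    [Module K W] [FiniteDimensional K V] (f : V →ₗ[K] W) :
    finrank K (LinearMap.range f) + finrank K (LinearMap.ker f) = finrank K V :=
  f.finrank_range_add_finrank_ker

/-- If `EE → EE' → A` is a complex with injective first map then the rank of the second map is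
bounded. -/
lemma rank_le_of_complex {K U V W : Type*} [Field K] [AddCommGroup U] [Module K U]
    [AddCommGroup V] [Module K V] [AddCommGroup W]
    [Module K W] [FiniteDimensional K V] (f : U →ₗ[K] V) (g : V →ₗ[K] W)
    (hf : Function.Injective f) (hfg : ∀ x, g (f x) = 0) :
    finrank K (LinearMap.range g) + finrank K U ≤ finrank K V := by
  have hker : LinearMap.range f ≤ LinearMap.ker g := by
    rintro _ ⟨x, rfl⟩
    exact hfg x
  have h1 := LinearMap.finrank_range_of_inj hf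
  have h2 := Submodule.finrank_mono hker
  have h3 := g.finrank_range_add_finrank_ker
  omega

lemma card_le_of_subset_range {K V W : Type*} [Field K] [AddCommGroup V] [Module K V]
    [AddCommGroup W] [Module K W] [FiniteDimensional K V] (g : V →ₗ[K] W) (s : Finset W)
    (hs : LinearIndependent K (fun i : s => (i : W))) (hsg : ∀ a ∈ s, a ∈ LinearMap.range g) :
    s.card ≤ finrank K (LinearMap.range g) := by
  have h1 : Submodule.span K (s : Set W) ≤ LinearMap.range g := by
    rw [Submodule.span_le]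
    exact fun a ha => hsg a ha
  have h2 := Submodule.finrank_mono h1
  have h3 := finrank_span_finset_eq_card hs
  omega

lemma rank_le_of_forall {K W : Type*} [Field K] [AddCommGroup W] [Module K W] (n : ℕ)
    (h : ∀ s : Finset W, LinearIndependent K (fun i : s => (i : W)) → s.card ≤ n) :
    Module.Finite K W ∧ finrank K W ≤ n := by
  have h1 : Module.rank K W ≤ n := _root_.rank_le h
  refine ⟨?_, Module.finrank_le_of_rank_le h1⟩
  rw [← Module.rank_lt_aleph0_iff]
  exact h1.trans_lt Cardinal.natCast_lt_aleph0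

lemma CC_smul (c : ℂ) (p : ℂ[X][X]) : c • p = C (C c) * p := by
  ext i j
  simp [coeff_smul, coeff_C_mul]

lemma exists_WD (p : ℂ[X][X]) : ∃ m, WD m p := by
  refine ⟨∑ j ∈ p.support, ((p.coeff j).natDegree + j), fun j hj => ?_⟩
  exact Finset.single_le_sum (f := fun j => (p.coeff j).natDegree + j) (fun _ _ => Nat.zero_le _)
    (mem_support_iff.mpr hj)

/-- The plane curve `f = 0` of degree `6`, monic in `y` (up to a constant). -/
structure Sextic (f F : ℂ[X][X]) : Prop where
  prime : Prime f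
  monic : F.Monic
  deg : F.natDegree = 6
  wd : WD 6 F
  dvd : F ∣ f
  dvd' : f ∣ F

lemma Sextic.mk' {f : ℂ[X][X]} (hf : Prime f) (hfW : WD 6 f)
    (hf6 : ∃ c : ℂ, c ≠ 0 ∧ f.coeff 6 = C c) : ∃ F, Sextic f F := by
  obtain ⟨c, hc, h6⟩ := hf6
  have hdeg : f.natDegree = 6 := by
    refine le_antisymm hfW.natDegree_le (le_natDegree_of_ne_zero ?_)
    rw [h6]
    simpa using hc
  have hFdeg : (C (C c⁻¹) * f).natDegree = 6 := by
    rw [natDegree_C_mul (by simpa using hc), hdeg]
  refine ⟨C (C c⁻¹) * f, hf, ?_, hFdeg, hfW.CC_mul _, ?_, Dvd.intro_left _ rfl⟩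
  · rw [Monic, leadingCoeff, hFdeg, coeff_C_mul, h6, ← C_mul, inv_mul_cancel₀ hc, C_1]
  · refine ⟨C (C c), ?_⟩
    have : C (C c⁻¹) * C (C c) = (1 : ℂ[X][X]) := by
      rw [← C_mul, ← C_mul, inv_mul_cancel₀ hc, C_1, C_1]
    calc f = (C (C c⁻¹) * C (C c)) * f := by rw [this, one_mul]
      _ = _ := by ring

section

variable {f F : ℂ[X][X]} (S : Sextic f F)

include S

lemma Sextic.modByMonic_mem {m : ℕ} {p : ℂ[X][X]} (hp : WD m p) : p %ₘ F ∈ EE m := by
  refine ⟨WD.modByMonic S.monic S.deg S.wd hp, ?_⟩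
  have h1 := natDegree_modByMonic_lt p S.monic (by
    intro h
    have := S.deg
    rw [h, natDegree_one] at this
    omega)
  rw [S.deg] at h1
  omega

lemma Sextic.eq_zero {p : ℂ[X][X]} (hp : p.natDegree ≤ 5) (h : f ∣ p) : p = 0 := by
  by_contra h0
  have h1 : F ∣ p := S.dvd.trans h
  have h2 := natDegree_le_of_dvd h1 h0
  rw [S.deg] at h2
  omega

lemma Sextic.modByMonic_eq (p : ℂ[X][X]) : ∃ q, p %ₘ F = p + f * q := by
  obtain ⟨q, hq⟩ := S.dvd'
  refine ⟨-(q * (p /ₘ F)), ?_⟩
  have h2 := modByMonic_add_div p F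
  have h3 : p %ₘ F = p - F * (p /ₘ F) := eq_sub_of_add_eq h2
  rw [h3]
  generalize p /ₘ F = w
  rw [hq]
  ring

/-- Multiplication by `h` followed by division by `F`. -/
noncomputable def Sextic.mulMap {d : ℕ} {h : ℂ[X][X]} (hh : WD d h) (m : ℕ) :
    EE m →ₗ[ℂ] EE (m + d) where
  toFun p := ⟨(h * p) %ₘ F, S.modByMonic_mem (by
    rw [mul_comm]
    exact p.2.1.mul hh)⟩
  map_add' p q := by
    apply Subtype.ext
    simp only [Submodule.coe_add, mul_add, add_modByMonic]
  map_smul' c p := by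
    apply Subtype.ext
    simp only [SetLike.val_smul, RingHom.id_apply]
    rw [CC_smul, CC_smul, ← mul_assoc, mul_comm h, mul_assoc, ← smul_eq_C_mul, ← smul_eq_C_mul,
      smul_modByMonic]

end

/-- An abstract model of `ℂ[x,y]/(h,f)`. -/
structure Quot (f h : ℂ[X][X]) {A : Type*} [CommRing A] [Algebra ℂ A] (π : ℂ[X][X] →ₐ[ℂ] A) :
    Prop where
  surj : Function.Surjective π
  ker : ∀ p, π p = 0 ↔ p ∈ Ideal.span {h, f}

section

variable {f F h : ℂ[X][X]} {A : Type*} [CommRing A] [Algebra ℂ A] {π : ℂ[X][X] →ₐ[ℂ] A}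

lemma Quot.f_eq (Q : Quot f h π) : π f = 0 := (Q.ker f).mpr (Ideal.subset_span (by simp))

lemma Quot.h_eq (Q : Quot f h π) : π h = 0 := (Q.ker h).mpr (Ideal.subset_span (by simp))

/-- The quotient map to `ℂ[x,y]/(h,f)` restricted to `EE m`. -/
noncomputable def quotMap (π : ℂ[X][X] →ₐ[ℂ] A) (m : ℕ) : EE m →ₗ[ℂ] A where
  toFun p := π p
  map_add' p q := by simp
  map_smul' c p := by simp

lemma quotMap_apply (m : ℕ) (p : EE m) : quotMap π m p = π (p : ℂ[X][X]) := rfl

lemma Quot.modByMonic (Q : Quot f h π) (S : Sextic f F) (p : ℂ[X][X]) : π (p %ₘ F) = π p := by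
  obtain ⟨q, hq⟩ := S.modByMonic_eq p
  rw [hq, map_add, map_mul, Q.f_eq, zero_mul, add_zero]

lemma Quot.finrank_range (Q : Quot f h π) (S : Sextic f F) {d : ℕ} (hh : WD d h)
    (hfh : ¬ f ∣ h) {m : ℕ} (hm : 5 ≤ m) :
    finrank ℂ (LinearMap.range (quotMap π (m + d))) ≤ 6 * d := by
  have hinj : Function.Injective (S.mulMap hh m) := by
    refine (injective_iff_map_eq_zero _).mpr ?_
    intro p hp
    have h1 : (h * (p : ℂ[X][X])) %ₘ F = 0 := congrArg Subtype.val hp
    rw [modByMonic_eq_zero_iff_dvd S.monic] at h1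
    have h2 : f ∣ h * (p : ℂ[X][X]) := S.dvd'.trans h1
    exact Subtype.ext (S.eq_zero p.2.2 ((S.prime.dvd_or_dvd h2).resolve_left hfh))
  have hker : ∀ p, quotMap π (m + d) (S.mulMap hh m p) = 0 := by
    intro p
    rw [quotMap_apply]
    change π ((h * (p : ℂ[X][X])) %ₘ F) = 0
    rw [Q.modByMonic S, map_mul, Q.h_eq, zero_mul]
  have h1 := rank_le_of_complex (K := ℂ) (U := EE m) (V := EE (m + d)) (W := A) (S.mulMap hh m) (quotMap π (m + d)) hinj hker
  have h4 := finrank_EE_of_le hm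
  have h5 := finrank_EE_of_le (by omega : 5 ≤ m + d)
  omega

lemma Quot.exists_subset_range (Q : Quot f h π) (S : Sextic f F) (d : ℕ) (s : Finset A) :
    ∃ m, 5 ≤ m ∧ ∀ a ∈ s, a ∈ LinearMap.range (quotMap π (m + d)) := by
  classical
  induction s using Finset.induction_on with
  | empty => exact ⟨5, le_rfl, by simp⟩
  | insert a s ha ih =>
    obtain ⟨m, hm, hs⟩ := ih
    obtain ⟨p, rfl⟩ := Q.surj a
    obtain ⟨n, hn⟩ := exists_WD p
    refine ⟨m + n, by omega, fun b hb => ?_⟩
    rw [Finset.mem_insert] at hb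
    rcases hb with rfl | hb
    · refine ⟨⟨p %ₘ F, S.modByMonic_mem (hn.mono (by omega))⟩, ?_⟩
      rw [quotMap_apply]
      exact Q.modByMonic S p
    · obtain ⟨q, hq⟩ := hs b hb
      refine ⟨⟨q, EE_mono (by omega) q.2⟩, ?_⟩
      rw [quotMap_apply] at hq ⊢
      exact hq

lemma Quot.card_le (Q : Quot f h π) (S : Sextic f F) {d : ℕ} (hh : WD d h) (hfh : ¬ f ∣ h)
    (s : Finset A) (hs : LinearIndependent ℂ (fun i : s => (i : A))) : s.card ≤ 6 * d := by
  obtain ⟨m, hm, hsm⟩ := Q.exists_subset_range S d s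
  have h1 := card_le_of_subset_range (K := ℂ) (V := EE (m + d)) (W := A) (quotMap π (m + d)) s
    hs hsm
  have h2 := Q.finrank_range S hh hfh hm
  exact h1.trans h2

lemma Quot.finite_and (Q : Quot f h π) (S : Sextic f F) {d : ℕ} (hh : WD d h)
    (hfh : ¬ f ∣ h) : Module.Finite ℂ A ∧ finrank ℂ A ≤ 6 * d :=
  rank_le_of_forall (K := ℂ) (W := A) (6 * d) (Q.card_le S hh hfh)

end

end Vale.Agent.P287.Theta
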