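import Vale.Agent.P287.Theta.WD

/-!
The space `EE m` of polynomials of total degree at most `m` and `y`-degree at most `5`;
dimension of `ℂ[x,y]/(h,f)`.
-/

namespace Vale.Agent.P287.Theta

open Polynomial Module

/-- Polynomials of total degree at most `m` and `y`-degree at most `5`. -/
def EE (m : ℕ) : Submodule ℂ ℂ[X][X] where
  carrier := {p | WD m p ∧ p.natDegree ≤ 5}
  add_mem' := fun {p q} hp hq =>
    ⟨hp.1.add hq.1, (natDegree_add_le p q).trans (max_le hp.2 hq.2)⟩
  zero_mem' := ⟨WD_zero m, by simp⟩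
  smul_mem' := fun c p hp => ⟨hp.1.smul c, (natDegree_smul_le c p).trans hp.2⟩

lemma mem_EE {m : ℕ} {p : ℂ[X][X]} : p ∈ EE m ↔ WD m p ∧ p.natDegree ≤ 5 := Iff.rfl

lemma EE_mono {m n : ℕ} (h : m ≤ n) : EE m ≤ EE n := fun _ hp => ⟨hp.1.mono h, hp.2⟩

/-- Coefficients of an element of `EE m`. -/
noncomputable def coeffMap (m : ℕ) : EE m →ₗ[ℂ] (Π j : Fin 6, Fin (m + 1 - j) → ℂ) where
  toFun p := fun j i => ((p : ℂ[X][X]).coeff j).coeff i
  map_add' p q := by ext j i; simp
  map_smul' c p := by ext j i; simp [coeff_smul]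

lemma coeffMap_bijective (m : ℕ) : Function.Bijective (coeffMap m) := by
  constructor
  · refine (injective_iff_map_eq_zero _).mpr ?_
    rintro ⟨p, hp⟩ h0
    rw [mem_EE] at hp
    apply Subtype.ext
    change p = 0
    ext j i
    rw [coeff_zero, coeff_zero]
    by_cases hj : j < 6
    · by_cases hi : i < m + 1 - j
      · have := congrFun (congrFun h0 ⟨j, hj⟩) ⟨i, hi⟩
        exact this
      · exact WD_iff.mp hp.1 i j (by omega)
    · rw [coeff_eq_zero_of_natDegree_lt (by omega : p.natDegree < j), coeff_zero]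
  · intro a
    set q : ℕ → ℂ[X] := fun j => if hj : j < 6 then
      ∑ i : Fin (m + 1 - j), Polynomial.monomial (i : ℕ) (a ⟨j, hj⟩ i) else 0 with hq
    set p : ℂ[X][X] := ∑ j ∈ Finset.range 6, Polynomial.monomial j (q j) with hp
    have hpc : ∀ j, p.coeff j = if j < 6 then q j else 0 := by
      intro j
      rw [hp, finsetSum_coeff]
      simp only [coeff_monomial]
      rw [Finset.sum_ite_eq' (Finset.range 6) j]
      simp only [Finset.mem_range]
    have hqc : ∀ (j : ℕ) (hj : j < 6) (i : ℕ), (q j).coeff i =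
        if hi : i < m + 1 - j then a ⟨j, hj⟩ ⟨i, hi⟩ else 0 := by
      intro j hj i
      simp only [hq, dif_pos hj, finsetSum_coeff, coeff_monomial]
      split_ifs with hi
      · rw [Finset.sum_eq_single (⟨i, hi⟩ : Fin (m + 1 - j))]
        · simp
        · intro b _ hb
          rw [if_neg]
          intro h1
          exact hb (Fin.ext h1)
        · intro h1
          exact absurd (Finset.mem_univ _) h1
      · refine Finset.sum_eq_zero fun b _ => ?_
        rw [if_neg]
        intro h1
        exact hi (h1 ▸ b.2)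
    have hpE : p ∈ EE m := by
      constructor
      · rw [WD_iff]
        intro i j hij
        rw [hpc]
        split_ifs with hj
        · rw [hqc j hj, dif_neg (by omega)]
        · exact coeff_zero i
      · rw [natDegree_le_iff_coeff_eq_zero]
        intro N hN
        rw [hpc, if_neg (by omega)]
    refine ⟨⟨p, hpE⟩, ?_⟩
    ext j i
    change (p.coeff j).coeff i = a j i
    rw [hpc, if_pos j.2, hqc j.1 j.2 i.1, dif_pos i.2]

noncomputable def coeffEquiv (m : ℕ) : EE m ≃ₗ[ℂ] (Π j : Fin 6, Fin (m + 1 - j) → ℂ) :=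
  LinearEquiv.ofBijective (coeffMap m) (coeffMap_bijective m)

instance finite_EE (m : ℕ) : Module.Finite ℂ (EE m) :=
  Module.Finite.equiv (coeffEquiv m).symm

lemma finrank_EE (m : ℕ) : finrank ℂ (EE m) = ∑ j : Fin 6, (m + 1 - j) := by
  rw [(coeffEquiv m).finrank_eq, Module.finrank_pi_fintype]
  simp

lemma finrank_EE_of_le {m : ℕ} (hm : 5 ≤ m) : finrank ℂ (EE m) + 9 = 6 * m := by
  rw [finrank_EE, Fin.sum_univ_succ, Fin.sum_univ_succ, Fin.sum_univ_succ, Fin.sum_univ_succ,
    Fin.sum_univ_succ, Fin.sum_univ_succ]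
  simp
  omega

end Vale.Agent.P287.Theta
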