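import Vale.Agent.P287.Theta.LocalNorm

/-!
Smooth affine plane curves: Nullstellensatz for `ℂ[x][y]`, the local rings of a smooth plane curve
are discrete valuation rings, normality of the coordinate ring.
-/

namespace Vale.Agent.P287.Theta

open Polynomial IsLocalRing

/-- Nullstellensatz for `ℂ[x][y]`. -/
lemma exists_common_point (I : Ideal ℂ[X][X]) (hI : I ≠ ⊤) :
    ∃ x y : ℂ, ∀ a ∈ I, evalEval x y a = 0 := by
  obtain ⟨m, hm, hIm⟩ := Ideal.exists_le_maximal I hI
  let _ : Field (ℂ[X][X] ⧸ m) := Ideal.Quotient.field m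
  have h1 : Algebra.FiniteType ℂ (ℂ[X][X]) :=
    Algebra.FiniteType.trans (S := ℂ[X]) inferInstance inferInstance
  have h2 : Algebra.FiniteType ℂ (ℂ[X][X] ⧸ m) :=
    Algebra.FiniteType.of_surjective (Ideal.Quotient.mkₐ ℂ m) (Ideal.Quotient.mkₐ_surjective ℂ m)
  have h3 : Module.Finite ℂ (ℂ[X][X] ⧸ m) := finite_of_finite_type_of_isJacobsonRing _ _
  have h4 : Algebra.IsIntegral ℂ (ℂ[X][X] ⧸ m) := Algebra.IsIntegral.of_finite _ _
  have h5 := (IsAlgClosed.algebraMap_bijective_of_isIntegral (k := ℂ) (K := ℂ[X][X] ⧸ m)).2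
  obtain ⟨x, hx⟩ := h5 (Ideal.Quotient.mk m (C X))
  obtain ⟨y, hy⟩ := h5 (Ideal.Quotient.mk m X)
  have hx' : C (X - C x) ∈ m := by
    rw [← Ideal.Quotient.eq_zero_iff_mem, map_sub, map_sub, ← hx, sub_eq_zero]
    rfl
  have hy' : X - C (C y) ∈ m := by
    rw [← Ideal.Quotient.eq_zero_iff_mem, map_sub, ← hy, sub_eq_zero]
    rfl
  refine ⟨x, y, fun a ha => ?_⟩
  by_contra h0
  have h6 : a - C (C (evalEval x y a)) ∈ m := by
    have h7 : a - C (C (evalEval x y a)) ∈ RingHom.ker (evalEvalRingHom x y) := by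
      rw [RingHom.mem_ker, map_sub, coe_evalEvalRingHom, sub_eq_zero]
      simp
    have h8 := ker_evalEval_le x y h7
    refine (Ideal.span_le.2 ?_) h8
    rintro b (rfl | rfl)
    · exact hx'
    · exact hy'
  have h9 : C (C (evalEval x y a)) ∈ m := by
    have := m.sub_mem (hIm ha) h6
    rwa [sub_sub_cancel] at this
  refine hm.ne_top (Ideal.eq_top_of_isUnit_mem _ h9 ?_)
  exact ((isUnit_iff_ne_zero.mpr h0).map (C : ℂ →+* ℂ[X])).map (C : ℂ[X] →+* ℂ[X][X])

section Local

/-- the coordinate ring of the curve `f = 0` -/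
def CR (f : ℂ[X][X]) : Type := ℂ[X][X] ⧸ Ideal.span {f}

noncomputable instance (f : ℂ[X][X]) : CommRing (CR f) :=
  inferInstanceAs (CommRing (ℂ[X][X] ⧸ Ideal.span {f}))

/-- the quotient map -/
noncomputable def mkC (f : ℂ[X][X]) : ℂ[X][X] →+* CR f := Ideal.Quotient.mk (Ideal.span {f})

lemma mkC_surjective (f : ℂ[X][X]) : Function.Surjective (mkC f) := Ideal.Quotient.mk_surjective

lemma mkC_eq_zero {f a : ℂ[X][X]} : mkC f a = 0 ↔ f ∣ a := by
  rw [← Ideal.mem_span_singleton]
  exact Ideal.Quotient.eq_zero_iff_mem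

noncomputable instance (f : ℂ[X][X]) : IsNoetherianRing (CR f) :=
  inferInstanceAs (IsNoetherianRing (ℂ[X][X] ⧸ Ideal.span {f}))

lemma isDomain_CR {f : ℂ[X][X]} (hf : Prime f) : IsDomain (CR f) := by
  have : (Ideal.span {f}).IsPrime := (Ideal.span_singleton_prime hf.ne_zero).2 hf
  exact inferInstanceAs (IsDomain (ℂ[X][X] ⧸ Ideal.span {f}))

variable (f : ℂ[X][X]) (x y : ℂ)

/-- evaluation on the coordinate ring of the curve. -/
noncomputable def evC (hp : evalEval x y f = 0) : CR f →+* ℂ :=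
  Ideal.Quotient.lift (Ideal.span {f}) (evalEvalRingHom x y) (by
    intro a ha
    obtain ⟨b, rfl⟩ := Ideal.mem_span_singleton.1 ha
    rw [map_mul, coe_evalEvalRingHom, hp, zero_mul])

lemma evC_mk (hp : evalEval x y f = 0) (a : ℂ[X][X]) : evC f x y hp (mkC f a) = evalEval x y a :=
  rfl

/-- the prime of the point. -/
noncomputable def ptC (hp : evalEval x y f = 0) : Ideal (CR f) :=
  RingHom.ker (evC f x y hp)

instance (hp : evalEval x y f = 0) : (ptC f x y hp).IsPrime := RingHom.ker_isPrime _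

/-- the local ring of the curve at a point -/
abbrev LocC (hp : evalEval x y f = 0) : Type :=
  Localization.AtPrime (ptC f x y hp)

variable {f x y}

lemma mk_mem_ptC {hp : evalEval x y f = 0} {a : ℂ[X][X]} :
    mkC f a ∈ ptC f x y hp ↔ evalEval x y a = 0 := Iff.rfl

/-- the map to the local ring -/
noncomputable def toLoc (hp : evalEval x y f = 0) : ℂ[X][X] →+* LocC f x y hp :=
  (algebraMap (CR f) (LocC f x y hp)).comp (mkC f)

lemma isDomain_LocC (hf : Prime f) (hp : evalEval x y f = 0) : IsDomain (LocC f x y hp) := by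
  have := isDomain_CR hf
  exact IsLocalization.isDomain_localization (Ideal.primeCompl_le_nonZeroDivisors _)

lemma toLoc_eq_zero (hf : Prime f) {hp : evalEval x y f = 0} {a : ℂ[X][X]} :
    toLoc hp a = 0 ↔ f ∣ a := by
  have := isDomain_CR hf
  have hinj : Function.Injective (algebraMap (CR f) (LocC f x y hp)) :=
    IsLocalization.injective _ (Ideal.primeCompl_le_nonZeroDivisors (ptC f x y hp))
  rw [toLoc, RingHom.comp_apply, map_eq_zero_iff _ hinj, mkC_eq_zero]

lemma isUnit_toLoc {hp : evalEval x y f = 0} {a : ℂ[X][X]} :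
    IsUnit (toLoc hp a) ↔ evalEval x y a ≠ 0 := by
  rw [toLoc, RingHom.comp_apply, IsLocalization.AtPrime.isUnit_to_map_iff (LocC f x y hp)
    (ptC f x y hp)]
  rfl

lemma maximalIdeal_LocC (hp : evalEval x y f = 0) :
    maximalIdeal (LocC f x y hp) = Ideal.span {toLoc hp (C (X - C x)), toLoc hp (X - C (C y))} := by
  have h1 : maximalIdeal (LocC f x y hp) = (ptC f x y hp).map (algebraMap (CR f) _) :=
    (Localization.AtPrime.map_eq_maximalIdeal).symm
  apply le_antisymm
  · rw [h1, Ideal.map_le_iff_le_comap]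
    intro a ha
    obtain ⟨a, rfl⟩ := mkC_surjective f a
    have h2 : a ∈ RingHom.ker (evalEvalRingHom x y) := ha
    have h3 := ker_evalEval_le x y h2
    have h4 := Ideal.mem_map_of_mem (toLoc hp) h3
    rw [Ideal.map_span, Set.image_pair] at h4
    exact h4
  · rw [Ideal.span_le]
    rintro b (rfl | rfl)
    · rw [SetLike.mem_coe, IsLocalRing.mem_maximalIdeal, mem_nonunits_iff, isUnit_toLoc]
      simp [evalEval]
    · rw [SetLike.mem_coe, IsLocalRing.mem_maximalIdeal, mem_nonunits_iff, isUnit_toLoc]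
      simp

/-- One of the two coordinates generates the maximal ideal at a smooth point. -/
lemma maximalIdeal_principal (hp : evalEval x y f = 0)
    (hsm : f ∉ (Ideal.span {C (X - C x), X - C (C y)} : Ideal ℂ[X][X]) ^ 2) :
    (maximalIdeal (LocC f x y hp)).IsPrincipal := by
  have h1 := ker_evalEval_le x y (show f ∈ RingHom.ker (evalEvalRingHom x y) from hp)
  obtain ⟨α, β, hαβ⟩ := Ideal.mem_span_pair.1 h1
  have hm1 : C (X - C x) ∈ (Ideal.span {C (X - C x), X - C (C y)} : Ideal ℂ[X][X]) :=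
    Ideal.subset_span (by simp)
  have hm2 : X - C (C y) ∈ (Ideal.span {C (X - C x), X - C (C y)} : Ideal ℂ[X][X]) :=
    Ideal.subset_span (by simp)
  have h0 : toLoc hp α * toLoc hp (C (X - C x)) + toLoc hp β * toLoc hp (X - C (C y)) = 0 := by
    rw [← map_mul, ← map_mul, ← map_add, hαβ]
    rw [toLoc, RingHom.comp_apply, mkC_eq_zero.2 dvd_rfl, map_zero]
  by_cases hα : evalEval x y α = 0
  · by_cases hβ : evalEval x y β = 0
    · exfalso
      apply hsm
      rw [← hαβ, pow_two]
      exact add_mem (Ideal.mul_mem_mul (ker_evalEval_le x y hα) hm1)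
        (Ideal.mul_mem_mul (ker_evalEval_le x y hβ) hm2)
    · obtain ⟨u, hu⟩ := isUnit_toLoc.2 hβ
      refine ⟨toLoc hp (C (X - C x)), ?_⟩
      rw [maximalIdeal_LocC, Ideal.submodule_span_eq]
      apply le_antisymm
      · rw [Ideal.span_le]
        rintro b (rfl | rfl)
        · exact Ideal.mem_span_singleton_self _
        · rw [SetLike.mem_coe, Ideal.mem_span_singleton]
          refine ⟨- (((u⁻¹ : (LocC f x y hp)ˣ) : LocC f x y hp) * toLoc hp α), ?_⟩
          rw [← hu] at h0
          have h2 : ((u⁻¹ : (LocC f x y hp)ˣ) : LocC f x y hp) * u = 1 := u.inv_mul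
          linear_combination ((u⁻¹ : (LocC f x y hp)ˣ) : LocC f x y hp) * h0 - toLoc hp (X - C (C y)) * h2
      · exact Ideal.span_mono (by simp)
  · obtain ⟨u, hu⟩ := isUnit_toLoc.2 hα
    refine ⟨toLoc hp (X - C (C y)), ?_⟩
    rw [maximalIdeal_LocC, Ideal.submodule_span_eq]
    apply le_antisymm
    · rw [Ideal.span_le]
      rintro b (rfl | rfl)
      · rw [SetLike.mem_coe, Ideal.mem_span_singleton]
        refine ⟨- (((u⁻¹ : (LocC f x y hp)ˣ) : LocC f x y hp) * toLoc hp β), ?_⟩
        rw [← hu] at h0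
        have h2 : ((u⁻¹ : (LocC f x y hp)ˣ) : LocC f x y hp) * u = 1 := u.inv_mul
        linear_combination ((u⁻¹ : (LocC f x y hp)ˣ) : LocC f x y hp) * h0 - toLoc hp (C (X - C x)) * h2
      · exact Ideal.mem_span_singleton_self _
    · exact Ideal.span_mono (by simp)

lemma isPrincipalIdealRing_LocC (hf : Prime f) (hp : evalEval x y f = 0)
    (hsm : f ∉ (Ideal.span {C (X - C x), X - C (C y)} : Ideal ℂ[X][X]) ^ 2) :
    IsPrincipalIdealRing (LocC f x y hp) := by
  have := isDomain_LocC hf hp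
  have hN : IsNoetherianRing (LocC f x y hp) :=
    IsLocalization.isNoetherianRing (ptC f x y hp).primeCompl _ inferInstance
  exact ((tfae_of_isNoetherianRing_of_isLocalRing_of_isDomain (LocC f x y hp)).out 0 4).2
    (maximalIdeal_principal hp hsm)

/-- **Normality** of the coordinate ring of a smooth plane curve. -/
theorem sqrt_dvd (f : ℂ[X][X]) (hf : Prime f)
    (hsm : ∀ x y : ℂ, evalEval x y f = 0 →
      f ∉ (Ideal.span {C (X - C x), X - C (C y)} : Ideal ℂ[X][X]) ^ 2)
    (a b c : ℂ[X][X]) (hb : ¬ f ∣ b) (h : f ∣ a ^ 2 - b ^ 2 * c) : ∃ d, f ∣ a - b * d := by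
  let I : Ideal ℂ[X][X] :=
    { carrier := {s | ∃ d, f ∣ s * a - b * d}
      add_mem' := by
        rintro s s' ⟨d, hd⟩ ⟨d', hd'⟩
        exact ⟨d + d', by
          have := dvd_add hd hd'
          refine this.trans (dvd_of_eq ?_)
          ring⟩
      zero_mem' := ⟨0, by simp⟩
      smul_mem' := by
        rintro r s ⟨d, hd⟩
        exact ⟨r * d, by
          refine (hd.mul_left r).trans (dvd_of_eq ?_)
          simp only [smul_eq_mul]
          ring⟩ }
  have hI : I = ⊤ := by
    by_contra hne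
    obtain ⟨x, y, hxy⟩ := exists_common_point I hne
    have hp : evalEval x y f = 0 := hxy f ⟨0, by simp⟩
    have hd := isDomain_LocC hf hp
    have hP := isPrincipalIdealRing_LocC hf hp (hsm x y hp)
    have h1 : toLoc hp a ^ 2 = toLoc hp b ^ 2 * toLoc hp c := by
      rw [← sub_eq_zero, ← map_pow, ← map_pow, ← map_mul, ← map_sub, toLoc_eq_zero hf]
      exact h
    have hb0 : toLoc hp b ≠ 0 := fun h2 => hb ((toLoc_eq_zero hf).1 h2)
    have h2 : toLoc hp b ∣ toLoc hp a := by
      have h3 : toLoc hp b ^ 2 ∣ toLoc hp a ^ 2 := ⟨_, h1⟩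
      exact (UniqueFactorizationMonoid.pow_dvd_pow_iff_dvd two_ne_zero).1 h3
    obtain ⟨q, hq⟩ := h2
    obtain ⟨⟨d, s⟩, hds⟩ := IsLocalization.surj (ptC f x y hp).primeCompl q
    obtain ⟨d, rfl⟩ := mkC_surjective f d
    obtain ⟨s', hs'⟩ := mkC_surjective f s
    have h4 : toLoc hp (s' * a - b * d) = 0 := by
      have h5 : toLoc hp s' = algebraMap (CR f) (LocC f x y hp) s := by
        rw [toLoc, RingHom.comp_apply, hs']
      have h6 : toLoc hp d = algebraMap (CR f) (LocC f x y hp) (mkC f d) := rfl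
      rw [map_sub, map_mul, map_mul, hq, h5, h6, ← hds]
      ring
    have h7 : s' ∈ I := ⟨d, (toLoc_eq_zero hf).1 h4⟩
    have h8 := hxy s' h7
    apply s.2
    rw [← hs']
    exact h8
  have h1 : (1 : ℂ[X][X]) ∈ I := by rw [hI]; trivial
  obtain ⟨d, hd⟩ := h1
  exact ⟨d, by rwa [one_mul] at hd⟩

end Local

end Vale.Agent.P287.Theta
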