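import Vale.Agent.P287.Theta.Dehom

/-!
Dehomogenisation of irreducible ternary forms.
-/

namespace Vale.Agent.P287.Theta

open Polynomial Vale.Agent.P287

lemma TD_natDegree (p : ℂ[X][X]) : TD (Th p).natDegree p := le_rfl

lemma top_natDegree {p : ℂ[X][X]} (hp : p ≠ 0) : top (Th p).natDegree p ≠ 0 := by
  rw [top, coeff_natDegree, Ne, leadingCoeff_eq_zero, map_eq_zero_iff _ Th_injective]
  exact hp

lemma dh_dvd {P Q : R3} (h : P ∣ Q) : dh P ∣ dh Q := by
  obtain ⟨c, rfl⟩ := h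
  exact ⟨dh c, map_mul dh P c⟩

/-- Divisibility after dehomogenisation. -/
lemma dvd_of_dh_dvd {P Q : R3} {m n : ℕ} (hP : P.IsHomogeneous m) (hQ : Q.IsHomogeneous n)
    (h : dh P ∣ dh Q) : ∃ k, P ∣ MvPolynomial.X 0 ^ k * Q := by
  by_cases hQ0 : Q = 0
  · exact ⟨0, by rw [hQ0, mul_zero]; exact dvd_zero _⟩
  have hdQ : dh Q ≠ 0 := fun h0 => hQ0 (dh_eq_zero hQ h0)
  obtain ⟨c, hc⟩ := h
  have hdP : dh P ≠ 0 := by
    intro h0
    rw [h0, zero_mul] at hc
    exact hdQ hc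
  have hc0 : c ≠ 0 := by
    rintro rfl
    rw [mul_zero] at hc
    exact hdQ hc
  have h1 : (Th (dh Q)).natDegree = (Th (dh P)).natDegree + (Th c).natDegree := by
    rw [hc, map_mul, natDegree_mul]
    · rwa [Ne, map_eq_zero_iff _ Th_injective]
    · rwa [Ne, map_eq_zero_iff _ Th_injective]
  have h2 : (Th (dh Q)).natDegree ≤ n := TD_dh hQ
  have h3 : (Th (dh P)).natDegree ≤ m := TD_dh hP
  set a := (Th (dh P)).natDegree with ha
  obtain ⟨D, hD, hDc⟩ := exists_homog (m := n - a) (p := c) (by rw [TD]; omega)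
  refine ⟨m - a, D, ?_⟩
  have h4 := (MvPolynomial.isHomogeneous_X_pow (R := ℂ) (0 : Fin 3) (m - a)).mul hQ
  have h5 := hP.mul hD
  rw [show m + (n - a) = m - a + n by omega] at h5
  refine dh_inj h4 h5 ?_
  rw [map_mul, map_mul, map_pow, dh_X0, one_pow, one_mul, hDc]
  exact hc

lemma not_dvd_X0 {P : R3} {m : ℕ} (hP : P.IsHomogeneous m) (hm : 2 ≤ m) (hi : Irreducible P) :
    ¬ P ∣ MvPolynomial.X 0 := by
  intro h
  obtain ⟨Q, hQ⟩ := h
  have hX : Irreducible (MvPolynomial.X 0 : R3) := (MvPolynomial.X_prime (i := 0)).irreducible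
  rcases hX.isUnit_or_isUnit hQ with h1 | h1
  · exact hi.not_isUnit h1
  · have h2 : (MvPolynomial.X 0 : R3).totalDegree = 1 := MvPolynomial.totalDegree_X 0
    have hQ0 : Q ≠ 0 := h1.ne_zero
    rw [hQ, MvPolynomial.totalDegree_mul_of_isDomain hi.ne_zero hQ0,
      hP.totalDegree hi.ne_zero] at h2
    omega

lemma not_X0_dvd {P : R3} {m : ℕ} (hP : P.IsHomogeneous m) (hm : 2 ≤ m) (hi : Irreducible P) :
    ¬ (MvPolynomial.X 0 : R3) ∣ P := by
  intro h
  have hX : Irreducible (MvPolynomial.X 0 : R3) := (MvPolynomial.X_prime (i := 0)).irreducible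
  exact not_dvd_X0 hP hm hi (hX.associated_of_dvd hi h).symm.dvd

lemma dvd_of_dh_dvd' {P Q : R3} {m n : ℕ} (hP : P.IsHomogeneous m) (hm : 2 ≤ m)
    (hi : Irreducible P) (hQ : Q.IsHomogeneous n) (h : dh P ∣ dh Q) : P ∣ Q := by
  obtain ⟨k, hk⟩ := dvd_of_dh_dvd hP hQ h
  rcases hi.prime.dvd_or_dvd hk with h1 | h1
  · exact absurd (hi.prime.dvd_of_dvd_pow h1) (not_dvd_X0 hP hm hi)
  · exact h1

lemma dh_ne_zero {P : R3} {m : ℕ} (hP : P.IsHomogeneous m) (h0 : P ≠ 0) : dh P ≠ 0 :=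
  fun h => h0 (dh_eq_zero hP h)

lemma exists_CC_of_isUnit {p : ℂ[X][X]} (hp : IsUnit p) : ∃ c : ℂ, p = C (C c) := by
  obtain ⟨r, hr, rfl⟩ := Polynomial.isUnit_iff.mp hp
  obtain ⟨c, hc, rfl⟩ := Polynomial.isUnit_iff.mp hr
  exact ⟨c, rfl⟩

lemma homog_C_mul_X0_pow (c : ℂ) (m : ℕ) :
    (MvPolynomial.C c * MvPolynomial.X 0 ^ m : R3).IsHomogeneous m := by
  have := (MvPolynomial.isHomogeneous_C (Fin 3) c).mul
    (MvPolynomial.isHomogeneous_X_pow (R := ℂ) (0 : Fin 3) m)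
  rwa [zero_add] at this

theorem prime_dh {P : R3} {m : ℕ} (hP : P.IsHomogeneous m) (hm : 2 ≤ m) (hi : Irreducible P) :
    Prime (dh P) := by
  refine ⟨dh_ne_zero hP hi.ne_zero, ?_, ?_⟩
  · intro hu
    obtain ⟨c, hc⟩ := exists_CC_of_isUnit hu
    have h1 : P = MvPolynomial.C c * MvPolynomial.X 0 ^ m := by
      refine dh_inj hP (homog_C_mul_X0_pow c m) ?_
      rw [map_mul, map_pow, dh_X0, one_pow, mul_one, dh_C, hc]
    have h2 : (MvPolynomial.X 0 : R3) ∣ MvPolynomial.C c * MvPolynomial.X 0 ^ m :=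
      (dvd_pow_self _ (by omega)).mul_left _
    exact not_X0_dvd hP hm hi (h1 ▸ h2)
  · intro a b hab
    obtain ⟨A, hA, hAa⟩ := exists_homog (TD_natDegree a)
    obtain ⟨B, hB, hBb⟩ := exists_homog (TD_natDegree b)
    have hab' : dh P ∣ dh (A * B) := by rw [map_mul, hAa, hBb]; exact hab
    rcases hi.prime.dvd_or_dvd (dvd_of_dh_dvd' hP hm hi (hA.mul hB) hab') with h1 | h1
    · left
      rw [← hAa]
      exact dh_dvd h1
    · right
      rw [← hBb]
      exact dh_dvd h1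

theorem natDegree_dh_ne {P : R3} {m : ℕ} (hP : P.IsHomogeneous m) (hm : 2 ≤ m)
    (hi : Irreducible P) : (dh P).natDegree ≠ 0 := by
  intro h0
  obtain ⟨p, hp⟩ := natDegree_eq_zero.mp h0
  have h1 : Prime p := by
    rw [← Polynomial.prime_C_iff, hp]
    exact prime_dh hP hm hi
  have h2 := IsAlgClosed.degree_eq_one_of_irreducible ℂ h1.irreducible
  have h3 : p = C (p.coeff 1) * X + C (p.coeff 0) :=
    eq_X_add_C_of_degree_le_one h2.le
  have h4 : P = MvPolynomial.X 0 ^ (m - 1) * (MvPolynomial.C (p.coeff 1) * MvPolynomial.X 1 +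
      MvPolynomial.C (p.coeff 0) * MvPolynomial.X 0) := by
    refine dh_inj hP ?_ ?_
    · have e1 := (MvPolynomial.isHomogeneous_C (Fin 3) (p.coeff 1)).mul
          (MvPolynomial.isHomogeneous_X ℂ (1 : Fin 3))
      have e2 := (MvPolynomial.isHomogeneous_C (Fin 3) (p.coeff 0)).mul
          (MvPolynomial.isHomogeneous_X ℂ (0 : Fin 3))
      have e3 := (MvPolynomial.isHomogeneous_X_pow (R := ℂ) (0 : Fin 3) (m - 1)).mul (e1.add e2)
      rwa [show m - 1 + (0 + 1) = m by omega] at e3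
    · rw [map_mul, map_pow, dh_X0, one_pow, one_mul, map_add, map_mul, map_mul, dh_X0, dh_X1,
        dh_C, dh_C, mul_one, ← hp]
      conv_lhs => rw [h3]
      rw [C_add, C_mul]
  refine not_X0_dvd hP hm hi ?_
  rw [h4]
  exact (dvd_pow_self _ (by omega)).mul_right _

end Vale.Agent.P287.Theta
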