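import Vale.Agent.P287.Theta.Family
import Vale.Agent.P287.Theta.Coord

/-!
The net of quadrics attached to an even nonvanishing theta characteristic, in homogeneous form.
-/

namespace Vale.Agent.P287.Theta

open Polynomial

/-- A symmetric matrix `M'` of linear forms with determinant `f`, together with its adjoint matrix
`A` and a section `b` with `b² = h A₀₀` on the curve. -/
structure HNet (f h : R3) (r : ℕ) (M' A : Matrix (Fin 6) (Fin 6) R3) (b : R3) (c0 : ℂ) :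
    Prop where
  hc0 : c0 ≠ 0
  sM' : M'.IsSymm
  sA : A.IsSymm
  dM' : ∀ i j, (M' i j).IsHomogeneous 1
  dA : ∀ i j, (A i j).IsHomogeneous 5
  db : b.IsHomogeneous (r + 4)
  hMA : M' * A = f • (1 : Matrix (Fin 6) (Fin 6) R3)
  hdet : M'.det = MvPolynomial.C c0 * f
  hb : f ∣ b ^ 2 - h * A 0 0
  hfb : ¬ f ∣ b
  rA : ∀ i j, f ∣ A 0 0 * A i j - A i 0 * A 0 j

lemma AtInfinity.coeff_six {f h : ℂ[X][X]} {d : ℕ} {z : Fin 6 → ℂ} {c6 : ℂ}
    (H : AtInfinity f h d z c6) : f.coeff 6 = C c6 := by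
  have h1 : (top 6 f).coeff 6 = c6 := by
    have h2 : (∏ k, (X - C (z k))).Monic := monic_prod_X_sub_C z Finset.univ
    have h3 : (∏ k, (X - C (z k))).natDegree = 6 := by
      rw [natDegree_prod _ _ fun k _ => X_sub_C_ne_zero _]
      simp
    rw [H.topf, coeff_C_mul]
    have h4 := h2.coeff_natDegree
    rw [h3] at h4
    rw [h4, mul_one]
  have h2 := coeff_Th f 6 6
  rw [if_pos le_rfl, Nat.sub_self] at h2
  have h3 : (f.coeff 6).coeff 0 = c6 := h2.symm.trans h1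
  by_cases h0 : f.coeff 6 = 0
  · rw [h0, coeff_zero] at h3
    exact absurd h3.symm H.hc
  · have h4 := (TD_iff 6 f).mp H.hf 6 h0
    rw [eq_C_of_natDegree_eq_zero (show (f.coeff 6).natDegree = 0 by omega), h3]

section chart

variable {f h : R3} {r : ℕ} {z : Fin 6 → ℂ} {c6 : ℂ}

lemma isHomogeneous_det {n m : ℕ} {X : Matrix (Fin n) (Fin n) R3}
    (hX : ∀ i j, (X i j).IsHomogeneous m) : X.det.IsHomogeneous (n * m) := by
  rw [Matrix.det_apply]
  refine MvPolynomial.IsHomogeneous.sum _ _ _ fun σ _ => ?_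
  have h1 : (∏ i, X (σ i) i).IsHomogeneous (n * m) := by
    have := MvPolynomial.IsHomogeneous.prod Finset.univ (fun i => X (σ i) i) (fun _ => m)
      (fun i _ => hX _ _)
    simpa using this
  rcases Int.units_eq_one_or (Equiv.Perm.sign σ) with h | h
  · rw [h, one_smul]
    exact h1
  · rw [h, Units.neg_smul, one_smul]
    exact h1.neg

theorem net_in_chart (hf : f.IsHomogeneous 6) (hfi : Irreducible f) (hs : SmoothTernary f)
    (hh : h.IsHomogeneous (2 * r + 3)) (hr : 1 ≤ r) (hfh : ¬ f ∣ h)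
    (H : AtInfinity (dh f) (dh h) (2 * r + 3) z c6)
    (hev : ∀ x y : ℂ, evalEval x y (dh f) = 0 →
      ∃ u ε : ℂ[X][X], evalEval x y u ≠ 0 ∧ dh f ∣ u * dh h - ε ^ 2)
    (hne : ∀ B : R3, B.IsHomogeneous (r + 3) → B ^ 2 ∈ Ideal.span {h, f} → f ∣ B) :
    ∃ (M' A : Matrix (Fin 6) (Fin 6) R3) (b : R3) (c0 : ℂ), HNet f h r M' A b c0 := by
  have hpf : Prime (dh f) := prime_dh hf (by norm_num) hfi
  have hpfh : ¬ dh f ∣ dh h := fun h1 => hfh (dvd_of_dh_dvd' hf (by norm_num) hfi hh h1)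
  obtain ⟨ι, γ, u, hγ, hu⟩ := exists_family hpf hpfh (fun x y => smooth_dh hf hs x y) hev
  obtain ⟨β, hβW, hβn, hβγ, hβi⟩ := exists_sections (dh f) (dh h) hpf
    ((TD_iff 6 _).mp H.hf) ⟨c6, H.hc, H.coeff_six⟩ (2 * r + 3) ((TD_iff _ _).mp H.hh) hpfh γ u hγ
    (fun x y hx _ => hu x y hx) (r + 4) 6 (by omega) (by omega)
  have hβT : ∀ i, TD (r + 4) (β i) := fun i => (TD_iff _ _).mpr (hβW i)
  have hmul : ∀ i j, ∃ a, dh f ∣ β i * β j - dh h * a := fun i j =>
    mul_sections hpf hpfh hγ hu (hβγ i) (hβγ j)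
  choose a ha using hmul
  have S : Sections (dh f) (dh h) (r + 3) β := by
    refine ⟨hβT, fun i j => ⟨a i j, ha i j⟩, hβi, ?_⟩
    intro c q hq
    set Sg := ∑ i, C (C (c i)) * β i with hSg
    set σ := Sg - dh f * q with hσ
    obtain ⟨B, hB, hBσ⟩ := exists_homog hq
    have h1 : dh f ∣ Sg ^ 2 - dh h * (∑ i, ∑ j, C (C (c i)) * C (C (c j)) * a i j) := by
      have : Sg ^ 2 - dh h * (∑ i, ∑ j, C (C (c i)) * C (C (c j)) * a i j) =
          ∑ i, ∑ j, C (C (c i)) * C (C (c j)) * (β i * β j - dh h * a i j) := by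
        rw [sq, hSg, Finset.sum_mul_sum, Finset.mul_sum, ← Finset.sum_sub_distrib]
        refine Finset.sum_congr rfl fun i _ => ?_
        rw [Finset.mul_sum, ← Finset.sum_sub_distrib]
        refine Finset.sum_congr rfl fun j _ => ?_
        ring
      rw [this]
      exact Finset.dvd_sum fun i _ => Finset.dvd_sum fun j _ => (ha i j).mul_left _
    have h2 : dh f ∣ σ ^ 2 - dh h * (∑ i, ∑ j, C (C (c i)) * C (C (c j)) * a i j) := by
      have : σ ^ 2 - dh h * (∑ i, ∑ j, C (C (c i)) * C (C (c j)) * a i j) =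
          (Sg ^ 2 - dh h * (∑ i, ∑ j, C (C (c i)) * C (C (c j)) * a i j)) +
            dh f * (q * (dh f * q - 2 * Sg)) := by
        rw [hσ]
        ring
      rw [this]
      exact dvd_add h1 (Dvd.intro _ rfl)
    have h3 : TD (2 * r + 3 + 3) (σ ^ 2) := by
      have := TD.pow hq 2
      rwa [show 2 * (r + 3) = 2 * r + 3 + 3 by ring] at this
    obtain ⟨a', ha', ha'2⟩ := H.reduce' (by omega) h3 _ _ le_rfl h2
    obtain ⟨A', hA', hA'2⟩ := exists_homog ha'
    have h4 : dh f ∣ dh (B ^ 2 - h * A') := by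
      rw [map_sub, map_pow, map_mul, hBσ, hA'2]
      exact ha'2
    have h5 : (B ^ 2 - h * A').IsHomogeneous (2 * r + 6) := by
      have e1 := hB.pow 2
      have e2 := hh.mul hA'
      rw [show (r + 3) * 2 = 2 * r + 6 by ring] at e1
      exact e1.sub e2
    have h6 := dvd_of_dh_dvd' hf (by norm_num) hfi h5 h4
    obtain ⟨w, hw⟩ := h6
    have h7 := hne B hB (Ideal.mem_span_pair.mpr ⟨A', w, by linear_combination -hw⟩)
    have h8 := dh_dvd h7
    rw [hBσ] at h8
    have h9 := dvd_add h8 (Dvd.intro q rfl : dh f ∣ dh f * q)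
    rwa [hσ, sub_add_cancel] at h9
  obtain ⟨A, M', c0, hc0, hAs, hMs, hM1, hA5, hMA, hdet, hAβ, hr1⟩ :=
    exists_net hpf H hpfh (by ring) S
  choose 𝔸 h𝔸 h𝔸A using fun i j => exists_homog (hA5 i j)
  choose 𝕄 h𝕄 h𝕄M using fun i j => exists_homog (hM1 i j)
  obtain ⟨b, hb, hbβ⟩ := exists_homog (hβT 0)
  refine ⟨Matrix.of 𝕄, Matrix.of 𝔸, b, c0, hc0, ?_, ?_, h𝕄, h𝔸, hb, ?_, ?_, ?_, ?_, ?_⟩
  · refine Matrix.IsSymm.ext fun i j => ?_
    refine dh_inj (h𝕄 _ _) (h𝕄 _ _) ?_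
    exact (h𝕄M j i).trans ((hMs.apply i j).trans (h𝕄M i j).symm)
  · refine Matrix.IsSymm.ext fun i j => ?_
    refine dh_inj (h𝔸 _ _) (h𝔸 _ _) ?_
    exact (h𝔸A j i).trans ((hAs.apply i j).trans (h𝔸A i j).symm)
  · refine Matrix.ext fun i j => ?_
    refine dh_inj (m := 6) ?_ ?_ ?_
    · rw [Matrix.mul_apply]
      exact MvPolynomial.IsHomogeneous.sum _ _ _ fun k _ => by
        have := (h𝕄 i k).mul (h𝔸 k j)
        exact this
    · rw [Matrix.smul_apply, smul_eq_mul]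
      by_cases hij : i = j
      · subst hij
        rw [Matrix.one_apply_eq, mul_one]
        exact hf
      · rw [Matrix.one_apply_ne hij, mul_zero]
        exact MvPolynomial.isHomogeneous_zero _ _ _
    · have h1 := congrFun (congrFun hMA i) j
      rw [Matrix.mul_apply] at h1
      rw [Matrix.mul_apply, map_sum]
      simp only [Matrix.of_apply, map_mul, h𝕄M, h𝔸A]
      rw [h1, Matrix.smul_apply, Matrix.smul_apply, smul_eq_mul, smul_eq_mul, map_mul]
      by_cases hij : i = j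
      · subst hij
        rw [Matrix.one_apply_eq, Matrix.one_apply_eq, map_one]
      · rw [Matrix.one_apply_ne hij, Matrix.one_apply_ne hij, map_zero]
  · refine dh_inj (m := 6) ?_ ?_ ?_
    · have := isHomogeneous_det (X := Matrix.of 𝕄) h𝕄
      exact this
    · have := (MvPolynomial.isHomogeneous_C (Fin 3) c0).mul hf
      rwa [zero_add] at this
    · have h6 : dh.mapMatrix (Matrix.of 𝕄) = M' := by
        ext i j : 1
        exact h𝕄M i j
      rw [map_mul, dh_C, ← hdet, AlgHom.map_det, h6]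
  · have h5 : (b ^ 2 - h * 𝔸 0 0).IsHomogeneous (2 * r + 8) := by
      have e1 := hb.pow 2
      have e2 := hh.mul (h𝔸 0 0)
      rw [show (r + 4) * 2 = 2 * r + 8 by ring] at e1
      exact e1.sub e2
    refine dvd_of_dh_dvd' hf (by norm_num) hfi h5 ?_
    have h6 : dh (b ^ 2 - h * 𝔸 0 0) = β 0 * β 0 - dh h * A 0 0 := by
      rw [map_sub, map_pow, map_mul, hbβ, h𝔸A, sq]
    exact (hAβ 0 0).trans (dvd_of_eq h6.symm)
  · intro h1
    have h2 := dh_dvd h1
    rw [hbβ] at h2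
    have h3 := hβi (Pi.single 0 1) (by
      rw [Finset.sum_eq_single 0]
      · exact h2.mul_left _
      · intro j _ hj
        rw [Pi.single_eq_of_ne hj, C_0, C_0, zero_mul]
      · intro h; exact absurd (Finset.mem_univ _) h)
    have := congrFun h3 0
    simp at this
  · intro i j
    have h5 : (𝔸 0 0 * 𝔸 i j - 𝔸 i 0 * 𝔸 0 j).IsHomogeneous 10 :=
      ((h𝔸 0 0).mul (h𝔸 i j)).sub ((h𝔸 i 0).mul (h𝔸 0 j))
    refine dvd_of_dh_dvd' hf (by norm_num) hfi h5 ?_
    have h6 : dh (𝔸 0 0 * 𝔸 i j - 𝔸 i 0 * 𝔸 0 j) = A 0 0 * A i j - A 0 j * A i 0 := by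
      rw [map_sub, map_mul, map_mul, h𝔸A, h𝔸A, h𝔸A, h𝔸A, mul_comm (A i 0)]
    exact (hr1 0 0 i j).trans (dvd_of_eq h6.symm)

end chart

end Vale.Agent.P287.Theta
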