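import Vale.Agent.P287.Theta.HNet

/-!
The net of quadrics, independently of the coordinates.
-/

namespace Vale.Agent.P287.Theta

open Polynomial

section

variable {f h : R3} {r : ℕ} {T S : Matrix (Fin 3) (Fin 3) ℂ}
  {M' A : Matrix (Fin 6) (Fin 6) R3} {b : R3} {c0 : ℂ}

lemma HNet.sb (H : HNet (sb T f) (sb T h) r M' A b c0) (hTS : T * S = 1) :
    HNet f h r (M'.map (sb S)) (A.map (sb S)) (sb S b) c0 := by
  have hf : ∀ P, Theta.sb S (Theta.sb T P) = P := sb_inv hTS
  refine ⟨H.hc0, ?_, ?_, ?_, ?_, sb_homog S H.db, ?_, ?_, ?_, ?_, ?_⟩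
  · rw [Matrix.IsSymm, ← Matrix.transpose_map, H.sM'.eq]
  · rw [Matrix.IsSymm, ← Matrix.transpose_map, H.sA.eq]
  · exact fun i j => sb_homog S (H.dM' i j)
  · exact fun i j => sb_homog S (H.dA i j)
  · have h1 : (M' * A).map (Theta.sb S) =
        (Theta.sb T f • (1 : Matrix (Fin 6) (Fin 6) R3)).map (Theta.sb S) := by rw [H.hMA]
    rw [Matrix.map_mul] at h1
    rw [h1]
    refine Matrix.ext fun i j => ?_
    rw [Matrix.map_apply, Matrix.smul_apply, Matrix.smul_apply, smul_eq_mul, smul_eq_mul, map_mul,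
      hf]
    by_cases hij : i = j
    · subst hij
      rw [Matrix.one_apply_eq, map_one]
    · rw [Matrix.one_apply_ne hij, map_zero]
  · have h1 := congrArg (Theta.sb S) H.hdet
    rw [AlgHom.map_det, map_mul, hf, ← MvPolynomial.algebraMap_eq, AlgHom.commutes] at h1
    exact h1
  · have h1 := map_dvd (Theta.sb S) H.hb
    rwa [hf, map_sub, map_pow, map_mul, hf] at h1
  · intro h1
    have h2 := map_dvd (Theta.sb T) h1
    rw [sb_inv (mul_eq_one_comm.mp hTS)] at h2
    exact H.hfb h2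
  · intro i j
    have h1 := map_dvd (Theta.sb S) (H.rA i j)
    rwa [hf, map_sub, map_mul, map_mul] at h1

/-- The net of quadrics, from good coordinates. -/
theorem exists_hnet (hf : f.IsHomogeneous 6) (hfi : Irreducible f) (hs : SmoothTernary f)
    (hh : h.IsHomogeneous (2 * r + 3)) (hr : 1 ≤ r) (hfh : ¬ f ∣ h)
    (hTS : T * S = 1) {z : Fin 6 → ℂ} {c6 : ℂ}
    (H : AtInfinity (dh (sb T f)) (dh (sb T h)) (2 * r + 3) z c6)
    (hev : ∀ x y : ℂ, evalEval x y (dh (sb T f)) = 0 →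
      ∃ u ε : ℂ[X][X], evalEval x y u ≠ 0 ∧ dh (sb T f) ∣ u * dh (sb T h) - ε ^ 2)
    (hne : ∀ B : R3, B.IsHomogeneous (r + 3) → B ^ 2 ∈ Ideal.span {h, f} → f ∣ B) :
    ∃ (M' A : Matrix (Fin 6) (Fin 6) R3) (b : R3) (c0 : ℂ), HNet f h r M' A b c0 := by
  obtain ⟨M', A, b, c0, hN⟩ := net_in_chart (f := sb T f) (h := sb T h) (r := r) (sb_homog T hf)
    (sb_irreducible hTS hfi) (sb_smooth hTS hs) (sb_homog T hh) hr
    (fun h1 => hfh ((sb_dvd_iff hTS).mp h1)) H hev (by
      intro B hB hB2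
      obtain ⟨a, b, hab⟩ := Ideal.mem_span_pair.mp hB2
      have h1 := hne (sb S B) (sb_homog S hB) (Ideal.mem_span_pair.mpr ⟨sb S a, sb S b, by
        have := congrArg (sb S) hab
        rw [map_add, map_mul, map_mul, sb_inv hTS, sb_inv hTS, map_pow] at this
        exact this⟩)
      have h2 := map_dvd (sb T) h1
      rwa [sb_inv (mul_eq_one_comm.mp hTS)] at h2)
  exact ⟨_, _, _, _, hN.sb hTS⟩

end

end Vale.Agent.P287.Theta
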