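import Mathlib

/-!
A Hermite inequality for anisotropic symmetric matrices over `F(X)`: there is a nonzero
(unimodular) polynomial vector `u` with `n · deg (uᵀ G u) ≤ deg (det G)`.
-/

namespace Vale.Agent.P287.Theta

open Polynomial Matrix

variable {F : Type*} [Field F] {K : Type*} [Field K] [Algebra F[X] K] [IsFractionRing F[X] K]

section deg

variable (F)

/-- The degree of an element of `K = F(X)`. -/
noncomputable def kdeg (x : K) : ℤ :=
  RatFunc.intDegree (IsLocalization.algEquiv (nonZeroDivisors F[X]) K (RatFunc F) x)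

lemma kdeg_mul {x y : K} (hx : x ≠ 0) (hy : y ≠ 0) : kdeg F (x * y) = kdeg F x + kdeg F y := by
  rw [kdeg, map_mul, RatFunc.intDegree_mul (by simpa using hx) (by simpa using hy)]
  rfl

lemma kdeg_add_le {x y : K} (hy : y ≠ 0) (hxy : x + y ≠ 0) :
    kdeg F (x + y) ≤ max (kdeg F x) (kdeg F y) := by
  have h := (map_ne_zero_iff _
    (IsLocalization.algEquiv (nonZeroDivisors F[X]) K (RatFunc F)).injective).mpr hxy
  rw [map_add] at h
  rw [kdeg, map_add]
  exact RatFunc.intDegree_add_le (by simpa using hy) h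

lemma kdeg_algebraMap (p : F[X]) : kdeg F (algebraMap F[X] K p) = p.natDegree := by
  rw [kdeg, AlgEquiv.commutes, RatFunc.intDegree_polynomial]

lemma kdeg_eq_zero_of_isUnit {p : F[X]} (hp : IsUnit p) : kdeg F (algebraMap F[X] K p) = 0 := by
  rw [kdeg_algebraMap, natDegree_eq_zero_of_isUnit hp]
  rfl

lemma exists_int_part (r : K) :
    ∃ c : F[X], r + algebraMap F[X] K c = 0 ∨ kdeg F (r + algebraMap F[X] K c) < 0 := by
  obtain ⟨p, q, hq, rfl⟩ := IsFractionRing.div_surjective (A := F[X]) r
  have hq0 : q ≠ 0 := nonZeroDivisors.ne_zero hq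
  have hq1 : algebraMap F[X] K q ≠ 0 := by
    rw [Ne, map_eq_zero_iff _ (IsFractionRing.injective F[X] K)]
    exact hq0
  refine ⟨-(p / q), ?_⟩
  have h1 : algebraMap F[X] K p / algebraMap F[X] K q + algebraMap F[X] K (-(p / q)) =
      algebraMap F[X] K (p % q) / algebraMap F[X] K q := by
    have h2 := EuclideanDomain.div_add_mod p q
    field_simp
    rw [← map_mul, ← map_add]
    congr 1
    linear_combination -h2
  rw [h1]
  by_cases h0 : p % q = 0
  · left
    rw [h0, map_zero, zero_div]
  · right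
    have h2 : algebraMap F[X] K (p % q) ≠ 0 := by
      rw [Ne, map_eq_zero_iff _ (IsFractionRing.injective F[X] K)]
      exact h0
    have h3 : kdeg F (algebraMap F[X] K (p % q)) =
        kdeg F (algebraMap F[X] K (p % q) / algebraMap F[X] K q) +
          kdeg F (algebraMap F[X] K q) := by
      rw [← kdeg_mul F (div_ne_zero h2 hq1) hq1, div_mul_cancel₀ _ hq1]
    rw [kdeg_algebraMap, kdeg_algebraMap] at h3
    have h4 : (p % q).natDegree < q.natDegree := by
      have := EuclideanDomain.mod_lt p hq0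
      exact natDegree_lt_natDegree h0 this
    omega

end deg

/-- `xᵀ G x`. -/
def qv {R : Type*} [CommRing R] {n : ℕ} (G : Matrix (Fin n) (Fin n) R) (x : Fin n → R) : R :=
  x ⬝ᵥ G *ᵥ x

/-- The columns which can be completed to an invertible matrix. -/
def Prim {R : Type*} [CommRing R] {n : ℕ} (u : Fin (n + 1) → R) : Prop :=
  ∃ P : Matrix (Fin (n + 1)) (Fin (n + 1)) R, IsUnit P.det ∧ ∀ i, P i 0 = u i

lemma Prim.ne_zero {R : Type*} [CommRing R] [Nontrivial R] {n : ℕ} {u : Fin (n + 1) → R}
    (h : Prim u) : u ≠ 0 := by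
  rintro rfl
  obtain ⟨P, hP, h0⟩ := h
  rw [Matrix.det_eq_zero_of_column_eq_zero 0 (by simpa using h0)] at hP
  exact not_isUnit_zero hP

lemma Prim.mulVec {R : Type*} [CommRing R] {n : ℕ} {u : Fin (n + 1) → R} (h : Prim u)
    (P : Matrix (Fin (n + 1)) (Fin (n + 1)) R) (hP : IsUnit P.det) : Prim (P *ᵥ u) := by
  obtain ⟨Q, hQ, h0⟩ := h
  refine ⟨P * Q, by rw [Matrix.det_mul]; exact hP.mul hQ, fun i => ?_⟩
  rw [Matrix.mul_apply, Matrix.mulVec, dotProduct]
  exact Finset.sum_congr rfl fun j _ => by rw [h0]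

/-- The block matrix with blocks `1` and `Q`. -/
def blk {R : Type*} [CommRing R] {n : ℕ} (a : R) (r : Fin n → R) (Q : Matrix (Fin n) (Fin n) R) :
    Matrix (Fin (n + 1)) (Fin (n + 1)) R :=
  Matrix.of (Fin.cons (Fin.cons a r) fun i => Fin.cons 0 (Q i))

lemma det_blk {R : Type*} [CommRing R] {n : ℕ} (a : R) (r : Fin n → R)
    (Q : Matrix (Fin n) (Fin n) R) : (blk a r Q).det = a * Q.det := by
  rw [Matrix.det_succ_column_zero, Finset.sum_eq_single 0]
  · have : (blk a r Q).submatrix (Fin.succAbove 0) Fin.succ = Q := by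
      ext i j
      simp [blk]
    rw [this]
    simp [blk]
  · intro i _ hi
    obtain ⟨j, rfl⟩ := Fin.exists_succ_eq.mpr hi
    simp [blk]
  · simp

lemma Prim.cons {R : Type*} [CommRing R] {n : ℕ} {u : Fin (n + 1) → R} (h : Prim u) (c : R) :
    Prim (Fin.cons c u : Fin (n + 2) → R) := by
  obtain ⟨Q, hQ, h0⟩ := h
  refine ⟨(blk 1 0 Q * Matrix.transvection 0 1 c).submatrix id (Equiv.swap 0 1), ?_, ?_⟩
  · rw [Matrix.det_permute', Matrix.det_mul, det_blk,
      Matrix.det_transvection_of_ne _ _ (by simp), Equiv.Perm.sign_swap (by simp)]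
    simpa using hQ
  · intro i
    rw [Matrix.submatrix_apply, Equiv.swap_apply_left, id,
      Matrix.mul_transvection_apply_same]
    refine Fin.cases ?_ (fun j => ?_) i
    · simp [blk]
    · simp only [blk, Matrix.of_apply, Fin.cons_succ, Fin.cons_zero, mul_zero, add_zero]
      rw [← h0]
      rfl

/-- The Schur complement of the upper left entry. -/
def schur {n : ℕ} (G : Matrix (Fin (n + 1)) (Fin (n + 1)) K) : Matrix (Fin n) (Fin n) K :=
  fun i j => G i.succ j.succ - G i.succ 0 * G 0 j.succ / G 0 0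

lemma qv_cons {n : ℕ} (G : Matrix (Fin (n + 1)) (Fin (n + 1)) K) (hG : G.IsSymm)
    (ha : G 0 0 ≠ 0) (x : K) (y : Fin n → K) :
    qv G (Fin.cons x y : Fin (n + 1) → K) =
      qv (schur G) y + G 0 0 * (x + (∑ j, G 0 j.succ * y j) / G 0 0) ^ 2 := by
  have hs : ∀ i : Fin n, G i.succ 0 = G 0 i.succ := fun i => hG.apply _ _
  have h1 : qv G (Fin.cons x y : Fin (n + 1) → K) =
      x * (G 0 0 * x + ∑ j, G 0 j.succ * y j) +
        ∑ i, y i * (G 0 i.succ * x + ∑ j, G i.succ j.succ * y j) := by
    simp only [qv, dotProduct, Matrix.mulVec, Fin.sum_univ_succ, Fin.cons_zero, Fin.cons_succ, hs]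
  have h2 : qv (schur G) y = (∑ i, y i * ∑ j, G i.succ j.succ * y j) -
      (∑ j, G 0 j.succ * y j) * (∑ j, G 0 j.succ * y j) / G 0 0 := by
    simp only [qv, dotProduct, Matrix.mulVec, schur, sub_mul, Finset.sum_sub_distrib, mul_sub, hs]
    congr 1
    rw [Finset.sum_mul_sum, Finset.sum_div]
    refine Finset.sum_congr rfl fun i _ => ?_
    rw [Finset.mul_sum, Finset.sum_div]
    refine Finset.sum_congr rfl fun j _ => ?_
    ring
  have h3 : ∑ i, y i * (G 0 i.succ * x + ∑ j, G i.succ j.succ * y j) =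
      x * (∑ j, G 0 j.succ * y j) + ∑ i, y i * ∑ j, G i.succ j.succ * y j := by
    rw [Finset.mul_sum, ← Finset.sum_add_distrib]
    refine Finset.sum_congr rfl fun i _ => ?_
    ring
  rw [h1, h2, h3]
  field_simp
  ring

lemma det_schur {n : ℕ} (G : Matrix (Fin (n + 1)) (Fin (n + 1)) K) (ha : G 0 0 ≠ 0) :
    G.det = G 0 0 * (schur G).det := by
  have h1 : G * blk 1 (fun j => -(G 0 j.succ / G 0 0)) 1 =
      (blk (G 0 0) (fun i => G i.succ 0) (schur G)ᵀ)ᵀ := by
    ext i j
    rw [Matrix.mul_apply, Fin.sum_univ_succ]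
    refine Fin.cases ?_ (fun i => ?_) i <;> refine Fin.cases ?_ (fun j => ?_) j
    · simp [blk]
    · simp only [blk, Matrix.of_apply, Fin.cons_succ, Fin.cons_zero, Matrix.transpose_apply,
        Matrix.one_apply]
      simp
      field_simp
      ring
    · simp [blk]
    · simp only [blk, Matrix.of_apply, Fin.cons_succ, Fin.cons_zero, Matrix.transpose_apply,
        Matrix.one_apply, schur]
      simp
      ring
  have h2 := congrArg Matrix.det h1
  rw [Matrix.det_mul, det_blk, Matrix.det_one, Matrix.det_transpose, det_blk,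
    Matrix.det_transpose] at h2
  simpa using h2

variable (F) in
/-- The Hermite inequality. -/
theorem hermite {n : ℕ} (G : Matrix (Fin (n + 1)) (Fin (n + 1)) K) (hG : G.IsSymm)
    (han : ∀ x, qv G x = 0 → x = 0) :
    ∃ u : Fin (n + 1) → F[X], Prim u ∧
      ((n + 1 : ℕ) : ℤ) * kdeg F (qv G (fun i => algebraMap F[X] K (u i))) ≤ kdeg F G.det := by
  induction n with
  | zero =>
    refine ⟨fun _ => 1, ⟨1, by simp, fun i => by
      obtain rfl : i = 0 := Fin.fin_one_eq_zero i
      simp⟩, ?_⟩
    simp [qv, Matrix.det_unique, dotProduct, Matrix.mulVec]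
  | succ n ih =>
    classical
    set φ := algebraMap F[X] K with hφ
    have hφi : Function.Injective φ := IsFractionRing.injective F[X] K
    have hne : ∀ u : Fin (n + 2) → F[X], u ≠ 0 → qv G (fun i => φ (u i)) ≠ 0 := by
      intro u hu h
      apply hu
      have := han _ h
      funext i
      exact (map_eq_zero_iff φ hφi).mp (congrFun this i)
    -- minimal vector
    obtain ⟨D, hD⟩ := IsLocalization.exist_integer_multiples_of_finite (nonZeroDivisors F[X])
      (fun m : Fin (n + 2) × Fin (n + 2) => G m.1 m.2)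
    choose p hp using hD
    have hDne : φ (D : F[X]) ≠ 0 := by
      rw [Ne, map_eq_zero_iff φ hφi]
      exact nonZeroDivisors.ne_zero D.2
    have hbd : ∀ u : Fin (n + 2) → F[X], u ≠ 0 →
        -((D : F[X]).natDegree : ℤ) ≤ kdeg F (qv G (fun i => φ (u i))) := by
      intro u hu
      have h1 : φ (D : F[X]) * qv G (fun i => φ (u i)) =
          φ (∑ i, ∑ j, u i * (p (i, j) * u j)) := by
        simp only [qv, dotProduct, Matrix.mulVec, Finset.mul_sum, map_sum, map_mul]
        refine Finset.sum_congr rfl fun i _ => Finset.sum_congr rfl fun j _ => ?_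
        have := hp (i, j)
        rw [Algebra.smul_def] at this
        rw [← hφ] at this
        rw [this]
        ring
      have h2 := congrArg (kdeg F) h1
      rw [kdeg_mul F hDne (hne u hu), kdeg_algebraMap, kdeg_algebraMap] at h2
      omega
    obtain ⟨d, ⟨v, hv, hvd⟩, hmin⟩ := Int.exists_least_of_bdd
      (P := fun z => ∃ u : Fin (n + 2) → F[X], Prim u ∧ kdeg F (qv G (fun i => φ (u i))) = z)
      ⟨_, fun z hz => by
        obtain ⟨u, hu, rfl⟩ := hz
        exact hbd u hu.ne_zero⟩
      ⟨_, fun i => (1 : Matrix (Fin (n + 2)) (Fin (n + 2)) F[X]) i 0,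
        ⟨1, by simp, fun i => rfl⟩, rfl⟩
    have hvne := hne v hv.ne_zero
    obtain ⟨P, hP, hPv⟩ := hv
    set G1 := (P.map φ)ᵀ * G * P.map φ with hG1
    have hq1 : ∀ x : Fin (n + 2) → K, qv G1 x = qv G (P.map φ *ᵥ x) := by
      intro x
      rw [qv, qv, hG1, ← Matrix.mulVec_mulVec, ← Matrix.mulVec_mulVec,
        Matrix.dotProduct_mulVec x, Matrix.vecMul_transpose]
    have hG1s : G1.IsSymm := by
      rw [Matrix.IsSymm, hG1, Matrix.transpose_mul, Matrix.transpose_mul,
        Matrix.transpose_transpose, hG.eq, Matrix.mul_assoc]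
    have ha : G1 0 0 = qv G (fun i => φ (v i)) := by
      have h1 : qv G1 (Pi.single 0 1) = G1 0 0 := by
        simp [qv]
      rw [← h1, hq1]
      congr 1
      funext i
      simp [hPv]
    have ha0 : G1 0 0 ≠ 0 := by rw [ha]; exact hvne
    have hPdet : (P.map φ).det = φ P.det := by
      rw [RingHom.map_det]
      rfl
    have hPu : IsUnit (P.map φ).det := by
      rw [hPdet]; exact hP.map φ
    have hGdet0 : G.det ≠ 0 := by
      intro h0
      obtain ⟨x, hx, hx0⟩ := Matrix.exists_mulVec_eq_zero_iff.mpr h0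
      exact hx (han x (by rw [qv, hx0, dotProduct_zero]))
    have hdet1 : kdeg F G1.det = kdeg F G.det := by
      have h1 : G1.det = φ (P.det * P.det) * G.det := by
        rw [hG1, Matrix.det_mul, Matrix.det_mul, Matrix.det_transpose, hPdet, map_mul]
        ring
      rw [h1, kdeg_mul F _ hGdet0, kdeg_eq_zero_of_isUnit F (hP.mul hP), zero_add]
      rw [map_mul]
      exact mul_ne_zero (hP.map φ).ne_zero (hP.map φ).ne_zero
    have han1 : ∀ x, qv G1 x = 0 → x = 0 := by
      intro x hx
      rw [hq1] at hx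
      have := han _ hx
      exact Matrix.eq_zero_of_mulVec_eq_zero hPu.ne_zero this
    have hGsym : (schur G1).IsSymm := by
      ext i j
      rw [Matrix.transpose_apply, schur, schur, hG1s.apply i.succ j.succ, hG1s.apply 0 j.succ,
        hG1s.apply 0 i.succ]
      ring
    have han' : ∀ y, qv (schur G1) y = 0 → y = 0 := by
      intro y hy
      have h1 := qv_cons G1 hG1s ha0 (-((∑ j, G1 0 j.succ * y j) / G1 0 0)) y
      rw [hy, neg_add_cancel] at h1
      have h2 := han1 _ (by rw [h1]; ring)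
      funext i
      have := congrFun h2 i.succ
      simpa using this
    obtain ⟨u', hu', hu'le⟩ := ih (schur G1) hGsym han'
    have hu'ne : qv (schur G1) (fun i => φ (u' i)) ≠ 0 := by
      intro h
      apply hu'.ne_zero
      funext i
      exact (map_eq_zero_iff φ hφi).mp (congrFun (han' _ h) i)
    obtain ⟨c, hc⟩ := exists_int_part (F := F) ((∑ j, G1 0 j.succ * φ (u' j)) / G1 0 0)
    have hPrim := (hu'.cons c).mulVec P hP
    have hval : qv G (fun i => φ ((P *ᵥ (Fin.cons c u' : Fin (n + 2) → F[X])) i)) =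
        qv (schur G1) (fun i => φ (u' i)) +
          G1 0 0 * (φ c + (∑ j, G1 0 j.succ * φ (u' j)) / G1 0 0) ^ 2 := by
      rw [← qv_cons G1 hG1s ha0, hq1]
      congr 1
      funext i
      rw [Matrix.mulVec, dotProduct, map_sum, Matrix.mulVec, dotProduct]
      refine Finset.sum_congr rfl fun j _ => ?_
      rw [map_mul]
      congr 1
      refine Fin.cases ?_ (fun j => ?_) j <;> simp
    have hle := hmin _ ⟨_, hPrim, rfl⟩
    have hd' : kdeg F (G1 0 0) = d := by rw [ha, hvd]
    have hmain : d ≤ kdeg F (qv (schur G1) (fun i => φ (u' i))) := by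
      by_contra hlt
      push Not at hlt
      rcases hc with hc | hc
      · rw [hval, add_comm (φ c), hc] at hle
        rw [zero_pow two_ne_zero, mul_zero, add_zero] at hle
        omega
      · set r := φ c + (∑ j, G1 0 j.succ * φ (u' j)) / G1 0 0 with hr
        have hr' : kdeg F r < 0 := by rw [hr, add_comm]; exact hc
        by_cases hr0 : r = 0
        · rw [hval, hr0, zero_pow two_ne_zero, mul_zero, add_zero] at hle
          omega
        · have h1 : kdeg F (G1 0 0 * r ^ 2) < d := by
            rw [pow_two, kdeg_mul F ha0 (mul_ne_zero hr0 hr0), kdeg_mul F hr0 hr0]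
            omega
          have h2 : G1 0 0 * r ^ 2 ≠ 0 := mul_ne_zero ha0 (pow_ne_zero 2 hr0)
          have h3 := kdeg_add_le F (x := qv (schur G1) (fun i => φ (u' i))) h2 (by
            rw [← hval]
            exact hne _ hPrim.ne_zero)
          rw [hval] at hle
          have := (hle.trans h3)
          rcases le_max_iff.mp this with h | h <;> omega
    refine ⟨v, ⟨P, hP, hPv⟩, ?_⟩
    rw [hvd]
    have h5 : kdeg F G1.det = d + kdeg F (schur G1).det := by
      have hs0 : (schur G1).det ≠ 0 := by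
        intro h0
        obtain ⟨x, hx, hx0⟩ := Matrix.exists_mulVec_eq_zero_iff.mpr h0
        exact hx (han' x (by rw [qv, hx0, dotProduct_zero]))
      rw [det_schur G1 ha0, kdeg_mul F ha0 hs0, hd']
    rw [hdet1] at h5
    rw [h5]
    have h6 : ((n + 1 : ℕ) : ℤ) * d ≤
        ((n + 1 : ℕ) : ℤ) * kdeg F (qv (schur G1) (fun i => φ (u' i))) :=
      mul_le_mul_of_nonneg_left hmain (by positivity)
    push_cast at h6 hu'le ⊢
    linarith

end Vale.Agent.P287.Theta
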