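import Vale.Agent.P287.Theta.Witt
import Vale.Agent.P287.Theta.Hermite

/-!
A self-dual lattice over `F[X]` in an anisotropic space contains a vector whose norm is a nonzero
constant.
-/

namespace Vale.Agent.P287.Theta

open Module Polynomial Matrix

variable {F : Type*} [Field F] {K : Type*} [Field K] [Algebra F[X] K] [IsFractionRing F[X] K]
variable {V : Type*} [AddCommGroup V] [Module K V] [Module F[X] V]
  [IsScalarTower F[X] K V] [FiniteDimensional K V] {B : LinearMap.BilinForm K V}

omit [FiniteDimensional K V] in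
theorem SelfDual.exists_const {W : Submodule K V} {N : Submodule F[X] V} (hN : SelfDual B W N)
    (hB : ∀ u v, B u v = B v u) (han : ∀ x ∈ W, B x x = 0 → x = 0) (hW : W ≠ ⊥) :
    ∃ z ∈ N, ∃ a : F, a ≠ 0 ∧ B z z = algebraMap F[X] K (C a) := by
  classical
  have hinj : Function.Injective (algebraMap F[X] K) := IsFractionRing.injective F[X] K
  have : IsTorsionFree F[X] K := isTorsionFree_iff_algebraMap_injective.mpr hinj
  have : IsTorsionFree F[X] V := IsTorsionFree.trans_faithfulSMul F[X] K V
  have : Module.Finite F[X] N := Module.Finite.iff_fg.mpr hN.fg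
  have : Module.Free F[X] N := inferInstance
  let b := Module.finBasis F[X] N
  obtain ⟨n, hn⟩ : ∃ n, finrank F[X] N = n := ⟨_, rfl⟩
  have b : Basis (Fin n) F[X] N := hn ▸ Module.finBasis F[X] N
  let e : Fin n → V := fun i => (b i : V)
  have heN : ∀ i, e i ∈ N := fun i => (b i).2
  have hli : LinearIndependent F[X] e := by
    have := b.linearIndependent.map' N.subtype (Submodule.ker_subtype N)
    exact this
  have hliK : LinearIndependent K e := (LinearIndependent.iff_fractionRing F[X] K).mp hli
  have hNe : ∀ u ∈ N, ∃ c : Fin n → F[X], u = ∑ i, c i • e i := by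
    intro u hu
    refine ⟨fun i => b.repr ⟨u, hu⟩ i, ?_⟩
    have := congrArg N.subtype (b.sum_repr ⟨u, hu⟩)
    rw [map_sum] at this
    exact this.symm
  have hWe : ∀ w ∈ W, ∃ c : Fin n → K, w = ∑ i, c i • e i := by
    intro w hw
    obtain ⟨c, hc, hcw⟩ := hN.span w hw
    have hc' : algebraMap F[X] K c ≠ 0 := by rwa [Ne, map_eq_zero_iff _ hinj]
    obtain ⟨r, hr⟩ := hNe _ hcw
    refine ⟨fun i => (algebraMap F[X] K c)⁻¹ * algebraMap F[X] K (r i), ?_⟩
    have h1 : (algebraMap F[X] K c) • w = ∑ i, r i • e i := by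
      rw [algebraMap_smul, hr]
    have h2 : w = (algebraMap F[X] K c)⁻¹ • ∑ i, r i • e i := by
      rw [← h1, smul_smul, inv_mul_cancel₀ hc', one_smul]
    rw [h2, Finset.smul_sum]
    refine Finset.sum_congr rfl fun i _ => ?_
    rw [mul_smul, algebraMap_smul]
  let G : Matrix (Fin n) (Fin n) K := Matrix.of fun i j => B (e i) (e j)
  have hG : ∀ i j, G i j = B (e i) (e j) := fun i j => rfl
  have hGs : G.IsSymm := by
    ext i j
    rw [Matrix.transpose_apply, hG, hG, hB]
  have hq : ∀ x : Fin n → K, qv G x = B (∑ i, x i • e i) (∑ i, x i • e i) := by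
    intro x
    simp only [qv, dotProduct, Matrix.mulVec, map_sum, map_smul, LinearMap.sum_apply,
      LinearMap.smul_apply, smul_eq_mul, hG]
    refine Finset.sum_congr rfl fun i _ => ?_
    congr 1
    refine Finset.sum_congr rfl fun j _ => ?_
    rw [hB, mul_comm]
  have hWmem : ∀ x : Fin n → K, ∑ i, x i • e i ∈ W := fun x =>
    W.sum_mem fun i _ => W.smul_mem _ (hN.le _ (heN i))
  have hGan : ∀ x, qv G x = 0 → x = 0 := by
    intro x hx
    rw [hq] at hx
    have := han _ (hWmem x) hx
    funext i
    exact Fintype.linearIndependent_iff.mp hliK x this i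
  have hGdet : G.det ≠ 0 := by
    intro h0
    obtain ⟨x, hx, hx0⟩ := Matrix.exists_mulVec_eq_zero_iff.mpr h0
    exact hx (hGan x (by rw [qv, hx0, dotProduct_zero]))
  have hGu : IsUnit G.det := isUnit_iff_ne_zero.mpr hGdet
  -- entries
  have hGi : ∀ i j, ∃ g : F[X], algebraMap F[X] K g = G i j := fun i j =>
    hN.int _ (heN i) _ (heN j)
  choose g hg using hGi
  -- dual vectors
  have hdual : ∀ i j, ∃ r : F[X], algebraMap F[X] K r = G⁻¹ i j := by
    intro i
    have h1 : ∑ j, G⁻¹ i j • e j ∈ N := by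
      refine hN.dual _ (hWmem _) fun u hu => ?_
      obtain ⟨c, rfl⟩ := hNe u hu
      have h2 : ∀ k, B (∑ j, G⁻¹ i j • e j) (e k) = (1 : Matrix (Fin n) (Fin n) K) i k := by
        intro k
        rw [← Matrix.nonsing_inv_mul G hGu, Matrix.mul_apply]
        simp only [map_sum, map_smul, LinearMap.sum_apply, LinearMap.smul_apply, smul_eq_mul, hG]
      have h3 : B (∑ j, G⁻¹ i j • e j) (∑ k, c k • e k) = algebraMap F[X] K (c i) := by
        rw [map_sum, Finset.sum_eq_single i]
        · rw [← algebraMap_smul K, map_smul, h2, Matrix.one_apply_eq, smul_eq_mul, mul_one]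
        · intro k _ hk
          rw [← algebraMap_smul K, map_smul, h2, Matrix.one_apply_ne (Ne.symm hk), smul_zero]
        · simp
      exact ⟨c i, h3.symm⟩
    obtain ⟨c, hc⟩ := hNe _ h1
    intro j
    refine ⟨c j, ?_⟩
    have h4 : ∑ j, (G⁻¹ i j - algebraMap F[X] K (c j)) • e j = 0 := by
      simp only [sub_smul, Finset.sum_sub_distrib, algebraMap_smul]
      rw [hc, sub_self]
    have := Fintype.linearIndependent_iff.mp hliK _ h4 j
    rw [sub_eq_zero] at this
    exact this.symm
  choose r hr using hdual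
  have hgr : (Matrix.of g) * (Matrix.of r) = 1 := by
    apply Matrix.map_injective hinj
    change ((Matrix.of g) * (Matrix.of r)).map (algebraMap F[X] K) =
      (1 : Matrix (Fin n) (Fin n) F[X]).map (algebraMap F[X] K)
    rw [Matrix.map_mul, Matrix.map_one _ (map_zero _) (map_one _)]
    have e1 : (Matrix.of g).map (algebraMap F[X] K) = G := by
      ext i j
      exact hg i j
    have e2 : (Matrix.of r).map (algebraMap F[X] K) = G⁻¹ := by
      ext i j
      exact hr i j
    rw [e1, e2, Matrix.mul_nonsing_inv G hGu]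
  have hgu : IsUnit (Matrix.of g).det := by
    refine IsUnit.of_mul_eq_one (Matrix.of r).det ?_
    rw [← Matrix.det_mul, hgr, Matrix.det_one]
  have hdeg : kdeg F G.det = 0 := by
    have : G.det = algebraMap F[X] K (Matrix.of g).det := by
      rw [RingHom.map_det]
      congr 1
      ext i j
      exact (hg i j).symm
    rw [this, kdeg_eq_zero_of_isUnit F hgu]
  -- the dimension is positive
  obtain ⟨m, rfl⟩ : ∃ m, n = m + 1 := by
    rcases n with _ | m
    · exfalso
      apply hW
      rw [eq_bot_iff]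
      intro w hw
      obtain ⟨c, rfl⟩ := hWe w hw
      simp
    · exact ⟨m, rfl⟩
  obtain ⟨u, hu, hle⟩ := hermite F G hGs hGan
  rw [hdeg] at hle
  have hle' : kdeg F (qv G fun i => algebraMap F[X] K (u i)) ≤ 0 := by
    by_contra h
    push Not at h
    have : 0 < ((m + 1 : ℕ) : ℤ) * kdeg F (qv G fun i => algebraMap F[X] K (u i)) :=
      mul_pos (by positivity) h
    omega
  have hzN : ∑ i, u i • e i ∈ N := N.sum_mem fun i _ => N.smul_mem _ (heN i)
  obtain ⟨p, hp⟩ := hN.int _ hzN _ hzN
  have hz : B (∑ i, u i • e i) (∑ i, u i • e i) = qv G fun i => algebraMap F[X] K (u i) := by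
    rw [hq]
    simp only [algebraMap_smul]
  have hp0 : p ≠ 0 := by
    rintro rfl
    rw [map_zero, hz] at hp
    apply hu.ne_zero
    funext i
    exact (map_eq_zero_iff _ hinj).mp (congrFun (hGan _ hp.symm) i)
  have hpd : p.natDegree = 0 := by
    rw [← hz, ← hp, kdeg_algebraMap] at hle'
    omega
  obtain ⟨a, rfl⟩ := natDegree_eq_zero.mp hpd
  refine ⟨_, hzN, a, ?_, hp.symm⟩
  rintro rfl
  exact hp0 (map_zero C)

end Vale.Agent.P287.Theta
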