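import Vale.Agent.P287.Theta.QuadMap

/-!
Tsen's theorem for diagonal ternary quadratic forms over a finite extension of `k(x)`, `k`
algebraically closed.
-/

namespace Vale.Agent.P287.Theta

open Polynomial Module

variable {k : Type*} [Field k] [IsAlgClosed k]

/-- `∑_{a,i,j} u_ai v_aj p_aijl`. -/
noncomputable def trilin {e : ℕ} (p : Fin 3 → Fin e → Fin e → Fin e → k[X])
    (u v : Fin 3 → Fin e → k[X]) (l : Fin e) : k[X] :=
  ∑ a, ∑ i, ∑ j, u a i * v a j * p a i j l

omit [IsAlgClosed k] in
lemma trilin_degree {e : ℕ} (p : Fin 3 → Fin e → Fin e → Fin e → k[X]) {d L : ℕ}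
    (hp : ∀ a i j l, (p a i j l).natDegree ≤ d)
    {u v : Fin 3 → Fin e → k[X]} (hu : ∀ a i, u a i ∈ degreeLT k (L + 1))
    (hv : ∀ a i, v a i ∈ degreeLT k (L + 1)) (l : Fin e) :
    trilin p u v l ∈ degreeLT k (2 * L + d + 1) := by
  refine Submodule.sum_mem _ fun a _ => Submodule.sum_mem _ fun i _ =>
    Submodule.sum_mem _ fun j _ => ?_
  rw [mem_degreeLT]
  by_cases h0 : u a i * v a j * p a i j l = 0
  · rw [h0, degree_zero]
    exact WithBot.bot_lt_coe _
  rw [← natDegree_lt_iff_degree_lt h0]
  have h1 : u a i ≠ 0 := fun h => h0 (by simp [h])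
  have h2 : v a j ≠ 0 := fun h => h0 (by simp [h])
  have e1 := (natDegree_lt_iff_degree_lt h1).mpr (mem_degreeLT.mp (hu a i))
  have e2 := (natDegree_lt_iff_degree_lt h2).mpr (mem_degreeLT.mp (hv a j))
  have e3 := hp a i j l
  have e4 := natDegree_mul_le (p := u a i * v a j) (q := p a i j l)
  have e5 := natDegree_mul_le (p := u a i) (q := v a j)
  omega

omit [IsAlgClosed k] in
lemma trilin_add_left {e : ℕ} (p : Fin 3 → Fin e → Fin e → Fin e → k[X])
    (u u' v : Fin 3 → Fin e → k[X]) (l : Fin e) :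
    trilin p (fun a i => u a i + u' a i) v l = trilin p u v l + trilin p u' v l := by
  simp only [trilin, add_mul, Finset.sum_add_distrib]

omit [IsAlgClosed k] in
lemma trilin_smul_left {e : ℕ} (p : Fin 3 → Fin e → Fin e → Fin e → k[X]) (r : k)
    (u v : Fin 3 → Fin e → k[X]) (l : Fin e) :
    trilin p (fun a i => r • u a i) v l = r • trilin p u v l := by
  simp only [trilin, smul_mul_assoc, Finset.smul_sum]

omit [IsAlgClosed k] in
lemma trilin_add_right {e : ℕ} (p : Fin 3 → Fin e → Fin e → Fin e → k[X])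
    (u v v' : Fin 3 → Fin e → k[X]) (l : Fin e) :
    trilin p u (fun a i => v a i + v' a i) l = trilin p u v l + trilin p u v' l := by
  simp only [trilin, mul_add, add_mul, Finset.sum_add_distrib]

omit [IsAlgClosed k] in
lemma trilin_smul_right {e : ℕ} (p : Fin 3 → Fin e → Fin e → Fin e → k[X]) (r : k)
    (u v : Fin 3 → Fin e → k[X]) (l : Fin e) :
    trilin p u (fun a i => r • v a i) l = r • trilin p u v l := by
  simp only [trilin, smul_mul_assoc, mul_smul_comm, Finset.smul_sum]

/-- The polynomial with given coefficients. -/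
noncomputable def toPoly (n : ℕ) : (Fin n → k) →ₗ[k] k[X] :=
  (degreeLT k n).subtype ∘ₗ (degreeLTEquiv k n).symm.toLinearMap

omit [IsAlgClosed k] in
lemma toPoly_mem {n : ℕ} (c : Fin n → k) : toPoly n c ∈ degreeLT k n :=
  ((degreeLTEquiv k n).symm c).2

omit [IsAlgClosed k] in
lemma toPoly_injective (n : ℕ) : Function.Injective (toPoly n : (Fin n → k) →ₗ[k] k[X]) := by
  intro c c' h
  exact (degreeLTEquiv k n).symm.injective (Subtype.ext h)

/-- The bilinear map attached to `trilin`. -/
noncomputable def trilinMap {e : ℕ} (p : Fin 3 → Fin e → Fin e → Fin e → k[X]) (L N : ℕ) :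
    (Fin 3 → Fin e → Fin L → k) →ₗ[k] (Fin 3 → Fin e → Fin L → k) →ₗ[k]
      (Fin e → Fin N → k) :=
  LinearMap.mk₂ k
    (fun u v l m => (trilin p (fun a i => toPoly L (u a i)) (fun a i => toPoly L (v a i)) l).coeff m)
    (fun u u' v => by
      funext l m
      simp only [Pi.add_apply, map_add, trilin_add_left, coeff_add])
    (fun r u v => by
      funext l m
      simp only [Pi.smul_apply, map_smul, trilin_smul_left, coeff_smul])
    (fun u v v' => by
      funext l m
      simp only [Pi.add_apply, map_add, trilin_add_right, coeff_add])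
    (fun r u v => by
      funext l m
      simp only [Pi.smul_apply, map_smul, trilin_smul_right, coeff_smul])

lemma exists_trilin_zero {e : ℕ} (he : 0 < e) (p : Fin 3 → Fin e → Fin e → Fin e → k[X]) :
    ∃ u : Fin 3 → Fin e → k[X], u ≠ 0 ∧ ∀ l, trilin p u u l = 0 := by
  classical
  obtain ⟨d, hd⟩ : ∃ d, ∀ a i j l, (p a i j l).natDegree ≤ d := by
    refine ⟨∑ m : Fin 3 × Fin e × Fin e × Fin e, (p m.1 m.2.1 m.2.2.1 m.2.2.2).natDegree,
      fun a i j l => ?_⟩
    exact Finset.single_le_sum
      (f := fun m : Fin 3 × Fin e × Fin e × Fin e => (p m.1 m.2.1 m.2.2.1 m.2.2.2).natDegree)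
      (fun _ _ => Nat.zero_le _) (Finset.mem_univ (a, i, j, l))
  have hlt : finrank k (Fin e → Fin (2 * d + d + 1) → k) <
      finrank k (Fin 3 → Fin e → Fin (d + 1) → k) := by
    simp only [finrank_pi_fintype, finrank_self, Finset.sum_const, Finset.card_univ,
      Fintype.card_fin, smul_eq_mul]
    nlinarith
  obtain ⟨u, hu, huu⟩ := exists_isotropic_of_finrank_lt
    (trilinMap p (d + 1) (2 * d + d + 1)) hlt
  refine ⟨fun a i => toPoly (d + 1) (u a i), fun h0 => hu ?_, fun l => ?_⟩
  · funext a i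
    apply toPoly_injective (d + 1)
    rw [Pi.zero_apply, Pi.zero_apply, map_zero]
    exact congrFun (congrFun h0 a) i
  · have h1 := trilin_degree p hd (u := fun a i => toPoly (d + 1) (u a i))
      (v := fun a i => toPoly (d + 1) (u a i)) (fun a i => toPoly_mem _) (fun a i => toPoly_mem _) l
    ext m
    rw [coeff_zero]
    by_cases hm : m < 2 * d + d + 1
    · exact congrFun (congrFun huu l) ⟨m, hm⟩
    · rw [mem_degreeLT] at h1
      exact coeff_eq_zero_of_degree_lt (lt_of_lt_of_le h1 (by exact_mod_cast not_lt.mp hm))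

/-- Tsen's theorem for diagonal ternary quadratic forms. -/
theorem tsen (k F : Type*) [Field k] [IsAlgClosed k] [Field F] [Algebra k[X] F]
    [IsFractionRing k[X] F] {κ : Type*} [Field κ] [Algebra F κ] [FiniteDimensional F κ]
    (c : Fin 3 → κ) : ∃ x : Fin 3 → κ, x ≠ 0 ∧ ∑ a, c a * x a ^ 2 = 0 := by
  classical
  let ω := finBasis F κ
  have he0 : 0 < finrank F κ := finrank_pos
  let φ : k[X] →+* κ := (algebraMap F κ).comp (algebraMap k[X] F)
  have hφ : Function.Injective φ :=
    (algebraMap F κ).injective.comp (IsFractionRing.injective k[X] F)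
  obtain ⟨D, hD⟩ := IsLocalization.exist_integer_multiples_of_finite (nonZeroDivisors k[X])
    (fun m : Fin 3 × Fin (finrank F κ) × Fin (finrank F κ) × Fin (finrank F κ) =>
      ω.repr (c m.1 * ω m.2.1 * ω m.2.2.1) m.2.2.2)
  choose p' hp' using hD
  obtain ⟨u, hu, hzero⟩ := exists_trilin_zero he0 (fun a i j l => p' (a, i, j, l))
  have hD0 : φ (D : k[X]) ≠ 0 := by
    intro h
    exact nonZeroDivisors.ne_zero D.2 ((map_eq_zero_iff φ hφ).mp h)
  have h1 : ∀ a i j, φ (D : k[X]) * (c a * ω i * ω j) = ∑ l, φ (p' (a, i, j, l)) * ω l := by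
    intro a i j
    conv_lhs => rw [← ω.sum_repr (c a * ω i * ω j)]
    rw [Finset.mul_sum]
    refine Finset.sum_congr rfl fun l _ => ?_
    have h2 : algebraMap k[X] F (p' (a, i, j, l)) =
        algebraMap k[X] F (D : k[X]) * ω.repr (c a * ω i * ω j) l := by
      have := hp' (a, i, j, l)
      rw [Algebra.smul_def] at this
      exact this
    have h3 : φ (p' (a, i, j, l)) = φ (D : k[X]) * algebraMap F κ (ω.repr (c a * ω i * ω j) l) := by
      rw [RingHom.comp_apply, h2, RingHom.map_mul]
      rfl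
    rw [h3, Algebra.smul_def]
    exact (mul_assoc _ _ _).symm
  refine ⟨fun a => ∑ i, φ (u a i) * ω i, ?_, ?_⟩
  · intro h0
    apply hu
    funext a i
    have h2 : ∑ i, (algebraMap k[X] F (u a i)) • ω i = 0 := by
      refine Eq.trans ?_ (congrFun h0 a)
      refine Finset.sum_congr rfl fun i _ => ?_
      rw [Algebra.smul_def]
      rfl
    have h3 := Fintype.linearIndependent_iff.mp ω.linearIndependent _ h2 i
    exact (map_eq_zero_iff (algebraMap k[X] F) (IsFractionRing.injective k[X] F)).mp h3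
  · have key : φ (D : k[X]) * ∑ a, c a * (∑ i, φ (u a i) * ω i) ^ 2 =
        ∑ l, φ (trilin (fun a i j l => p' (a, i, j, l)) u u l) * ω l := by
      have h2 : ∀ l, φ (trilin (fun a i j l => p' (a, i, j, l)) u u l) * ω l =
          ∑ a, ∑ i, ∑ j, φ (u a i) * φ (u a j) * (φ (p' (a, i, j, l)) * ω l) := by
        intro l
        simp only [trilin, map_sum, map_mul, Finset.sum_mul]
        refine Finset.sum_congr rfl fun a _ => Finset.sum_congr rfl fun i _ =>
          Finset.sum_congr rfl fun j _ => ?_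
        ring
      simp only [h2]
      rw [Finset.sum_comm, Finset.mul_sum]
      refine Finset.sum_congr rfl fun a _ => ?_
      rw [Finset.sum_comm, pow_two, Finset.sum_mul_sum, Finset.mul_sum, Finset.mul_sum]
      refine Finset.sum_congr rfl fun i _ => ?_
      rw [Finset.sum_comm, Finset.mul_sum, Finset.mul_sum]
      refine Finset.sum_congr rfl fun j _ => ?_
      rw [← Finset.mul_sum, ← h1]
      ring
    simp only [hzero, map_zero, zero_mul, Finset.sum_const_zero] at key
    exact (mul_eq_zero.mp key).resolve_left hD0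

end Vale.Agent.P287.Theta
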