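import Vale.Agent.P287.Theta.Harder
import Vale.Agent.P287.Theta.Tsen

/-!
Lagrangian subspaces: (1) over `K = k(x)(y)`, for forms with square determinant and a self-dual
lattice over `k(x)[y]`; (2) over finite extensions of `k(x)`, for all forms with square determinant.
-/

namespace Vale.Agent.P287.Theta

open Module Polynomial Matrix

section sq

variable {K : Type*} [Field K] {ι : Type*} [Fintype ι] [DecidableEq ι]

lemma sq_of_isSquare_det (G : Matrix ι ι K) (h : IsSquare G.det) :
    Sq (Matrix.toBilin' G) (⊤ : Submodule K (ι → K)) := by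
  intro n x _ hxo _ hn
  rw [finrank_top, finrank_fintype_fun_eq_card] at hn
  let e : ι ≃ Fin n := Fintype.equivFinOfCardEq hn.symm
  let X : Matrix ι ι K := fun i => x (e i)
  have h1 : X * G * Xᵀ = Matrix.diagonal fun i => Matrix.toBilin' G (x (e i)) (x (e i)) := by
    ext i j
    have h2 : (X * G * Xᵀ) i j = Matrix.toBilin' G (x (e i)) (x (e j)) := by
      rw [Matrix.toBilin'_apply', Matrix.mul_assoc, Matrix.mul_apply]
      rfl
    rw [h2]
    by_cases hij : i = j
    · subst hij
      rw [Matrix.diagonal_apply_eq]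
    · rw [Matrix.diagonal_apply_ne _ hij, hxo _ _ (fun h => hij (e.injective h))]
  have h3 := congrArg Matrix.det h1
  rw [Matrix.det_mul, Matrix.det_mul, Matrix.det_transpose, Matrix.det_diagonal] at h3
  have h4 : ∏ i, Matrix.toBilin' G (x i) (x i) = ∏ i, Matrix.toBilin' G (x (e i)) (x (e i)) :=
    (Equiv.prod_comp e fun i => Matrix.toBilin' G (x i) (x i)).symm
  rw [h4, ← h3]
  obtain ⟨s, hs⟩ := h
  exact ⟨X.det * s, by rw [hs]; ring⟩

end sq

section K

variable {F : Type*} [Field F]
variable {K : Type*} [Field K] [Algebra F[X] K] [IsFractionRing F[X] K]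
variable {V : Type*} [AddCommGroup V] [Module K V] [Module F[X] V]
  [IsScalarTower F[X] K V] [FiniteDimensional K V] {B : LinearMap.BilinForm K V}

theorem SelfDual.exists_lagrangian (k : Type*) [Field k] [IsAlgClosed k] [CharZero k]
    [Algebra k[X] F] [IsFractionRing k[X] F] {W : Submodule K V} {N : Submodule F[X] V}
    (hN : SelfDual B W N) (hB : ∀ u v, B u v = B v u) (m : ℕ) (hdim : finrank K W = 2 * m)
    (hSq : Sq B W) :
    ∃ U ≤ W, (∀ x ∈ U, ∀ y ∈ U, B x y = 0) ∧ finrank K U = m := by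
  have hinj : Function.Injective (algebraMap F[X] K) := IsFractionRing.injective F[X] K
  obtain ⟨i, hi⟩ := IsAlgClosed.exists_pow_nat_eq (-1 : k) (n := 2) (by norm_num)
  let ψ : k →+* K := (algebraMap F[X] K).comp (C.comp ((algebraMap k[X] F).comp C))
  let χ : k →+* F[X] := (C.comp ((algebraMap k[X] F).comp C))
  have h2 : IsUnit (2 : F[X]) := by
    have : IsUnit (2 : k) := isUnit_iff_ne_zero.mpr two_ne_zero
    have h3 := this.map χ
    rwa [map_ofNat] at h3
  refine Theta.exists_lagrangian hB h2 (i := ψ i) (by rw [← map_pow, hi, map_neg, map_one])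
    {x | ∃ a : F, a ≠ 0 ∧ x = algebraMap F[X] K (C a)} ?_ ?_ ?_ m W N hN hdim hSq
  · rintro a ⟨b, hb, rfl⟩
    exact ⟨(Units.mk0 b hb).map C.toMonoidHom, rfl⟩
  · intro W N hN han hW
    obtain ⟨z, hz, a, ha, hza⟩ := hN.exists_const hB han hW
    exact ⟨z, hz, a, ha, hza⟩
  · intro c hc
    choose a ha hca using hc
    obtain ⟨x, hx, hxs⟩ := tsen k F a
    refine ⟨fun i => algebraMap F[X] K (C (x i)), ?_, ?_⟩
    · intro h0
      apply hx
      funext i
      have := congrFun h0 i
      exact C_eq_zero.mp ((map_eq_zero_iff _ hinj).mp this)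
    · have := congrArg (fun t => algebraMap F[X] K (C t)) hxs
      simp only [map_sum, map_mul, map_pow, map_zero] at this
      rw [← this]
      exact Finset.sum_congr rfl fun i _ => by rw [hca]

end K

section field

variable {κ : Type*} [Field κ]

theorem exists_lagrangian_residue (k : Type*) [Field k] [IsAlgClosed k] [CharZero k]
    (F : Type*) [Field F] [Algebra k[X] F] [IsFractionRing k[X] F]
    [Algebra F κ] [FiniteDimensional F κ] {m : ℕ} {ι : Type*} [Fintype ι] [DecidableEq ι]
    (hι : Fintype.card ι = 2 * m) (G : Matrix ι ι κ) (hG : G.IsSymm) (h0 : G.det ≠ 0)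
    (hsq : IsSquare G.det) :
    ∃ U : Submodule κ (ι → κ), (∀ x ∈ U, ∀ y ∈ U, x ⬝ᵥ G *ᵥ y = 0) ∧ finrank κ U = m := by
  obtain ⟨i, hi⟩ := IsAlgClosed.exists_pow_nat_eq (-1 : k) (n := 2) (by norm_num)
  let ψ : k →+* κ := (algebraMap F κ).comp ((algebraMap k[X] F).comp C)
  have h2 : IsUnit (2 : κ) := by
    have : IsUnit (2 : k) := isUnit_iff_ne_zero.mpr two_ne_zero
    have h3 := this.map ψ
    rwa [map_ofNat] at h3
  have hB : ∀ u v : ι → κ, Matrix.toBilin' G u v = Matrix.toBilin' G v u := by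
    intro u v
    rw [Matrix.toBilin'_apply', Matrix.toBilin'_apply', Matrix.dotProduct_mulVec,
      ← Matrix.mulVec_transpose, hG.eq, dotProduct_comm]
  have hN : SelfDual (O := κ) (Matrix.toBilin' G) (⊤ : Submodule κ (ι → κ))
      (⊤ : Submodule κ (ι → κ)) := by
    refine ⟨fun _ _ => trivial, Module.Finite.fg_top, fun u _ v _ => ?_, fun _ _ _ => trivial,
      fun w _ => ⟨1, one_ne_zero, trivial⟩, ?_⟩
    · exact ⟨_, rfl⟩
    · intro w _ h
      have h1 : G *ᵥ w = 0 := by
        funext j
        have := h (Pi.single j 1) trivial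
        rw [hB, Matrix.toBilin'_apply', single_one_dotProduct] at this
        exact this
      exact Matrix.eq_zero_of_mulVec_eq_zero h0 h1
  obtain ⟨U, -, hU, hUm⟩ := Theta.exists_lagrangian hB h2 (i := ψ i)
    (by rw [← map_pow, hi, map_neg, map_one]) {x | x ≠ 0}
    (fun a ha => ⟨Units.mk0 a ha, rfl⟩) (by
      intro W N hN han hW
      obtain ⟨w, hw, hw0⟩ := Submodule.exists_mem_ne_zero_of_ne_bot hW
      obtain ⟨c, hc, hcw⟩ := hN.span w hw
      refine ⟨c • w, hcw, fun h => ?_⟩
      have := han _ (hN.le _ hcw) h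
      rcases smul_eq_zero.mp this with h1 | h1
      · exact hc h1
      · exact hw0 h1)
    (fun c _ => tsen k F c) m ⊤ ⊤ hN (by rw [finrank_top, finrank_fintype_fun_eq_card, hι])
    (sq_of_isSquare_det G hsq)
  refine ⟨U, fun x hx y hy => ?_, hUm⟩
  have := hU x hx y hy
  rwa [Matrix.toBilin'_apply'] at this

end field

end Vale.Agent.P287.Theta
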