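import Mathlib

/-!
Self-dual lattices over a principal ideal domain, and the existence of large isotropic subspaces.
-/

namespace Vale.Agent.P287.Theta

open Module

variable {O K V : Type*} [CommRing O] [IsDomain O] [IsPrincipalIdealRing O] [Field K]
  [Algebra O K] [IsFractionRing O K] [AddCommGroup V] [Module K V] [Module O V]
  [IsScalarTower O K V] [FiniteDimensional K V]

/-- `N` is a self-dual lattice in the nondegenerate subspace `W`. -/
structure SelfDual (B : LinearMap.BilinForm K V) (W : Submodule K V) (N : Submodule O V) :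
    Prop where
  le : ∀ u ∈ N, u ∈ W
  fg : N.FG
  int : ∀ u ∈ N, ∀ v ∈ N, B u v ∈ (algebraMap O K).range
  dual : ∀ v ∈ W, (∀ u ∈ N, B v u ∈ (algebraMap O K).range) → v ∈ N
  span : ∀ w ∈ W, ∃ c : O, c ≠ 0 ∧ c • w ∈ N
  nd : ∀ w ∈ W, (∀ u ∈ W, B w u = 0) → w = 0

variable {B : LinearMap.BilinForm K V} {W : Submodule K V} {N : Submodule O V}

omit [IsDomain O] [IsPrincipalIdealRing O] [IsFractionRing O K] [FiniteDimensional K V] in
lemma algebraMap_mul_mem {a : O} {x : K} (h : x ∈ (algebraMap O K).range) :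
    algebraMap O K a * x ∈ (algebraMap O K).range :=
  mul_mem (RingHom.mem_range_self _ a) h

omit [IsFractionRing O K] [FiniteDimensional K V] [IsScalarTower O K V] [IsDomain O]
  [IsPrincipalIdealRing O] [Algebra O K] [Module K V] [Field K] in
lemma fg_inf [IsNoetherianRing O] {N : Submodule O V} (h : N.FG) (M : Submodule O V) :
    (N ⊓ M).FG := by
  have := isNoetherian_of_fg_of_noetherian N h
  have : IsNoetherian O ↥(N ⊓ M) := isNoetherian_of_le inf_le_left
  exact (Submodule.fg_top _).mp (IsNoetherian.noetherian ⊤)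

omit [FiniteDimensional K V] [IsFractionRing O K] in
/-- Splitting off a vector of unit norm. -/
lemma SelfDual.split_unit (hN : SelfDual B W N) (hB : ∀ u v, B u v = B v u) {z : V} (hz : z ∈ N)
    {a : Oˣ} (ha : B z z = algebraMap O K a) :
    SelfDual B (W ⊓ LinearMap.ker (B z))
      (N ⊓ (LinearMap.ker (B z)).restrictScalars O) := by
  have hau : algebraMap O K (a⁻¹ : Oˣ) * algebraMap O K a = 1 := by
    rw [← map_mul]; simp
  have ha0 : algebraMap O K (a : O) ≠ 0 := right_ne_zero_of_mul_eq_one hau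
  refine ⟨fun u hu => ⟨hN.le u hu.1, hu.2⟩, fg_inf hN.fg _,
    fun u hu v hv => hN.int u hu.1 v hv.1, ?_, ?_, ?_⟩
  · rintro v ⟨hvW, hvz⟩ hv
    have hvz' : B z v = 0 := hvz
    refine ⟨hN.dual v hvW fun u hu => ?_, hvz⟩
    obtain ⟨b, hb⟩ := hN.int z hz u hu
    have h1 : u - (((a⁻¹ : Oˣ) : O) * b) • z ∈
        N ⊓ (LinearMap.ker (B z)).restrictScalars O := by
      refine ⟨N.sub_mem hu (N.smul_mem _ hz), ?_⟩
      change B z (u - _) = 0
      rw [map_sub, ← algebraMap_smul K, map_smul, ha, smul_eq_mul, map_mul, ← hb]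
      linear_combination (-algebraMap O K b) * hau
    have h2 := hv _ h1
    rw [map_sub, ← algebraMap_smul K, map_smul, hB v z, hvz', smul_zero, sub_zero] at h2
    exact h2
  · rintro w ⟨hw, hwz⟩
    obtain ⟨c, hc, hcw⟩ := hN.span w hw
    refine ⟨c, hc, hcw, ?_⟩
    change B z (c • w) = 0
    have : B z w = 0 := hwz
    rw [← algebraMap_smul K, map_smul, this, smul_zero]
  · rintro w ⟨hw, hwz⟩ h
    have hwz' : B z w = 0 := hwz
    refine hN.nd w hw fun u hu => ?_
    have h1 : u - (B z u / algebraMap O K a) • z ∈ W ⊓ LinearMap.ker (B z) := by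
      refine ⟨W.sub_mem hu (W.smul_mem _ (hN.le z hz)), ?_⟩
      rw [SetLike.mem_coe, LinearMap.mem_ker, map_sub, map_smul, ha, smul_eq_mul, div_mul_cancel₀ _ ha0, sub_self]
    have h2 := h _ h1
    rw [map_sub, map_smul, hB w z, hwz', smul_zero, sub_zero] at h2
    exact h2

omit [FiniteDimensional K V] [IsFractionRing O K] in
/-- Splitting off a hyperbolic plane. -/
lemma SelfDual.split_hyp (hN : SelfDual B W N) (hB : ∀ u v, B u v = B v u) {v w : V} (hv : v ∈ N)
    (hw : w ∈ N) (hvv : B v v = 0) (hww : B w w = 0) (hvw : B v w = 1) :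
    SelfDual B (W ⊓ (LinearMap.ker (B v) ⊓ LinearMap.ker (B w)))
      (N ⊓ (LinearMap.ker (B v) ⊓ LinearMap.ker (B w)).restrictScalars O) := by
  have hwv : B w v = 1 := by rw [hB, hvw]
  refine ⟨fun u hu => ⟨hN.le u hu.1, hu.2⟩, fg_inf hN.fg _,
    fun u hu v hv => hN.int u hu.1 v hv.1, ?_, ?_, ?_⟩
  · rintro x ⟨hxW, hxv, hxw⟩ hx
    have hxv' : B v x = 0 := hxv
    have hxw' : B w x = 0 := hxw
    refine ⟨hN.dual x hxW fun u hu => ?_, hxv, hxw⟩
    obtain ⟨b, hb⟩ := hN.int v hv u hu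
    obtain ⟨c, hc⟩ := hN.int w hw u hu
    have h1 : u - b • w - c • v ∈
        N ⊓ (LinearMap.ker (B v) ⊓ LinearMap.ker (B w)).restrictScalars O := by
      refine ⟨N.sub_mem (N.sub_mem hu (N.smul_mem _ hw)) (N.smul_mem _ hv), ?_, ?_⟩
      · change B v (u - _ - _) = 0
        rw [map_sub, map_sub, ← algebraMap_smul K b, ← algebraMap_smul K c, map_smul, map_smul,
          hvw, hvv, ← hb]
        simp
      · change B w (u - _ - _) = 0
        rw [map_sub, map_sub, ← algebraMap_smul K b, ← algebraMap_smul K c, map_smul, map_smul,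
          hwv, hww, ← hc]
        simp
    have h2 := hx _ h1
    rw [map_sub, map_sub, ← algebraMap_smul K b, ← algebraMap_smul K c, map_smul, map_smul,
      hB x w, hB x v, hxv', hxw', smul_zero, smul_zero, sub_zero, sub_zero] at h2
    exact h2
  · rintro x ⟨hx, hxv, hxw⟩
    obtain ⟨c, hc, hcx⟩ := hN.span x hx
    have hxv' : B v x = 0 := hxv
    have hxw' : B w x = 0 := hxw
    refine ⟨c, hc, hcx, ?_, ?_⟩
    · change B v (c • x) = 0
      rw [← algebraMap_smul K, map_smul, hxv', smul_zero]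
    · change B w (c • x) = 0
      rw [← algebraMap_smul K, map_smul, hxw', smul_zero]
  · rintro x ⟨hx, hxv, hxw⟩ h
    have hxv' : B v x = 0 := hxv
    have hxw' : B w x = 0 := hxw
    refine hN.nd x hx fun u hu => ?_
    have h1 : u - (B v u) • w - (B w u) • v ∈ W ⊓ (LinearMap.ker (B v) ⊓ LinearMap.ker (B w)) := by
      refine ⟨W.sub_mem (W.sub_mem hu (W.smul_mem _ (hN.le w hw))) (W.smul_mem _ (hN.le v hv)),
        ?_, ?_⟩
      · rw [SetLike.mem_coe, LinearMap.mem_ker, map_sub, map_sub, map_smul, map_smul, hvw, hvv]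
        simp
      · rw [SetLike.mem_coe, LinearMap.mem_ker, map_sub, map_sub, map_smul, map_smul, hwv, hww]
        simp
    have h2 := h _ h1
    rw [map_sub, map_sub, map_smul, map_smul, hB x w, hB x v, hxv', hxw', smul_zero, smul_zero,
      sub_zero, sub_zero] at h2
    exact h2

omit [IsDomain O] [FiniteDimensional K V] in
/-- An isotropic vector gives a hyperbolic pair in the lattice. -/
lemma SelfDual.exists_hyp (hN : SelfDual B W N) (hB : ∀ u v, B u v = B v u) (h2 : IsUnit (2 : O))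
    {x : V} (hx : x ∈ W) (hx0 : x ≠ 0) (hxx : B x x = 0) :
    ∃ v ∈ N, ∃ w ∈ N, B v v = 0 ∧ B w w = 0 ∧ B v w = 1 := by
  have hinj : Function.Injective (algebraMap O K) := IsFractionRing.injective O K
  obtain ⟨c, hc, hcx⟩ := hN.span x hx
  have hc' : algebraMap O K c ≠ 0 := by rwa [Ne, map_eq_zero_iff _ hinj]
  -- the ideal of values
  let I : Ideal O := 
    { carrier := {a | ∃ u ∈ N, B (c • x) u = algebraMap O K a}
      add_mem' := by
        rintro a b ⟨u, hu, hua⟩ ⟨v, hv, hvb⟩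
        exact ⟨u + v, N.add_mem hu hv, by rw [map_add, hua, hvb, map_add]⟩
      zero_mem' := ⟨0, N.zero_mem, by simp⟩
      smul_mem' := by
        rintro r a ⟨u, hu, hua⟩
        refine ⟨r • u, N.smul_mem _ hu, ?_⟩
        rw [← algebraMap_smul K r u, map_smul, hua, smul_eq_mul, smul_eq_mul, map_mul] }
  obtain ⟨d, hd⟩ := (IsPrincipalIdealRing.principal I).principal
  have hcB : ∀ u, B (c • x) u = algebraMap O K c * B x u := by
    intro u
    rw [← algebraMap_smul K, map_smul, LinearMap.smul_apply, smul_eq_mul]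
  have hd0 : d ≠ 0 := by
    rintro rfl
    apply hx0
    refine hN.nd x hx fun u hu => ?_
    obtain ⟨e, he, heu⟩ := hN.span u hu
    obtain ⟨b, hb⟩ := hN.int _ hcx _ heu
    have h1 : b ∈ I := ⟨_, heu, hb.symm⟩
    rw [hd] at h1
    have h3 : b = 0 := by simpa using h1
    rw [h3, map_zero, hcB, ← algebraMap_smul K e, map_smul, smul_eq_mul] at hb
    have he' : algebraMap O K e ≠ 0 := by rwa [Ne, map_eq_zero_iff _ hinj]
    have := hb.symm
    simpa [hc', he'] using this
  have hd' : algebraMap O K d ≠ 0 := by rwa [Ne, map_eq_zero_iff _ hinj]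
  set v : V := (algebraMap O K d)⁻¹ • (c • x) with hv
  have hBv : ∀ u, B v u = (algebraMap O K d)⁻¹ * B (c • x) u := by
    intro u
    rw [hv, map_smul, LinearMap.smul_apply, smul_eq_mul]
  have hvN : v ∈ N := by
    refine hN.dual v (W.smul_mem _ (hN.le _ hcx)) fun u hu => ?_
    obtain ⟨b, hb⟩ := hN.int _ hcx u hu
    have h1 : b ∈ I := ⟨u, hu, hb.symm⟩
    rw [hd] at h1
    obtain ⟨e, rfl⟩ := Ideal.mem_span_singleton.mp h1
    refine ⟨e, ?_⟩
    rw [hBv, ← hb, map_mul, inv_mul_cancel_left₀ hd']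
  have hdI : d ∈ I := by rw [hd]; exact Ideal.mem_span_singleton_self d
  obtain ⟨w, hw, hwd⟩ := hdI
  have hvw : B v w = 1 := by
    rw [hBv, hwd, inv_mul_cancel₀ hd']
  have hvv : B v v = 0 := by
    rw [hBv, hcB, hv, map_smul, ← algebraMap_smul K c x, map_smul, hxx]
    simp
  clear_value v
  obtain ⟨a, ha⟩ := hN.int w hw w hw
  obtain ⟨t, ht⟩ := h2
  have ht2 : algebraMap O K (t⁻¹ : Oˣ) * 2 = 1 := by
    have : ((t⁻¹ : Oˣ) : O) * 2 = 1 := by rw [← ht]; simp
    have h3 := congrArg (algebraMap O K) this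
    rw [map_mul, map_one, map_ofNat] at h3
    exact h3
  refine ⟨v, hvN, w - (((t⁻¹ : Oˣ) : O) * a) • v, N.sub_mem hw (N.smul_mem _ hvN), hvv, ?_, ?_⟩
  · rw [← algebraMap_smul K, map_sub, map_sub, map_smul, map_smul, LinearMap.sub_apply,
      LinearMap.sub_apply, LinearMap.smul_apply, LinearMap.smul_apply, hvv, hB w v, hvw, ← ha,
      map_mul]
    simp only [smul_eq_mul]
    linear_combination (-algebraMap O K a) * ht2
  · rw [← algebraMap_smul K, map_sub, map_smul, hvv, hvw]
    simp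

/-- The products of the norms of orthogonal bases are squares. -/
def Sq (B : LinearMap.BilinForm K V) (W : Submodule K V) : Prop :=
  ∀ (n : ℕ) (x : Fin n → V), (∀ i, x i ∈ W) → (∀ i j, i ≠ j → B (x i) (x j) = 0) →
    (∀ i, B (x i) (x i) ≠ 0) → n = finrank K W → IsSquare (∏ i, B (x i) (x i))

lemma finrank_split_unit {z : V} (hz : z ∈ W) (ha : B z z ≠ 0) :
    finrank K ↥(W ⊓ LinearMap.ker (B z)) + 1 = finrank K W := by
  have h1 : (W ⊓ LinearMap.ker (B z)) ⊔ K ∙ z = W := by
    apply le_antisymm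
    · exact sup_le inf_le_left ((Submodule.span_singleton_le_iff_mem _ _).mpr hz)
    · intro w hw
      have : w = (w - (B z w / B z z) • z) + (B z w / B z z) • z := by abel
      rw [this]
      refine Submodule.add_mem_sup ⟨W.sub_mem hw (W.smul_mem _ hz), ?_⟩
        (Submodule.smul_mem _ _ (Submodule.mem_span_singleton_self z))
      rw [SetLike.mem_coe, LinearMap.mem_ker, map_sub, map_smul, smul_eq_mul,
        div_mul_cancel₀ _ ha, sub_self]
  have h2 : (W ⊓ LinearMap.ker (B z)) ⊓ K ∙ z = ⊥ := by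
    rw [eq_bot_iff]
    rintro w ⟨⟨-, hw1⟩, hw2⟩
    obtain ⟨c, rfl⟩ := Submodule.mem_span_singleton.mp hw2
    have h3 : B z (c • z) = 0 := hw1
    rw [map_smul, smul_eq_mul] at h3
    have h4 := (mul_eq_zero.mp h3).resolve_right ha
    simp [h4]
  have hz0 : z ≠ 0 := by rintro rfl; simp at ha
  have h3 := Submodule.finrank_sup_add_finrank_inf_eq (W ⊓ LinearMap.ker (B z)) (K ∙ z)
  rw [h1, h2, finrank_bot, finrank_span_singleton hz0] at h3
  omega

lemma finrank_split_hyp (hB : ∀ u v, B u v = B v u) {v w : V} (hv : v ∈ W) (hw : w ∈ W)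
    (hvv : B v v = 0) (hww : B w w = 0) (hvw : B v w = 1) :
    finrank K ↥(W ⊓ (LinearMap.ker (B v) ⊓ LinearMap.ker (B w))) + 2 = finrank K W := by
  have hwv : B w v = 1 := by rw [hB, hvw]
  have h1 : (W ⊓ (LinearMap.ker (B v) ⊓ LinearMap.ker (B w))) ⊔ (K ∙ v ⊔ K ∙ w) = W := by
    apply le_antisymm
    · exact sup_le inf_le_left (sup_le ((Submodule.span_singleton_le_iff_mem _ _).mpr hv)
        ((Submodule.span_singleton_le_iff_mem _ _).mpr hw))
    · intro u hu
      have : u = (u - (B w u) • v - (B v u) • w) + ((B w u) • v + (B v u) • w) := by abel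
      rw [this]
      refine Submodule.add_mem_sup ⟨W.sub_mem (W.sub_mem hu (W.smul_mem _ hv)) (W.smul_mem _ hw),
        ?_, ?_⟩ (Submodule.add_mem_sup
          (Submodule.smul_mem _ _ (Submodule.mem_span_singleton_self v))
          (Submodule.smul_mem _ _ (Submodule.mem_span_singleton_self w)))
      · rw [SetLike.mem_coe, LinearMap.mem_ker, map_sub, map_sub, map_smul, map_smul, hvv, hvw]
        simp
      · rw [SetLike.mem_coe, LinearMap.mem_ker, map_sub, map_sub, map_smul, map_smul, hww, hwv]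
        simp
  have h2 : (W ⊓ (LinearMap.ker (B v) ⊓ LinearMap.ker (B w))) ⊓ (K ∙ v ⊔ K ∙ w) = ⊥ := by
    rw [eq_bot_iff]
    rintro u ⟨⟨-, hu1, hu2⟩, hu3⟩
    obtain ⟨y, hy, z, hz, rfl⟩ := Submodule.mem_sup.mp hu3
    obtain ⟨c, rfl⟩ := Submodule.mem_span_singleton.mp hy
    obtain ⟨e, rfl⟩ := Submodule.mem_span_singleton.mp hz
    have h3 : B v (c • v + e • w) = 0 := hu1
    have h4 : B w (c • v + e • w) = 0 := hu2
    rw [map_add, map_smul, map_smul, hvv, hvw] at h3
    rw [map_add, map_smul, map_smul, hww, hwv] at h4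
    simp only [smul_eq_mul, mul_zero, mul_one, zero_add, add_zero] at h3 h4
    simp [h3, h4]
  have hv0 : v ≠ 0 := by rintro rfl; simp at hvw
  have hw0 : w ≠ 0 := by rintro rfl; simp at hvw
  have h3 := Submodule.finrank_sup_add_finrank_inf_eq
    (W ⊓ (LinearMap.ker (B v) ⊓ LinearMap.ker (B w))) (K ∙ v ⊔ K ∙ w)
  have h4 := Submodule.finrank_sup_add_finrank_inf_eq (K ∙ v) (K ∙ w)
  have h5 : (K ∙ v) ⊓ (K ∙ w) = ⊥ := by
    rw [eq_bot_iff]
    rintro u ⟨hu1, hu2⟩
    obtain ⟨c, rfl⟩ := Submodule.mem_span_singleton.mp hu1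
    obtain ⟨e, he⟩ := Submodule.mem_span_singleton.mp hu2
    have h6 := congrArg (B v) he
    rw [map_smul, map_smul, hvv, hvw] at h6
    simp only [smul_eq_mul, mul_zero, mul_one] at h6
    rw [← he, h6, zero_smul]
    exact Submodule.zero_mem _
  rw [h5, finrank_bot, finrank_span_singleton hv0, finrank_span_singleton hw0] at h4
  rw [h1, h2, finrank_bot] at h3
  omega

end Vale.Agent.P287.Theta
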