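import Vale.Agent.P287.Theta.LinChange
import Vale.Agent.P287.Theta.Curve
import Vale.Agent.P287.H925.Koszul

/-!
The ideal generated by two forms without common factor is saturated; products of two sections.
-/

namespace Vale.Agent.P287.Theta

open MvPolynomial Vale.Agent.P287 Vale.Agent.P287.H925

lemma exists_matrix_col {c : Fin 3 → ℂ} (hc : c ≠ 0) :
    ∃ P : Matrix (Fin 3) (Fin 3) ℂ, IsUnit P.det ∧ P.mulVec ![0, 0, 1] = c := by
  have key : ∃ P : Matrix (Fin 3) (Fin 3) ℂ, IsUnit P.det ∧ P 2 = c := by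
    by_cases h2 : c 2 = 0
    · by_cases h3 : c 1 = 0
      · have h4 : c 0 ≠ 0 := by
          intro h4
          apply hc
          funext i
          fin_cases i
          · exact h4
          · exact h3
          · exact h2
        refine ⟨Matrix.of ![![0, 1, 0], ![0, 0, 1], c], ?_, rfl⟩
        rw [isUnit_iff_ne_zero]
        simpa [Matrix.det_fin_three, h2, h3] using h4
      · refine ⟨Matrix.of ![![1, 0, 0], ![0, 0, 1], c], ?_, rfl⟩
        rw [isUnit_iff_ne_zero]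
        simpa [Matrix.det_fin_three, h2] using h3
    · refine ⟨Matrix.of ![![1, 0, 0], ![0, 1, 0], c], ?_, rfl⟩
      rw [isUnit_iff_ne_zero]
      simpa [Matrix.det_fin_three] using h2
  obtain ⟨P, hP, hPc⟩ := key
  refine ⟨P.transpose, by rwa [Matrix.det_transpose], ?_⟩
  rw [← hPc]
  funext i
  simp [Matrix.mulVec, dotProduct, Fin.sum_univ_three]

lemma sat_step {f : P3} (h001 : eval ![0, 0, 1] f ≠ 0) (N : ℕ) : ∀ c : P3,
    X 1 * c ∈ Ideal.span {X 0 ^ N, f} → c ∈ Ideal.span {X 0 ^ N, f} := by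
  induction N with
  | zero =>
    intro c _
    rw [pow_zero]
    have : Ideal.span {1, f} = ⊤ :=
      Ideal.eq_top_of_isUnit_mem _ (Ideal.subset_span (by simp)) isUnit_one
    rw [this]
    trivial
  | succ N ih =>
    intro c hc
    obtain ⟨a, b, hab⟩ := Ideal.mem_span_pair.1 hc
    set θ : P3 →ₐ[ℂ] P3 := aeval (![0, X 1, X 2] : Fin 3 → P3) with hθ
    have hθX0 : θ (X 0) = 0 := by simp [hθ]
    have hθX1 : θ (X 1) = X 1 := by simp [hθ]
    have h1 := congrArg θ hab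
    rw [map_add, map_mul, map_mul, map_mul, map_pow, hθX0, hθX1, zero_pow (Nat.succ_ne_zero N),
      mul_zero, zero_add] at h1
    have h2 : ¬ (X 1 : P3) ∣ θ f := by
      rintro ⟨q, hq⟩
      have h3 := congrArg (eval ![0, 0, 1]) hq
      rw [map_mul, eval_X] at h3
      have h4 : eval ![0, 0, 1] (θ f) = eval ![0, 0, 1] f := by
        rw [eval_eq_aeval, eval_eq_aeval, hθ, ← AlgHom.comp_apply, comp_aeval]
        congr 2
        funext i
        fin_cases i <;> simp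
      rw [h4] at h3
      apply h001
      rw [h3]
      simp
    have h3 : (X 1 : P3) ∣ θ b := by
      have h4 : (X 1 : P3) ∣ θ b * θ f := ⟨θ c, h1⟩
      exact ((X_prime (R := ℂ) (i := (1 : Fin 3))).dvd_or_dvd h4).resolve_right h2
    obtain ⟨b', hb'⟩ := h3
    obtain ⟨b'', hb''⟩ := X_dvd_sub b
    change b - θ b = X 0 * b'' at hb''
    rw [hb', sub_eq_iff_eq_add] at hb''
    have h4 : X 1 * (c - f * b') = X 0 * (X 0 ^ N * a + f * b'') := by
      rw [hb''] at hab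
      linear_combination -hab
    have h5 : (X 0 : P3) ∣ c - f * b' := by
      have h6 : (X 0 : P3) ∣ X 1 * (c - f * b') := ⟨_, h4⟩
      exact ((X_prime (R := ℂ) (i := (0 : Fin 3))).dvd_or_dvd h6).resolve_left
        (X_not_dvd_X (by decide))
    obtain ⟨c', hc'⟩ := h5
    have h6 : X 1 * c' = X 0 ^ N * a + f * b'' := by
      rw [hc'] at h4
      apply mul_left_cancel₀ (X_ne_zero (R := ℂ) (0 : Fin 3))
      linear_combination h4
    have h7 : c' ∈ Ideal.span {X 0 ^ N, f} := by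
      apply ih
      rw [h6]
      exact Ideal.mem_span_pair.2 ⟨a, b'', by ring⟩
    obtain ⟨a', d', had⟩ := Ideal.mem_span_pair.1 h7
    rw [sub_eq_iff_eq_add] at hc'
    rw [hc', ← had]
    exact Ideal.mem_span_pair.2 ⟨a', X 0 * d' + b', by ring⟩

lemma sat_pow {f : P3} (h001 : eval ![0, 0, 1] f ≠ 0) (N M : ℕ) (c : P3)
    (h : X 1 ^ M * c ∈ Ideal.span {X 0 ^ N, f}) : c ∈ Ideal.span {X 0 ^ N, f} := by
  induction M with
  | zero => simpa using h
  | succ M ih =>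
    apply ih
    apply sat_step h001
    rwa [← mul_assoc, ← pow_succ']

lemma not_dvd_X_pow {f : P3} {d : ℕ} (hf : f.IsHomogeneous d) (hd : 2 ≤ d) (hp : Prime f)
    (i : Fin 3) (N : ℕ) : ¬ f ∣ X i ^ N := by
  intro h
  obtain ⟨q, hq⟩ := hp.dvd_of_dvd_pow h
  obtain ⟨n, hn, _⟩ := degree_le_of_mul hf (hq ▸ isHomogeneous_X ℂ i) (hq ▸ X_ne_zero i)
  omega

lemma mem_span_aux {f u b : P3} {d : ℕ} (hf : f.IsHomogeneous d) (hd : 2 ≤ d) (hp : Prime f)
    (hfu : ¬ f ∣ u) (h001 : eval ![0, 0, 1] f ≠ 0) {N M : ℕ}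
    (h0 : X 0 ^ N * b ∈ Ideal.span {u, f}) (h1 : X 1 ^ M * b ∈ Ideal.span {u, f}) :
    b ∈ Ideal.span {u, f} := by
  obtain ⟨c₀, d₀, e₀⟩ := Ideal.mem_span_pair.1 h0
  obtain ⟨c₁, d₁, e₁⟩ := Ideal.mem_span_pair.1 h1
  have h2 : f ∣ u * (X 1 ^ M * c₀ - X 0 ^ N * c₁) := by
    refine ⟨X 0 ^ N * d₁ - X 1 ^ M * d₀, ?_⟩
    linear_combination X 1 ^ M * e₀ - X 0 ^ N * e₁
  obtain ⟨q, hq⟩ := (hp.dvd_or_dvd h2).resolve_left hfu
  have h3 : X 1 ^ M * c₀ ∈ Ideal.span {X 0 ^ N, f} :=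
    Ideal.mem_span_pair.2 ⟨c₁, q, by linear_combination -hq⟩
  obtain ⟨t, s, hts⟩ := Ideal.mem_span_pair.1 (sat_pow h001 N M c₀ h3)
  have h4 : f ∣ X 0 ^ N * (b - u * t) := by
    refine ⟨u * s + d₀, ?_⟩
    linear_combination -e₀ - u * hts
  obtain ⟨w, hw⟩ := (hp.dvd_or_dvd h4).resolve_left (not_dvd_X_pow hf hd hp 0 N)
  exact Ideal.mem_span_pair.2 ⟨t, w, by linear_combination -hw⟩

lemma lin_mem_span {A : Matrix (Fin 3) (Fin 3) ℂ} {u f b : P3} (h : b ∈ Ideal.span {u, f}) :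
    lin A b ∈ Ideal.span {lin A u, lin A f} := by
  obtain ⟨p, q, rfl⟩ := Ideal.mem_span_pair.1 h
  exact Ideal.mem_span_pair.2 ⟨lin A p, lin A q, by rw [map_add, map_mul, map_mul]⟩

/-- saturation -/
theorem mem_span_of_locally {f u b : P3} {d : ℕ} (hf : f.IsHomogeneous d) (hd : 2 ≤ d)
    (hp : Prime f) (hfu : ¬ f ∣ u)
    (hloc : ∀ A : Matrix (Fin 3) (Fin 3) ℂ, IsUnit A.det →
      ∃ N, X 0 ^ N * lin A b ∈ Ideal.span {lin A u, lin A f}) : b ∈ Ideal.span {u, f} := by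
  obtain ⟨z, hz⟩ : ∃ z, eval z f ≠ 0 := by
    by_contra hcon
    push Not at hcon
    exact hp.ne_zero (MvPolynomial.funext fun z => by rw [hcon, map_zero])
  have hz0 : z ≠ 0 := by
    rintro rfl
    apply hz
    have h1 := aeval_scale (S := ℂ) hf 0 (0 : Fin 3 → ℂ)
    rw [zero_pow (by omega), zero_mul, ← eval_eq_aeval] at h1
    rw [← h1]
    congr 2
    funext i
    simp
  obtain ⟨P, hP, hPz⟩ := exists_matrix_col hz0
  set S : Matrix (Fin 3) (Fin 3) ℂ := Matrix.of ![![0, 1, 0], ![1, 0, 0], ![0, 0, 1]] with hS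
  have hSS : S * S = 1 := by
    ext i j
    fin_cases i <;> fin_cases j <;> simp [hS, Matrix.mul_apply, Fin.sum_univ_three]
  have hSd : IsUnit S.det := by
    rw [isUnit_iff_ne_zero, hS, Matrix.det_fin_three]
    simp
  have hPS : IsUnit (P * S).det := by
    rw [Matrix.det_mul]
    exact hP.mul hSd
  obtain ⟨N, hN⟩ := hloc P hP
  obtain ⟨M, hM⟩ := hloc (P * S) hPS
  have h1 := lin_mem_span (A := S) hM
  rw [map_mul, map_pow, lin_lin, lin_lin, lin_lin, Matrix.mul_assoc, hSS, Matrix.mul_one] at h1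
  have hSX : lin S (X 0) = X 1 := by
    rw [lin_X]
    simp [hS, Fin.sum_univ_three]
  rw [hSX] at h1
  have hb : lin P b ∈ Ideal.span {lin P u, lin P f} :=
    mem_span_aux (lin_homogeneous P hf) hd ((prime_lin hP).2 hp)
      (fun h => hfu ((lin_dvd_lin hP).1 h)) (by rw [eval_lin, hPz]; exact hz) hN h1
  have h2 := lin_mem_span (A := P⁻¹) hb
  rwa [lin_lin, lin_lin, lin_lin, Matrix.mul_nonsing_inv _ hP, lin_one, lin_one, lin_one] at h2

/-- the product of two sections -/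
theorem mul_mem_span {f u b₁ b₂ : P3} {d e n : ℕ} (hf : f.IsHomogeneous d) (hd : 2 ≤ d)
    (hp : Prime f) (hs : SmoothP f) (hu : u.IsHomogeneous e) (hfu : ¬ f ∣ u)
    (hb : (b₁ * b₂).IsHomogeneous (e + n))
    (h11 : b₁ ^ 2 ∈ Ideal.span {u, f}) (h22 : b₂ ^ 2 ∈ Ideal.span {u, f}) :
    b₁ * b₂ ∈ Ideal.span {u, f} := by
  refine mem_span_of_locally hf hd hp hfu fun A hA => ?_
  have hf' := lin_homogeneous A hf
  have hp' := (prime_lin hA).2 hp
  have hs' := hs.lin hA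
  have hu' := lin_homogeneous A hu
  have hfu' : ¬ lin A f ∣ lin A u := fun h => hfu ((lin_dvd_lin hA).1 h)
  have hfu'' : ¬ cr (lin A f) ∣ cr (lin A u) := fun h =>
    hfu' (dvd_of_cr_dvd hf' hp' (by omega) hu' h)
  obtain ⟨p₁, q₁, e₁⟩ := Ideal.mem_span_pair.1 h11
  obtain ⟨p₂, q₂, e₂⟩ := Ideal.mem_span_pair.1 h22
  have e₁' := congrArg (fun t => cr (lin A t)) e₁
  have e₂' := congrArg (fun t => cr (lin A t)) e₂
  simp only [map_add, map_mul, map_pow] at e₁' e₂'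
  obtain ⟨D, hD⟩ := sqrt_dvd (cr (lin A f)) (prime_cr hf' hp' (by omega))
    (fun x y _ => smooth_cr hf' hs' x y) (cr (lin A b₁) * cr (lin A b₂)) (cr (lin A u))
    (cr (lin A p₁) * cr (lin A p₂)) hfu'' (by
      refine ⟨cr (lin A q₁) * cr (lin A b₂) ^ 2 + cr (lin A u) * cr (lin A p₁) * cr (lin A q₂), ?_⟩
      linear_combination (-(cr (lin A b₂)) ^ 2) * e₁' - (cr (lin A u) * cr (lin A p₁)) * e₂')
  obtain ⟨m, hm⟩ := exists_homogenisation (crTo D)
  obtain ⟨D', hD', hD''⟩ := hm (m + n) (by omega)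
  have hcD : cr D' = D := by rw [cr, AlgHom.comp_apply, hD'', crInv_crTo]
  have h1 : cr (lin A f) ∣ cr (X 0 ^ m * lin A (b₁ * b₂) - lin A u * D') := by
    rw [map_sub, map_mul, map_mul, map_pow, cr_X0, one_pow, one_mul, map_mul, map_mul, hcD]
    exact hD
  have h2 : (X 0 ^ m * lin A (b₁ * b₂) - lin A u * D').IsHomogeneous (e + (m + n)) := by
    have h3 := ((isHomogeneous_X ℂ (0 : Fin 3)).pow m).mul (lin_homogeneous A hb)
    have e3 : 1 * m + (e + n) = e + (m + n) := by ring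
    rw [e3] at h3
    exact h3.sub (hu'.mul hD')
  obtain ⟨q, hq⟩ := dvd_of_cr_dvd hf' hp' (by omega) h2 h1
  exact ⟨m, Ideal.mem_span_pair.2 ⟨D', q, by linear_combination -hq⟩⟩

end Vale.Agent.P287.Theta
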