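import Mathlib

/-!
Total degree and top form of polynomials in `ℂ[x][y]`, by means of `x ↦ t`, `y ↦ z t`.
-/

namespace Vale.Agent.P287.Theta

open Polynomial

/-- `p(x, y) ↦ p(t, z t)`, in `ℂ[z][t]`. -/
noncomputable def Th : ℂ[X][X] →+* ℂ[X][X] :=
  eval₂RingHom (eval₂RingHom ((C : ℂ[X] →+* ℂ[X][X]).comp C) X) (C X * X)

lemma coeff_Th (p : ℂ[X][X]) (d j : ℕ) :
    ((Th p).coeff d).coeff j = if j ≤ d then (p.coeff j).coeff (d - j) else 0 := by
  classical
  induction p using Polynomial.induction_on' with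
  | add p q hp hq =>
    rw [map_add, coeff_add, coeff_add, hp, hq, coeff_add, coeff_add]
    split_ifs <;> simp
  | monomial n a =>
    induction a using Polynomial.induction_on' with
    | add p q hp hq =>
      rw [map_add, map_add, coeff_add, coeff_add, hp, hq, coeff_add]
      split_ifs <;> simp [coeff_monomial]
    | monomial i a =>
      have h1 : Th (monomial n (monomial i a)) = monomial (i + n) (monomial n a) := by
        simp only [Th, coe_eval₂RingHom, eval₂_monomial, RingHom.comp_apply]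
        rw [mul_pow, ← C_pow, ← C_mul_X_pow_eq_monomial, ← C_mul_X_pow_eq_monomial, C_mul, C_pow]
        ring
      rw [h1]
      simp only [coeff_monomial]
      by_cases hd : i + n = d
      · subst hd
        simp only [if_true]
        by_cases hj : n = j
        · subst hj
          simp
        · simp [hj]
          rw [coeff_monomial, if_neg hj]
      · simp only [hd, if_false, coeff_zero]
        by_cases hjd : j ≤ d
        · simp only [hjd, if_true]
          by_cases hj : n = j
          · subst hj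
            simp only [if_true, coeff_monomial]
            rw [if_neg (by omega)]
          · simp [hj]
        · simp [hjd]

/-- Total degree at most `m`. -/
def TD (m : ℕ) (p : ℂ[X][X]) : Prop := (Th p).natDegree ≤ m

/-- The form of degree `m`. -/
noncomputable def top (m : ℕ) (p : ℂ[X][X]) : ℂ[X] := (Th p).coeff m

lemma Th_injective : Function.Injective Th := by
  rw [injective_iff_map_eq_zero]
  intro p hp
  ext j i
  have := coeff_Th p (i + j) j
  rw [hp] at this
  simpa using this.symm

lemma TD_iff (m : ℕ) (p : ℂ[X][X]) :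
    TD m p ↔ ∀ j, p.coeff j ≠ 0 → (p.coeff j).natDegree + j ≤ m := by
  rw [TD, natDegree_le_iff_coeff_eq_zero]
  constructor
  · intro h j hj
    by_contra hlt
    push Not at hlt
    have h1 := h ((p.coeff j).natDegree + j) hlt
    have h2 := coeff_Th p ((p.coeff j).natDegree + j) j
    rw [h1] at h2
    simp only [coeff_zero, le_add_iff_nonneg_left, zero_le, if_true, Nat.add_sub_cancel] at h2
    exact hj (leadingCoeff_eq_zero.mp h2.symm)
  · intro h N hN
    ext j
    rw [coeff_Th, coeff_zero]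
    split_ifs with hj
    · by_cases h0 : p.coeff j = 0
      · rw [h0, coeff_zero]
      · exact coeff_eq_zero_of_natDegree_lt (by have := h j h0; omega)
    · rfl

lemma TD.mono {m n : ℕ} {p : ℂ[X][X]} (h : TD m p) (hmn : m ≤ n) : TD n p := le_trans h hmn

lemma TD_zero (m : ℕ) : TD m 0 := by
  rw [TD, map_zero, natDegree_zero]; exact Nat.zero_le _

lemma TD.add {m : ℕ} {p q : ℂ[X][X]} (hp : TD m p) (hq : TD m q) : TD m (p + q) := by
  rw [TD, map_add]
  exact natDegree_add_le_of_degree_le hp hq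

lemma TD.neg {m : ℕ} {p : ℂ[X][X]} (hp : TD m p) : TD m (-p) := by
  rw [TD, map_neg, natDegree_neg]
  exact hp

lemma TD.sub {m : ℕ} {p q : ℂ[X][X]} (hp : TD m p) (hq : TD m q) : TD m (p - q) := by
  rw [sub_eq_add_neg]
  exact hp.add hq.neg

lemma TD.mul {m n : ℕ} {p q : ℂ[X][X]} (hp : TD m p) (hq : TD n q) : TD (m + n) (p * q) := by
  rw [TD, map_mul]
  exact natDegree_mul_le_of_le hp hq

lemma TD.sum {ι : Type*} (s : Finset ι) {m : ℕ} {p : ι → ℂ[X][X]} (h : ∀ i ∈ s, TD m (p i)) :
    TD m (∑ i ∈ s, p i) := by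
  rw [TD, map_sum]
  exact natDegree_sum_le_of_forall_le s _ h

lemma TD_CC (c : ℂ) : TD 0 (C (C c)) := by
  rw [TD]
  simp [Th]

lemma TD.smul {m : ℕ} {p : ℂ[X][X]} (h : TD m p) (c : ℂ) : TD m (C (C c) * p) := by
  have := (TD_CC c).mul h
  rwa [zero_add] at this

lemma TD.pow {m : ℕ} {p : ℂ[X][X]} (hp : TD m p) (k : ℕ) : TD (k * m) (p ^ k) := by
  rw [TD, map_pow]
  exact natDegree_pow_le_of_le k hp

lemma top_add (m : ℕ) (p q : ℂ[X][X]) : top m (p + q) = top m p + top m q := by
  simp [top]

lemma top_sub (m : ℕ) (p q : ℂ[X][X]) : top m (p - q) = top m p - top m q := by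
  simp [top]

lemma top_sum {ι : Type*} (s : Finset ι) (m : ℕ) (p : ι → ℂ[X][X]) :
    top m (∑ i ∈ s, p i) = ∑ i ∈ s, top m (p i) := by
  simp [top]

lemma top_mul {m n : ℕ} {p q : ℂ[X][X]} (hp : TD m p) (hq : TD n q) :
    top (m + n) (p * q) = top m p * top n q := by
  rw [top, map_mul, coeff_mul_add_eq_of_natDegree_le hp hq]
  rfl

lemma top_CC_mul (m : ℕ) (c : ℂ) (p : ℂ[X][X]) : top m (C (C c) * p) = C c * top m p := by
  have : Th (C (C c)) = C (C c) := by simp [Th]
  rw [top, map_mul, this, coeff_C_mul]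
  rfl

lemma top_eq_zero {m n : ℕ} {p : ℂ[X][X]} (hp : TD m p) (hmn : m < n) : top n p = 0 :=
  coeff_eq_zero_of_natDegree_lt (lt_of_le_of_lt hp hmn)

lemma TD_of_top_eq_zero {m : ℕ} {p : ℂ[X][X]} (hp : TD (m + 1) p) (h0 : top (m + 1) p = 0) :
    TD m p := by
  rw [TD, natDegree_le_iff_coeff_eq_zero]
  intro N hN
  rcases Nat.lt_or_ge (m + 1) N with h | h
  · exact coeff_eq_zero_of_natDegree_lt (lt_of_le_of_lt hp h)
  · obtain rfl : N = m + 1 := by omega
    exact h0

lemma natDegree_top_le (m : ℕ) (p : ℂ[X][X]) : (top m p).natDegree ≤ m := by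
  rw [natDegree_le_iff_coeff_eq_zero]
  intro j hj
  rw [top, coeff_Th, if_neg (by omega)]

/-- Every polynomial of degree at most `m` is a top form. -/
lemma exists_lift {m : ℕ} {w : ℂ[X]} (hw : w.natDegree ≤ m) :
    ∃ p : ℂ[X][X], TD m p ∧ top m p = w := by
  classical
  let p : ℂ[X][X] := ∑ j ∈ Finset.range (m + 1), monomial j (monomial (m - j) (w.coeff j))
  have h1 : ∀ j ∈ Finset.range (m + 1),
      Th (monomial j (monomial (m - j) (w.coeff j))) = monomial m (monomial j (w.coeff j)) := by
    intro j hj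
    have hj' : m - j + j = m := by
      have := Finset.mem_range.mp hj
      omega
    simp only [Th, coe_eval₂RingHom, eval₂_monomial, RingHom.comp_apply]
    conv_rhs => rw [← hj']
    rw [mul_pow, ← C_pow, ← C_mul_X_pow_eq_monomial, ← C_mul_X_pow_eq_monomial, C_mul, C_pow]
    ring
  have h2 : Th p = monomial m w := by
    rw [map_sum, Finset.sum_congr rfl h1, ← map_sum]
    congr 1
    conv_rhs => rw [w.as_sum_range_C_mul_X_pow' (Nat.lt_succ_of_le hw)]
    exact Finset.sum_congr rfl fun j _ => (C_mul_X_pow_eq_monomial).symm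
  refine ⟨p, ?_, ?_⟩
  · rw [TD, h2]
    exact natDegree_monomial_le _
  · rw [top, h2, coeff_monomial, if_pos rfl]

/-- Exact division. -/
lemma TD_of_mul {m n : ℕ} {p q : ℂ[X][X]} (hp : TD m p) (hp0 : top m p ≠ 0)
    (h : TD (m + n) (p * q)) : TD n q := by
  by_cases hq : q = 0
  · rw [hq]; exact TD_zero n
  have hp1 : (Th p).natDegree = m := natDegree_eq_of_le_of_coeff_ne_zero hp hp0
  have hpn : Th p ≠ 0 := by
    intro h0
    rw [top, h0, coeff_zero] at hp0
    exact hp0 rfl
  have hqn : Th q ≠ 0 := by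
    rw [Ne, map_eq_zero_iff _ Th_injective]
    exact hq
  rw [TD, map_mul, natDegree_mul hpn hqn, hp1] at h
  rw [TD]
  omega

lemma top_pow {m : ℕ} {p : ℂ[X][X]} (hp : TD m p) (k : ℕ) : top (k * m) (p ^ k) = top m p ^ k := by
  induction k with
  | zero => simp [top]
  | succ k ih =>
    rw [pow_succ, pow_succ, Nat.succ_mul, top_mul (hp.pow k) hp, ih]

end Vale.Agent.P287.Theta
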