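import Vale.Agent.P287.Theta.Saturate
import Vale.Agent.P287.Theta.ChartTwo

/-!
The case of two sections of the theta characteristic: the quadratic form is isotropic.
-/

namespace Vale.Agent.P287.Theta

open MvPolynomial Vale.Agent.P287 Vale.Agent.P287.H925

/-- A smooth plane sextic with a symmetric determinantal representation, and a plane curve over
which the double plane splits. -/
structure ThetaData (M : Matrix (Fin 4) (Fin 4) P3) (g : P3) (r : ℕ) : Prop where
  sM : M.IsSymm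
  hf : M.det.IsHomogeneous 6
  pf : Prime M.det
  sf : SmoothP M.det
  hδ : (M.adjugate 0 0).IsHomogeneous 3
  δ0 : M.adjugate 0 0 ≠ 0
  hg : g.IsHomogeneous (2 * r)
  pg : Prime g
  hgf : ¬ g ∣ M.det
  hsq : ∃ (e : ℕ) (s c : P3), c.IsHomogeneous e ∧ ¬ g ∣ c ∧ g ∣ c ^ 2 * M.det - s ^ 2

variable {M : Matrix (Fin 4) (Fin 4) P3} {g : P3} {r : ℕ}

lemma not_dvd_of_degree {f q : P3} {d e : ℕ} (hf : f.IsHomogeneous d) (hq : q.IsHomogeneous e)
    (hq0 : q ≠ 0) (h : e < d) : ¬ f ∣ q := by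
  rintro ⟨s, hs⟩
  obtain ⟨n, hn, _⟩ := degree_le_of_mul hf (hs ▸ hq) (hs ▸ hq0)
  omega

lemma ThetaData.hfδ (H : ThetaData M g r) : ¬ M.det ∣ M.adjugate 0 0 :=
  not_dvd_of_degree H.hf H.hδ H.δ0 (by norm_num)

lemma ThetaData.hfg (H : ThetaData M g r) : ¬ M.det ∣ g := by
  intro h
  exact H.hgf (H.pf.irreducible.associated_of_dvd H.pg.irreducible h).symm.dvd

lemma det_map_lin (A : Matrix (Fin 3) (Fin 3) ℂ) (M : Matrix (Fin 4) (Fin 4) P3) :
    (M.map (lin A)).det = lin A M.det := (AlgHom.map_det (lin A) M).symm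

lemma adj_map_lin (A : Matrix (Fin 3) (Fin 3) ℂ) (M : Matrix (Fin 4) (Fin 4) P3) (i j : Fin 4) :
    (M.map (lin A)).adjugate i j = lin A (M.adjugate i j) :=
  (congrFun (congrFun (AlgHom.map_adjugate (lin A) M) i) j).symm

lemma ThetaData.lin (H : ThetaData M g r) {A : Matrix (Fin 3) (Fin 3) ℂ} (hA : IsUnit A.det) :
    ThetaData (M.map (lin A)) (lin A g) r where
  sM := by
    refine Matrix.ext fun i j => ?_
    rw [Matrix.transpose_apply, Matrix.map_apply, Matrix.map_apply, H.sM.apply]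
  hf := by rw [det_map_lin]; exact lin_homogeneous A H.hf
  pf := by rw [det_map_lin]; exact (prime_lin hA).2 H.pf
  sf := by rw [det_map_lin]; exact H.sf.lin hA
  hδ := by rw [adj_map_lin]; exact lin_homogeneous A H.hδ
  δ0 := by
    rw [adj_map_lin]
    intro h
    exact H.δ0 ((map_eq_zero_iff _ (linEquiv A hA).injective).1 h)
  hg := lin_homogeneous A H.hg
  pg := (prime_lin hA).2 H.pg
  hgf := by
    rw [det_map_lin]
    exact fun h => H.hgf ((lin_dvd_lin hA).1 h)
  hsq := by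
    obtain ⟨e, s, c, hc, hgc, h⟩ := H.hsq
    refine ⟨e, Theta.lin A s, Theta.lin A c, lin_homogeneous A hc,
      fun h => hgc ((lin_dvd_lin hA).1 h), ?_⟩
    rw [det_map_lin, ← map_pow, ← map_pow, ← map_mul, ← map_sub]
    exact (lin_dvd_lin hA).2 h

lemma det_map_cr (M : Matrix (Fin 4) (Fin 4) P3) : (M.map cr).det = cr M.det :=
  (AlgHom.map_det cr M).symm

lemma adj_map_cr (M : Matrix (Fin 4) (Fin 4) P3) (i j : Fin 4) :
    (M.map cr).adjugate i j = cr (M.adjugate i j) :=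
  (congrFun (congrFun (AlgHom.map_adjugate cr M) i) j).symm

/-- restriction to the line `x₂ = 0`, in the chart `x₀ = 1` -/
noncomputable def resL : P3 →ₐ[ℂ] Polynomial ℂ :=
  aeval (![1, Polynomial.X, 0] : Fin 3 → Polynomial ℂ)

lemma resL_eq (p : P3) : (cr p).coeff 0 = resL p := by
  rw [Polynomial.coeff_zero_eq_eval_zero]
  have h : (Polynomial.evalRingHom (0 : Polynomial ℂ)).comp
      (cr : P3 →+* Polynomial (Polynomial ℂ)) = (resL : P3 →+* Polynomial ℂ) := by
    apply MvPolynomial.ringHom_ext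
    · intro a
      rw [RingHom.comp_apply]
      have h1 : (cr : P3 →+* Polynomial (Polynomial ℂ)) (C a) =
          Polynomial.C (Polynomial.C a) := cr.commutes a
      have h2 : (resL : P3 →+* Polynomial ℂ) (C a) = Polynomial.C a := resL.commutes a
      rw [h1, h2]
      simp
    · intro i
      rw [RingHom.comp_apply]
      fin_cases i
      · change Polynomial.eval 0 (cr (X 0)) = resL (X 0)
        rw [cr_X0]; simp [resL]
      · change Polynomial.eval 0 (cr (X 1)) = resL (X 1)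
        rw [cr_X1]; simp [resL]
      · change Polynomial.eval 0 (cr (X 2)) = resL (X 2)
        rw [cr_X2]; simp [resL]
  exact RingHom.congr_fun h p

lemma X2_dvd_sub (p : P3) : X 2 ∣ p - aeval (![X 0, X 1, 0] : Fin 3 → P3) p := by
  induction p using MvPolynomial.induction_on with
  | C a => simp
  | add p q hp hq =>
    rw [map_add]
    have : p + q - (aeval (![X 0, X 1, 0] : Fin 3 → P3) p + aeval (![X 0, X 1, 0] : Fin 3 → P3) q)
        = (p - aeval (![X 0, X 1, 0] : Fin 3 → P3) p) +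
          (q - aeval (![X 0, X 1, 0] : Fin 3 → P3) q) := by ring
    rw [this]
    exact dvd_add hp hq
  | mul_X p i hp =>
    rw [map_mul, aeval_X]
    have h1 : X 2 ∣ (X i : P3) - (![X 0, X 1, 0] : Fin 3 → P3) i := by
      fin_cases i <;> simp
    have : p * X i - aeval (![X 0, X 1, 0] : Fin 3 → P3) p * (![X 0, X 1, 0] : Fin 3 → P3) i =
        (p - aeval (![X 0, X 1, 0] : Fin 3 → P3) p) * X i +
          aeval (![X 0, X 1, 0] : Fin 3 → P3) p * (X i - (![X 0, X 1, 0] : Fin 3 → P3) i) := by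
      ring
    rw [this]
    exact dvd_add (hp.mul_right _) (h1.mul_left _)

lemma eval_resL (p : P3) (x : ℂ) : (resL p).eval x = eval ![1, x, 0] p := by
  rw [← resL_eq, Polynomial.coeff_zero_eq_eval_zero, ← evalEval_cr, Polynomial.evalEval,
    Polynomial.C_0]

lemma X2_dvd_of_resL {p : P3} {d : ℕ} (hp : p.IsHomogeneous d) (h : resL p = 0) : X 2 ∣ p := by
  have h1 := X2_dvd_sub p
  have h2 : aeval (![X 0, X 1, 0] : Fin 3 → P3) p = 0 := by
    have h3 : X 0 * aeval (![X 0, X 1, 0] : Fin 3 → P3) p = 0 := by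
      apply MvPolynomial.funext
      intro z
      rw [map_mul, eval_X, map_zero]
      by_cases hz : z 0 = 0
      · rw [hz, zero_mul]
      · have h4 : eval z (aeval (![X 0, X 1, 0] : Fin 3 → P3) p) = eval ![z 0, z 1, 0] p := by
          rw [eval_eq_aeval, eval_eq_aeval, ← AlgHom.comp_apply, comp_aeval]
          congr 2
          funext i
          fin_cases i <;> simp
        have h5 := aeval_scale (S := ℂ) hp (z 0) ![1, z 1 / z 0, 0]
        have h6 : (fun i => z 0 * (![1, z 1 / z 0, 0] : Fin 3 → ℂ) i) = ![z 0, z 1, 0] := by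
          funext i
          fin_cases i
          · simp
          · simp only [Fin.mk_one, Matrix.cons_val_one, Matrix.cons_val_zero]
            field_simp
          · simp
        rw [h6, ← eval_eq_aeval, ← eval_eq_aeval, ← eval_resL, h, Polynomial.eval_zero,
          mul_zero] at h5
        rw [h4, h5, mul_zero]
    exact (mul_eq_zero.1 h3).resolve_left (X_ne_zero 0)
  rwa [h2, sub_zero] at h1

/-- the polynomial of degree `3` with the same restriction -/
lemma exists_cubic_of_sq {f : P3} (hf : f.IsHomogeneous 6) {Q : Polynomial ℂ}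
    (hQ : (cr f).coeff 0 = Q ^ 2) : ∃ q : P3, q.IsHomogeneous 3 ∧ X 2 ∣ f - q ^ 2 := by
  rw [resL_eq] at hQ
  have h1 : (resL f).natDegree ≤ 6 * 1 := by
    refine MvPolynomial.aeval_natDegree_le f hf.totalDegree_le _ fun i => ?_
    fin_cases i
    · simp
    · simp
    · simp
  have h2 : Q.natDegree < 4 := by
    rw [hQ, Polynomial.natDegree_pow] at h1
    omega
  have hq : (∑ i ∈ Finset.range 4, C (Q.coeff i) * X 1 ^ i * X 0 ^ (3 - i) : P3).IsHomogeneous 3 := by
    refine IsHomogeneous.sum _ _ _ fun i hi => ?_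
    have h3 := (isHomogeneous_C_mul_X_pow (Q.coeff i) (1 : Fin 3) i).mul
      ((isHomogeneous_X ℂ (0 : Fin 3)).pow (3 - i))
    have h4 : i + 1 * (3 - i) = 3 := by
      rw [Finset.mem_range] at hi
      omega
    rwa [h4] at h3
  refine ⟨_, hq, X2_dvd_of_resL (d := 6) (hf.sub (hq.pow 2)) ?_⟩
  have h3 : resL (∑ i ∈ Finset.range 4, C (Q.coeff i) * X 1 ^ i * X 0 ^ (3 - i)) = Q := by
    rw [map_sum]
    conv_rhs => rw [Polynomial.as_sum_range' Q 4 h2]
    refine Finset.sum_congr rfl fun i _ => ?_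
    have hC : resL (C (Q.coeff i)) = Polynomial.C (Q.coeff i) := resL.commutes _
    have hX0 : resL (X 0) = 1 := by simp [resL]
    have hX1 : resL (X 1) = Polynomial.X := by simp [resL]
    rw [map_mul, map_mul, map_pow, map_pow, hC, hX0, hX1, one_pow, mul_one,
      Polynomial.C_mul_X_pow_eq_monomial]
  rw [map_sub, map_pow, h3, hQ, sub_self]

/-- on a tritangent line the sextic is a square -/
lemma ThetaData.line (H : ThetaData M g r) {h s t : P3} (hh : h.IsHomogeneous 1) (h0 : h ≠ 0)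
    (hs : s.IsHomogeneous 1) (hfs : ¬ M.det ∣ s)
    (hst : M.det ∣ s ^ 2 * (M.adjugate 0 0 * g * h) - t ^ 2) :
    ∃ q, q.IsHomogeneous 3 ∧ h ∣ M.det - q ^ 2 := by
  obtain ⟨A, hA, hAh⟩ := exists_lin_eq_X hh h0
  have H' := H.lin hA
  have hA' : IsUnit (A⁻¹).det := by rw [Matrix.isUnit_nonsing_inv_det_iff]; exact hA
  have hr1 : 2 * r ≠ 1 := by omega
  have hdc : ∀ {q : P3} {e : ℕ}, q.IsHomogeneous e → ¬ M.det ∣ q →
      ¬ cr (Theta.lin A M.det) ∣ cr (Theta.lin A q) := by
    intro q e hq hn hd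
    have h1 := dvd_of_cr_dvd (lin_homogeneous A H.hf) ((prime_lin hA).2 H.pf) (by norm_num)
      (lin_homogeneous A hq) hd
    exact hn ((lin_dvd_lin hA).1 h1)
  obtain ⟨Q, hQ⟩ := sq_on_line (M := (M.map (Theta.lin A)).map cr) (g := cr (Theta.lin A g))
    (s := cr (Theta.lin A s)) (t := cr (Theta.lin A t))
    (map_symm (cr : P3 →+* Polynomial (Polynomial ℂ)) H'.sM)
    (by rw [det_map_cr]; exact prime_cr H'.hf H'.pf (by norm_num))
    (by
      rw [det_map_cr, adj_map_cr, det_map_lin, adj_map_lin]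
      exact hdc H.hδ H.hfδ)
    (fun x y _ => by rw [det_map_cr]; exact smooth_cr H'.hf H'.sf x y)
    (prime_cr H'.hg H'.pg hr1)
    (by rw [det_map_cr, det_map_lin]; exact hdc H.hg H.hfg)
    (by
      obtain ⟨e, s, c, hc, hgc, h⟩ := H'.hsq
      refine ⟨cr s, cr c, fun h1 => hgc (dvd_of_cr_dvd H'.hg H'.pg hr1 hc h1), ?_⟩
      rw [det_map_cr, ← map_pow, ← map_pow, ← map_mul, ← map_sub]
      exact map_dvd cr h)
    (by
      rw [det_map_cr]
      intro h1
      rw [← Polynomial.X_dvd_iff] at h1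
      have h2 : cr (M.map (Theta.lin A)).det ∣ cr (X 2) := by
        rw [cr_X2]
        exact ((prime_cr H'.hf H'.pf (by norm_num)).irreducible.associated_of_dvd
          Polynomial.prime_X.irreducible
          ((Polynomial.prime_X.irreducible.associated_of_dvd
            (prime_cr H'.hf H'.pf (by norm_num)).irreducible h1).symm.dvd)).dvd
      have h3 := dvd_of_cr_dvd H'.hf H'.pf (by norm_num) (isHomogeneous_X ℂ 2) h2
      exact not_dvd_of_degree H'.hf (isHomogeneous_X ℂ 2) (X_ne_zero 2) (by norm_num) h3)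
    (by rw [det_map_cr, det_map_lin]; exact hdc hs hfs)
    (by
      have h1 := map_dvd cr ((lin_dvd_lin hA).2 hst)
      simp only [map_sub, map_mul, map_pow] at h1
      rw [hAh, cr_X2] at h1
      rw [det_map_cr, adj_map_cr, det_map_lin, adj_map_lin]
      exact h1)
  rw [det_map_cr, det_map_lin] at hQ
  obtain ⟨q, hq, hq'⟩ := exists_cubic_of_sq (lin_homogeneous A H.hf) hQ
  refine ⟨Theta.lin A⁻¹ q, lin_homogeneous _ hq, ?_⟩
  have h1 := (lin_dvd_lin hA').2 hq'
  rwa [map_sub, map_pow, lin_lin, Matrix.mul_nonsing_inv _ hA, lin_one, ← hAh, lin_lin,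
    Matrix.mul_nonsing_inv _ hA, lin_one] at h1


/-- **Two sections**: the quadratic form of the symmetric determinantal representation is
isotropic. -/
theorem ThetaData.isotropic (H : ThetaData M g r) (hr : 1 ≤ r) {b₁ b₂ : P3}
    (hb₁ : b₁.IsHomogeneous (r + 3)) (hb₂ : b₂.IsHomogeneous (r + 3))
    (hind : ∀ c₁ c₂ : ℂ, M.det ∣ C c₁ * b₁ + C c₂ * b₂ → c₁ = 0 ∧ c₂ = 0)
    (h11 : b₁ ^ 2 ∈ Ideal.span {M.adjugate 0 0 * g, M.det})
    (h22 : b₂ ^ 2 ∈ Ideal.span {M.adjugate 0 0 * g, M.det}) :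
    ∃ v : Fin 4 → RatK, v ≠ 0 ∧
      dotProduct v ((M.map (aeval tvec : P3 →ₐ[ℂ] RatK)).mulVec v) = 0 := by
  have hfu : ¬ M.det ∣ M.adjugate 0 0 * g := fun h =>
    (H.pf.dvd_or_dvd h).elim H.hfδ H.hfg
  have h12 : b₁ * b₂ ∈ Ideal.span {M.adjugate 0 0 * g, M.det} := by
    refine mul_mem_span (n := 3) H.hf (by norm_num) H.pf H.sf (H.hδ.mul H.hg) hfu ?_ h11 h22
    have h1 := hb₁.mul hb₂
    have e : r + 3 + (r + 3) = 3 + 2 * r + 3 := by ring
    rwa [e] at h1
  obtain ⟨N, hN, ⟨c, hc, hdet⟩, s, t, ⟨es, hes⟩, ⟨et, het⟩, hs, ht, hst⟩ := pencil H.pf H.hf H.hδ H.hg H.hfδ H.hfg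
    hb₁ hb₂ hind h11 h12 h22 (fun h s t h1 h2 h3 h4 _ h5 => H.line h1 h2 h3 h4 h5)
  have hmap : (M.map cr).map crMap = M.map (aeval tvec : P3 →ₐ[ℂ] RatK) := by
    refine Matrix.ext fun i j => ?_
    rw [Matrix.map_apply, Matrix.map_apply, Matrix.map_apply, crMap_cr]
  rw [← hmap]
  have hr1 : 2 * r ≠ 1 := by omega
  have hd0 : (M.map cr).det = cr M.det := det_map_cr M
  have hfh : ∀ {q : P3} {e : ℕ}, q.IsHomogeneous e → ¬ M.det ∣ q → ¬ cr M.det ∣ cr q :=
    fun hq hn hd => hn (dvd_of_cr_dvd H.hf H.pf (by norm_num) hq hd)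
  refine isotropic_chart (M := M.map cr) (N := N.map cr) (g := cr g) (c := c)
    (map_symm (cr : P3 →+* Polynomial (Polynomial ℂ)) H.sM)
    (map_symm (cr : P3 →+* Polynomial (Polynomial ℂ)) hN) hc ?_ ?_ ?_
    (prime_cr H.hg H.pg hr1) (natDegree_cr_ne_zero H.hg H.pg (by omega)) ?_ ?_ ?_ ?_
    (s := cr s) (t := cr t) ?_ ?_ ?_
  · have h1 : (N.map cr).det = cr N.det := (AlgHom.map_det cr N).symm
    rw [h1, hd0, hdet, map_mul]
    congr 1
    exact cr.commutes c
  · rw [hd0]; exact prime_cr H.hf H.pf (by norm_num)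
  · rw [hd0]; exact natDegree_cr_ne_zero H.hf H.pf (by norm_num)
  · rw [hd0]; exact hfh H.hg H.hfg
  · rw [hd0, adj_map_cr]; exact hfh H.hδ H.hfδ
  · rw [hd0]; exact fun x y _ => smooth_cr H.hf H.sf x y
  · obtain ⟨e, s, c, hc, hgc, h⟩ := H.hsq
    refine ⟨cr s, cr c, fun h1 => hgc (dvd_of_cr_dvd H.hg H.pg hr1 hc h1), ?_⟩
    rw [hd0, ← map_pow, ← map_pow, ← map_mul, ← map_sub]
    exact map_dvd cr h
  · rw [hd0]; exact hfh hes hs
  · rw [hd0]; exact hfh het ht
  · rw [hd0, adj_map_cr]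
    have h1 := map_dvd cr hst
    simp only [map_sub, map_mul, map_pow] at h1
    exact h1

end Vale.Agent.P287.Theta
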