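import Vale.Agent.P287.Theta.Lattice

/-!
A quadratic space of dimension `2m` with square determinant and a self-dual lattice has an
isotropic subspace of dimension `m`, under Tsen-type hypotheses.
-/

namespace Vale.Agent.P287.Theta

open Module

variable {O K V : Type*} [CommRing O] [IsDomain O] [IsPrincipalIdealRing O] [Field K]
  [Algebra O K] [IsFractionRing O K] [AddCommGroup V] [Module K V] [Module O V]
  [IsScalarTower O K V] [FiniteDimensional K V] {B : LinearMap.BilinForm K V}

lemma Sq.split_hyp {W : Submodule K V} (hB : ∀ u v, B u v = B v u) (hK2 : (2 : K) ≠ 0)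
    {i : K} (hi : i ^ 2 = -1)
    {v w : V} (hv : v ∈ W) (hw : w ∈ W)
    (hvv : B v v = 0) (hww : B w w = 0) (hvw : B v w = 1) (h : Sq B W) :
    Sq B (W ⊓ (LinearMap.ker (B v) ⊓ LinearMap.ker (B w))) := by
  have hwv : B w v = 1 := by rw [hB, hvw]
  intro n x hx hxo hxn hn
  have hvx : ∀ j, B v (x j) = 0 := fun j => (hx j).2.1
  have hwx : ∀ j, B w (x j) = 0 := fun j => (hx j).2.2
  have hxv : ∀ j, B (x j) v = 0 := fun j => by rw [hB, hvx]
  have hxw : ∀ j, B (x j) w = 0 := fun j => by rw [hB, hwx]
  have e1 : B (v + w) (v + w) = 2 := by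
    simp [hvv, hww, hvw, hwv]; norm_num
  have e2 : B (v - w) (v - w) = -2 := by
    simp [hvv, hww, hvw, hwv]; norm_num
  have e3 : B (v + w) (v - w) = 0 := by
    simp [hvv, hww, hvw, hwv]
  have e4 : B (v - w) (v + w) = 0 := by rw [hB, e3]
  have h1 := h (n + 2) (Fin.cons (v + w) (Fin.cons (v - w) x)) (by
      intro j
      refine Fin.cases ?_ (fun j => ?_) j
      · exact W.add_mem hv hw
      · refine Fin.cases ?_ (fun j => ?_) j
        · exact W.sub_mem hv hw
        · exact (hx j).1) (by
      intro j k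
      refine Fin.cases ?_ (fun j => ?_) j <;> refine Fin.cases ?_ (fun k => ?_) k
      · intro h; exact absurd rfl h
      · refine Fin.cases ?_ (fun k => ?_) k
        · intro _; exact e3
        · intro _; simp [hvx, hwx]
      · refine Fin.cases ?_ (fun j => ?_) j
        · intro _; exact e4
        · intro _; simp [hxv, hxw]
      · refine Fin.cases ?_ (fun j => ?_) j <;> refine Fin.cases ?_ (fun k => ?_) k
        · intro h; exact absurd rfl h
        · intro _; simp [hvx, hwx]
        · intro _; simp [hxv, hxw]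
        · intro hjk
          simp only [Fin.cons_succ]
          exact hxo j k (fun h => hjk (by rw [h]))) (by
      intro j
      refine Fin.cases ?_ (fun j => ?_) j
      · simp only [Fin.cons_zero, e1]
        exact hK2
      · refine Fin.cases ?_ (fun j => ?_) j
        · simp only [Fin.cons_succ, Fin.cons_zero, e2]
          exact neg_ne_zero.mpr hK2
        · simp only [Fin.cons_succ]
          exact hxn j) (by
      rw [← finrank_split_hyp hB hv hw hvv hww hvw, hn])
  simp only [Fin.prod_univ_succ, Fin.cons_zero, Fin.cons_succ, e1, e2] at h1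
  obtain ⟨s, hs⟩ := h1
  refine ⟨s * i / 2, ?_⟩
  field_simp
  linear_combination hs * (-1) - s ^ 2 * hi

/-- Existence of a Lagrangian subspace. -/
theorem exists_lagrangian (hB : ∀ u v, B u v = B v u) (h2 : IsUnit (2 : O))
    {i : K} (hi : i ^ 2 = -1) (S : Set K)
    (hS : ∀ a ∈ S, ∃ b : Oˣ, algebraMap O K b = a)
    (hT1 : ∀ (W : Submodule K V) (N : Submodule O V), SelfDual B W N →
      (∀ x ∈ W, B x x = 0 → x = 0) → W ≠ ⊥ → ∃ z ∈ N, B z z ∈ S)
    (hT2 : ∀ c : Fin 3 → K, (∀ i, c i ∈ S) → ∃ x : Fin 3 → K, x ≠ 0 ∧ ∑ i, c i * x i ^ 2 = 0)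
    (m : ℕ) (W : Submodule K V) (N : Submodule O V) (hN : SelfDual B W N)
    (hdim : finrank K W = 2 * m) (hSq : Sq B W) :
    ∃ U ≤ W, (∀ x ∈ U, ∀ y ∈ U, B x y = 0) ∧ finrank K U = m := by
  have hK2 : (2 : K) ≠ 0 := by
    have := (h2.map (algebraMap O K)).ne_zero
    rwa [map_ofNat] at this
  have hS0 : ∀ a ∈ S, a ≠ 0 := by
    intro a ha
    obtain ⟨b, rfl⟩ := hS a ha
    exact (b.isUnit.map (algebraMap O K)).ne_zero
  induction m generalizing W N with
  | zero =>
    exact ⟨⊥, bot_le, by simp, by simp⟩
  | succ m ih =>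
    by_cases h : ∃ x ∈ W, x ≠ 0 ∧ B x x = 0
    · obtain ⟨x, hx, hx0, hxx⟩ := h
      obtain ⟨v, hv, w, hw, hvv, hww, hvw⟩ := hN.exists_hyp hB h2 hx hx0 hxx
      have hvW := hN.le v hv
      have hwW := hN.le w hw
      have hfr := finrank_split_hyp hB hvW hwW hvv hww hvw
      obtain ⟨U, hUW, hUi, hUm⟩ := ih _ _ (hN.split_hyp hB hv hw hvv hww hvw) (by omega)
        (hSq.split_hyp hB hK2 hi hvW hwW hvv hww hvw)
      refine ⟨U ⊔ K ∙ v, ?_, ?_, ?_⟩
      · exact sup_le (hUW.trans inf_le_left) ((Submodule.span_singleton_le_iff_mem _ _).mpr hvW)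
      · have h1 : ∀ u ∈ U, B v u = 0 := fun u hu => (hUW hu).2.1
        have h2 : ∀ u ∈ U, B u v = 0 := fun u hu => by rw [hB, h1 u hu]
        intro y hy z hz
        obtain ⟨y1, hy1, y2, hy2, rfl⟩ := Submodule.mem_sup.mp hy
        obtain ⟨z1, hz1, z2, hz2, rfl⟩ := Submodule.mem_sup.mp hz
        obtain ⟨a, rfl⟩ := Submodule.mem_span_singleton.mp hy2
        obtain ⟨b, rfl⟩ := Submodule.mem_span_singleton.mp hz2
        simp [hUi y1 hy1 z1 hz1, h1 z1 hz1, h2 y1 hy1, hvv]
      · have hvU : U ⊓ K ∙ v = ⊥ := by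
          rw [eq_bot_iff]
          rintro u ⟨hu1, hu2⟩
          obtain ⟨c, rfl⟩ := Submodule.mem_span_singleton.mp hu2
          have h3 : B w (c • v) = 0 := (hUW hu1).2.2
          rw [map_smul, hB, hvw, smul_eq_mul, mul_one] at h3
          simp [h3]
        have hv0 : v ≠ 0 := by rintro rfl; simp at hvw
        have h3 := Submodule.finrank_sup_add_finrank_inf_eq U (K ∙ v)
        rw [hvU, finrank_bot, finrank_span_singleton hv0] at h3
        omega
    · exfalso
      push Not at h
      have han : ∀ x ∈ W, B x x = 0 → x = 0 := by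
        intro x hx hxx
        by_contra h0
        exact h x hx h0 hxx
      have hne : ∀ W' : Submodule K V, 0 < finrank K W' → W' ≠ ⊥ := by
        rintro W' h0 rfl
        simp at h0
      obtain ⟨z1, hz1, hz1S⟩ := hT1 W N hN han (hne W (by omega))
      obtain ⟨a1, ha1⟩ := hS _ hz1S
      have hN1 := hN.split_unit hB hz1 ha1.symm
      have hf1 := finrank_split_unit (B := B) (hN.le _ hz1) (hS0 _ hz1S)
      obtain ⟨z2, hz2, hz2S⟩ := hT1 _ _ hN1 (fun x hx => han x hx.1) (hne _ (by omega))
      have h12 : B z1 z2 = 0 := hz2.2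
      have hz2W : z2 ∈ W := (hN1.le _ hz2).1
      by_cases hm : m = 0
      · subst hm
        obtain ⟨s, hs⟩ := hSq 2 ![z1, z2] (by
            intro j; fin_cases j
            · exact hN.le _ hz1
            · exact hz2W) (by
            intro j k hjk
            fin_cases j <;> fin_cases k
            · exact absurd rfl hjk
            · exact h12
            · change B z2 z1 = 0
              rw [hB, h12]
            · exact absurd rfl hjk) (by
            intro j; fin_cases j
            · exact hS0 _ hz1S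
            · exact hS0 _ hz2S) (by omega)
        simp only [Fin.prod_univ_two, Matrix.cons_val_zero, Matrix.cons_val_one] at hs
        have hs0 : s ≠ 0 := by
          rintro rfl
          rw [mul_zero] at hs
          rcases mul_eq_zero.mp hs with h0 | h0
          · exact hS0 _ hz1S h0
          · exact hS0 _ hz2S h0
        have h5 : B (s • z1 + (i * B z1 z1) • z2) (s • z1 + (i * B z1 z1) • z2) = 0 := by
          have h21 : B z2 z1 = 0 := by rw [hB, h12]
          simp only [map_add, map_smul, LinearMap.add_apply, LinearMap.smul_apply, h12, h21,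
            smul_eq_mul, mul_zero, add_zero, zero_add]
          linear_combination (-(B z1 z1)) * hs + (B z1 z1) ^ 2 * (B z2 z2) * hi
        have h6 := han _ (W.add_mem (W.smul_mem _ (hN.le _ hz1)) (W.smul_mem _ hz2W)) h5
        have h7 := congrArg (B z1) h6
        rw [map_add, map_smul, map_smul, h12, map_zero, smul_zero, add_zero, smul_eq_mul] at h7
        rcases mul_eq_zero.mp h7 with h0 | h0
        · exact hs0 h0
        · exact hS0 _ hz1S h0
      · obtain ⟨a2, ha2⟩ := hS _ hz2S
        have hN2 := hN1.split_unit hB hz2 ha2.symm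
        have hf2 := finrank_split_unit (B := B) (hN1.le _ hz2) (hS0 _ hz2S)
        obtain ⟨z3, hz3, hz3S⟩ := hT1 _ _ hN2 (fun x hx => han x hx.1.1) (hne _ (by omega))
        have h13 : B z1 z3 = 0 := hz3.1.2
        have h23 : B z2 z3 = 0 := hz3.2
        have hz3W : z3 ∈ W := (hN2.le _ hz3).1.1
        have h21 : B z2 z1 = 0 := by rw [hB, h12]
        have h31 : B z3 z1 = 0 := by rw [hB, h13]
        have h32 : B z3 z2 = 0 := by rw [hB, h23]
        obtain ⟨x, hx, hxs⟩ := hT2 ![B z1 z1, B z2 z2, B z3 z3] (by
          intro j; fin_cases j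
          · exact hz1S
          · exact hz2S
          · exact hz3S)
        simp only [Fin.sum_univ_three, Matrix.cons_val_zero, Matrix.cons_val_one,
          Matrix.cons_val_two, Matrix.tail_cons, Matrix.head_cons] at hxs
        have h5 : B (x 0 • z1 + x 1 • z2 + x 2 • z3) (x 0 • z1 + x 1 • z2 + x 2 • z3) = 0 := by
          simp only [map_add, map_smul, LinearMap.add_apply, LinearMap.smul_apply, h12, h21, h13,
            h31, h23, h32, smul_eq_mul, mul_zero, add_zero, zero_add]
          linear_combination hxs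
        have h6 := han _ (W.add_mem (W.add_mem (W.smul_mem _ (hN.le _ hz1))
          (W.smul_mem _ hz2W)) (W.smul_mem _ hz3W)) h5
        apply hx
        have k1 := congrArg (B z1) h6
        have k2 := congrArg (B z2) h6
        have k3 := congrArg (B z3) h6
        simp only [map_add, map_smul, h12, h21, h13, h31, h23, h32, mul_zero, add_zero, zero_add,
          smul_eq_mul, map_zero, mul_eq_zero] at k1 k2 k3
        funext j
        fin_cases j
        · exact k1.resolve_right (hS0 _ hz1S)
        · exact k2.resolve_right (hS0 _ hz2S)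
        · exact k3.resolve_right (hS0 _ hz3S)

end Vale.Agent.P287.Theta
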