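import Vale.Agent.P287.Theta.TwoSections

/-!
Smooth plane curves are irreducible; further reductions for the two sections theorem.
-/

namespace Vale.Agent.P287.Theta

open MvPolynomial Vale.Agent.P287 Vale.Agent.P287.H925

lemma isUnit_of_homog_zero {a : P3} (ha : a.IsHomogeneous 0) (h0 : a ≠ 0) : IsUnit a := by
  have h2 : a = C (a.coeff 0) := by
    rw [← totalDegree_eq_zero_iff_eq_C]
    exact ha.totalDegree h0
  rw [h2]
  refine (isUnit_iff_ne_zero.2 ?_).map C
  intro h3
  rw [h3, map_zero] at h2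
  exact h0 h2

lemma aeval_zero_of_homog {a : P3} {d : ℕ} (ha : a.IsHomogeneous d) (hd : d ≠ 0) :
    aeval (0 : Fin 3 → ℂ) a = 0 := by
  have h1 := aeval_scale (S := ℂ) ha 0 (0 : Fin 3 → ℂ)
  rw [zero_pow hd, zero_mul] at h1
  rw [← h1]
  congr 2
  funext i
  simp

/-- a smooth plane curve is irreducible -/
theorem prime_of_smoothP {f : P3} {d : ℕ} (hf : f.IsHomogeneous d) (hd : d ≠ 0)
    (hs : SmoothP f) : Prime f := by
  have hf0 : f ≠ 0 := by
    rintro rfl
    have h1 := hs (fun _ => 1) (fun i => by simp)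
    exact one_ne_zero (congrFun h1 0)
  refine (irreducible_iff_prime).1 ⟨?_, ?_⟩
  · intro hu
    rw [isUnit_iff_eq_C_of_isReduced] at hu
    obtain ⟨c, _, hc⟩ := hu
    have h1 := hf.totalDegree hf0
    rw [hc, totalDegree_C] at h1
    exact hd h1.symm
  · intro a b hab
    have hab0 : a * b ≠ 0 := hab ▸ hf0
    obtain ⟨m, hm⟩ := homog_of_mul (hab ▸ hf) hab0
    obtain ⟨n, _, hn⟩ := degree_le_of_mul hm (hab ▸ hf) hab0
    by_cases hm0 : m = 0
    · subst hm0
      exact Or.inl (isUnit_of_homog_zero hm (left_ne_zero_of_mul hab0))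
    by_cases hn0 : n = 0
    · subst hn0
      exact Or.inr (isUnit_of_homog_zero hn (right_ne_zero_of_mul hab0))
    exfalso
    obtain ⟨z, hz, hz'⟩ := exists_common_zero (n := 3) (r := 2) (by norm_num) ![a, b] (by
      intro i
      fin_cases i
      · exact aeval_zero_of_homog hm hm0
      · exact aeval_zero_of_homog hn hn0)
    apply hz
    apply hs
    intro i
    have h1 : eval z a = 0 := by rw [eval_eq_aeval]; exact hz' 0
    have h2 : eval z b = 0 := by rw [eval_eq_aeval]; exact hz' 1
    rw [hab, pderiv_mul, map_add, map_mul, map_mul, h1, h2, mul_zero, zero_mul, add_zero]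

/-- If the distinguished minor vanishes the form is isotropic. -/
lemma isotropic_of_minor {M : Matrix (Fin 4) (Fin 4) P3} (h0 : M.adjugate 0 0 = 0) :
    ∃ v : Fin 4 → RatK, v ≠ 0 ∧
      dotProduct v ((M.map (aeval tvec : P3 →ₐ[ℂ] RatK)).mulVec v) = 0 := by
  set N := M.map (aeval tvec : P3 →ₐ[ℂ] RatK) with hN
  have h1 : (N.submatrix Fin.succ Fin.succ).det = 0 := by
    have h2 : N.adjugate 0 0 = 0 := by
      have := congrFun (congrFun (AlgHom.map_adjugate (aeval tvec : P3 →ₐ[ℂ] RatK) M) 0) 0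
      rw [AlgHom.mapMatrix_apply, AlgHom.mapMatrix_apply, Matrix.map_apply, h0, map_zero] at this
      exact this.symm
    rw [Matrix.adjugate_fin_succ_eq_det_submatrix] at h2
    simpa using h2
  obtain ⟨w, hw, hw'⟩ := Matrix.exists_mulVec_eq_zero_iff.2 h1
  refine ⟨Fin.cons 0 w, ?_, ?_⟩
  · intro h
    apply hw
    funext i
    exact congrFun h i.succ
  · have h3 : ∀ i : Fin 3, (N.mulVec (Fin.cons 0 w : Fin 4 → RatK)) i.succ = 0 := by
      intro i
      rw [Matrix.mulVec, dotProduct, Fin.sum_univ_succ, Fin.cons_zero, mul_zero, zero_add]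
      have := congrFun hw' i
      rw [Matrix.mulVec, dotProduct] at this
      simpa using this
    rw [dotProduct, Fin.sum_univ_succ, Fin.cons_zero, zero_mul, zero_add]
    refine Finset.sum_eq_zero fun i _ => ?_
    rw [h3, mul_zero]

end Vale.Agent.P287.Theta
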